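import Vale.Agent.P231.WA.Deg
import Vale.Agent.P231.WF.Deg
import Vale.Agent.P231.Q.Deg

/-!
# P231: comparison of the three notions of degree

`Form.IsDeg k a` (`WA.Deg`), `WF.IsDeg a k` (`WF.Deg`) and `Q.IsDeg k w` (`Q.Deg`) agree.
-/

set_option linter.unusedSectionVars false
set_option linter.unusedVariables false

open Set Module Filter Topology
open scoped ContDiff

namespace Vale.Agent.P231.DegC

open Fm Vale.Agent.P231.WA

section Lam

variable {E : Type*} [NormedAddCommGroup E] [NormedSpace ℝ E] [FiniteDimensional ℝ E]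

theorem mem_hom_iff {k : ℕ} {w : Lam E} : w ∈ WF.hom E k ↔ prt k w = w := by
  constructor
  · intro hw
    induction k generalizing w with
    | zero =>
      obtain ⟨r, rfl⟩ := WF.mem_hom_zero.1 hw
      rw [prt_algebraMap, if_pos rfl]
    | succ k ih =>
      refine WF.hom_succ_induction (C := fun w => prt (k + 1) w = w) (map_zero _) ?_ ?_ hw
      · intro a v hv
        rw [prt_succ_dxl_mul, ih hv]
      · intro v w hv hw
        rw [map_add, hv, hw]
  · intro h
    have h1 := prt_mem k w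
    rw [h] at h1
    exact h1

theorem prt_mem_hom (k : ℕ) (w : Lam E) : prt k w ∈ WF.hom E k :=
  mem_hom_iff.2 (prt_prt_self k w)

theorem q_of_mem_hom {k : ℕ} {w : Lam E} (hw : w ∈ WF.hom E k) : Q.IsDeg k w := by
  induction k generalizing w with
  | zero =>
    obtain ⟨r, rfl⟩ := WF.mem_hom_zero.1 hw
    change Fm.pull _ _ = _
    rw [AlgHom.commutes, pow_zero, one_smul]
  | succ k ih =>
    refine WF.hom_succ_induction (C := fun w => Q.IsDeg (k + 1) w) ?_ ?_ ?_ hw
    · change Fm.pull _ _ = _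
      rw [map_zero, smul_zero]
    · intro a v hv
      have h1 := ih hv
      change Fm.pull (Q.hom E 2) (dxl a * v) = _
      have h1' : Fm.pull (Q.hom E 2) v = (2 : ℝ) ^ k • v := h1
      rw [map_mul, h1', pull_dxl, ContinuousLinearMap.comp_smul, ContinuousLinearMap.comp_id,
        map_smul, smul_mul_smul_comm, pow_succ']
    · intro v w hv hw
      change Fm.pull (Q.hom E 2) (v + w) = _
      have hv' : Fm.pull (Q.hom E 2) v = (2 : ℝ) ^ (k + 1) • v := hv
      have hw' : Fm.pull (Q.hom E 2) w = (2 : ℝ) ^ (k + 1) • w := hw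
      rw [map_add, hv', hw', smul_add]

theorem mem_hom_iff_q {k : ℕ} {w : Lam E} : w ∈ WF.hom E k ↔ Q.IsDeg k w := by
  refine ⟨q_of_mem_hom, fun h => mem_hom_iff.2 ?_⟩
  have h1 : ∀ j, prt j (Fm.pull (Q.hom E 2) w) = (2 : ℝ) ^ j • prt j w := fun j => by
    rw [prt_pull]
    exact q_of_mem_hom (prt_mem_hom j w)
  have h2 : Fm.pull (Q.hom E 2) w = (2 : ℝ) ^ k • w := h
  have h3 : ∀ j, j ≠ k → prt j w = 0 := fun j hj => by
    have h4 := h1 j
    rw [h2, map_smul] at h4
    have h5 : ((2 : ℝ) ^ k - 2 ^ j) • prt j w = 0 := by rw [sub_smul, h4, sub_self]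
    have h6 : ((2 : ℝ) ^ k - 2 ^ j) ≠ 0 := sub_ne_zero.2 fun h =>
      hj (pow_right_injective₀ (by norm_num : (0 : ℝ) < 2) (by norm_num) h).symm
    exact (smul_eq_zero.1 h5).resolve_left h6
  obtain ⟨N, hN⟩ := exists_sum_prt w
  have h4 := hN (max N (k + 1)) (le_max_left _ _)
  rw [Finset.sum_eq_single_of_mem k (Finset.mem_range.2 (by
    have := le_max_right N (k + 1); omega)) (fun j _ hj => h3 j hj)] at h4
  exact h4.symm

theorem q_iff_prt {k : ℕ} {w : Lam E} : Q.IsDeg k w ↔ prt k w = w :=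
  mem_hom_iff_q.symm.trans mem_hom_iff

end Lam

section Forms

variable {X : Type*} {D : Dif X} {a : Form D} {k : ℕ}

theorem wf_iff : WF.IsDeg a k ↔ Form.IsDeg k a := by
  constructor
  · intro h
    refine Form.ext_val fun E _ _ _ u x hu => ?_
    rw [Form.part_val]
    exact mem_hom_iff.1 (h hu)
  · intro h E _ _ _ u x hu
    refine mem_hom_iff.2 ?_
    rw [← Form.part_val, h.part_eq]

theorem toWF (h : Form.IsDeg k a) : WF.IsDeg a k := wf_iff.2 h

theorem ofWF (h : WF.IsDeg a k) : Form.IsDeg k a := wf_iff.1 h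

/-- the degree, in plots -/
theorem q_val (h : Form.IsDeg k a) {E : Type} [NormedAddCommGroup E] [NormedSpace ℝ E]
    [FiniteDimensional ℝ E] {u : E → X} {x : E} (hu : D.At u x) : Q.IsDeg k (a.val u x) :=
  mem_hom_iff_q.1 (toWF h hu)

theorem of_q (h : ∀ {E : Type} [NormedAddCommGroup E] [NormedSpace ℝ E] [FiniteDimensional ℝ E]
    {u : E → X} {x : E}, D.At u x → Q.IsDeg k (a.val u x)) : Form.IsDeg k a :=
  ofWF fun hu => mem_hom_iff_q.2 (h hu)

end Forms

end Vale.Agent.P231.DegC
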