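import Vale.Agent.P231.S2I.Quat

/-!
# P231, block S2-I (I5): lifting a sphere of rotations to unit quaternions
-/

set_option linter.unusedSectionVars false

open Module Set Filter Metric
open scoped ContDiff Topology Quaternion RealInnerProductSpace

noncomputable section

namespace Vale.Agent.P231.S2I

open Fm (rad SphMap)

/-- diagonal matrices -/
def dg (a b c : ℝ) : M3 := fun i j => if i = j then ![a, b, c] i else 0

theorem isRot_I : IsRot (mkq 0 1 0 0) (dg 1 (-1) (-1)) := by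
  refine ⟨?_, fun v => ?_⟩
  · have h : ‖mkq 0 1 0 0‖ * ‖mkq 0 1 0 0‖ = 1 := by
      rw [← Quaternion.normSq_eq_norm_mul_self, Quaternion.normSq_def']
      simp
    nlinarith [norm_nonneg (mkq 0 1 0 0)]
  · rw [Quaternion.ext_iff]
    simp [qv, mv, dg]

theorem isRot_J : IsRot (mkq 0 0 1 0) (dg (-1) 1 (-1)) := by
  refine ⟨?_, fun v => ?_⟩
  · have h : ‖mkq 0 0 1 0‖ * ‖mkq 0 0 1 0‖ = 1 := by
      rw [← Quaternion.normSq_eq_norm_mul_self, Quaternion.normSq_def']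
      simp
    nlinarith [norm_nonneg (mkq 0 0 1 0)]
  · rw [Quaternion.ext_iff]
    simp [qv, mv, dg]

theorem isRot_K : IsRot (mkq 0 0 0 1) (dg (-1) (-1) 1) := by
  refine ⟨?_, fun v => ?_⟩
  · have h : ‖mkq 0 0 0 1‖ * ‖mkq 0 0 0 1‖ = 1 := by
      rw [← Quaternion.normSq_eq_norm_mul_self, Quaternion.normSq_def']
      simp
    nlinarith [norm_nonneg (mkq 0 0 0 1)]
  · rw [Quaternion.ext_iff]
    simp [qv, mv, dg]

theorem isSO_dg {a b c : ℝ} (ha : a * a = 1) (hb : b * b = 1) (hc : c * c = 1)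
    (h : a * b * c = 1) : IsSO (dg a b c) := by
  refine ⟨?_, ?_⟩
  · ext i j
    fin_cases i <;> fin_cases j <;>
      simp [Matrix.mul_apply, dg, ha, hb, hc]
  · rw [Matrix.det_fin_three]
    simp [dg, h]

theorem mm_dg_dg {a b c : ℝ} (Q : M3) (ha : a * a = 1) (hb : b * b = 1) (hc : c * c = 1) :
    mm (mm Q (dg a b c)) (dg a b c) = Q := by
  funext i j
  fin_cases j <;> simp [mm, dg, mul_assoc, ha, hb, hc]

theorem tr1_mm_dg (Q : M3) (a b c : ℝ) :
    tr1 (mm Q (dg a b c)) = 1 + Q 0 0 * a + Q 1 1 * b + Q 2 2 * c := by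
  simp [tr1, mm, dg]

/-- every rotation has a lift -/
theorem exists_lift {Q : M3} (hQ : IsSO Q) : ∃ a, IsRot a Q := by
  have key : ∀ {a b c : ℝ} {q : ℍ[ℝ]}, a * a = 1 → b * b = 1 → c * c = 1 → a * b * c = 1 →
      IsRot q (dg a b c) → 0 < 1 + Q 0 0 * a + Q 1 1 * b + Q 2 2 * c → ∃ a, IsRot a Q := by
    intro a b c q ha hb hc h hq hp
    refine ⟨lft (mm Q (dg a b c)) * q, ?_⟩
    have h1 := (isRot_lft (hQ.mul (isSO_dg ha hb hc h)) (by rw [tr1_mm_dg]; exact hp)).mul hq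
    rwa [mm_dg_dg Q ha hb hc] at h1
  by_cases h0 : 0 < tr1 Q
  · exact ⟨_, isRot_lft hQ h0⟩
  by_cases h1 : 0 < 1 + Q 0 0 * 1 + Q 1 1 * (-1) + Q 2 2 * (-1)
  · exact key (by norm_num) (by norm_num) (by norm_num) (by norm_num) isRot_I h1
  by_cases h2 : 0 < 1 + Q 0 0 * (-1) + Q 1 1 * 1 + Q 2 2 * (-1)
  · exact key (by norm_num) (by norm_num) (by norm_num) (by norm_num) isRot_J h2
  by_cases h3 : 0 < 1 + Q 0 0 * (-1) + Q 1 1 * (-1) + Q 2 2 * 1
  · exact key (by norm_num) (by norm_num) (by norm_num) (by norm_num) isRot_K h3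
  exfalso
  rw [tr1] at h0
  linarith

theorem tr1_pos {P Q : M3} (hP : IsSO P) (hQ : IsSO Q) (h : dist P Q < 4 / 5) :
    0 < tr1 (mm P (tp Q)) := by
  have h1 : ∀ i j, (P i j - Q i j) ^ 2 < 16 / 25 := by
    intro i j
    have h2 : |P i j - Q i j| < 4 / 5 := by
      rw [← Real.dist_eq]
      exact ((dist_le_pi_dist (P i) (Q i) j).trans (dist_le_pi_dist P Q i)).trans_lt h
    rw [← sq_abs]
    nlinarith [abs_nonneg (P i j - Q i j)]
  have p0 := hP.orth 0 0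
  have p1 := hP.orth 1 1
  have p2 := hP.orth 2 2
  have q0 := hQ.orth 0 0
  have q1 := hQ.orth 1 1
  have q2 := hQ.orth 2 2
  simp only [if_true] at p0 p1 p2 q0 q1 q2
  simp only [tr1, mm, tp, Fin.sum_univ_three]
  have a00 := h1 0 0
  have a01 := h1 0 1
  have a02 := h1 0 2
  have a10 := h1 1 0
  have a11 := h1 1 1
  have a12 := h1 1 2
  have a20 := h1 2 0
  have a21 := h1 2 1
  have a22 := h1 2 2
  nlinarith

variable {E : Type*} [NormedAddCommGroup E] [InnerProductSpace ℝ E] [FiniteDimensional ℝ E]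

theorem norm_rad {x : E} (hx : x ≠ 0) : ‖rad x‖ = 1 := by
  borelize E
  exact Fm.norm_rad hx

theorem rad_smul (x : E) {c : ℝ} (hc : 0 < c) : rad (c • x) = rad x := by
  borelize E
  exact Fm.rad_smul x hc

theorem contDiffAt_rad {x : E} (hx : x ≠ 0) : ContDiffAt ℝ ∞ (rad : E → E) x := by
  borelize E
  exact Fm.contDiffAt_rad hx

/-- smooth homogeneous families of rotations -/
structure RotMap (G : E → M3) : Prop where
  smooth : ContDiffOn ℝ ∞ G {0}ᶜ
  so : ∀ x ≠ 0, IsSO (G x)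
  hom : ∀ x ≠ 0, ∀ c : ℝ, 0 < c → G (c • x) = G x

/-- the points of the subdivision -/
def pt (e : E) (n k : ℕ) (x : E) : E := (1 - (k : ℝ) / n) • e + ((k : ℝ) / n) • rad x

/-- the steps of the lift -/
def cl (G : E → M3) (e : E) (a : ℍ[ℝ]) (n : ℕ) : ℕ → E → ℍ[ℝ]
  | 0, _ => a
  | k + 1, x => lft (mm (G (pt e n (k + 1) x)) (tp (G (pt e n k x)))) * cl G e a n k x

theorem cl_hom (G : E → M3) (e : E) (a : ℍ[ℝ]) (n k : ℕ) (x : E) {c : ℝ} (hc : 0 < c) :
    cl G e a n k (c • x) = cl G e a n k x := by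
  induction k with
  | zero => rfl
  | succ k ih =>
    rw [cl, cl, ih, pt, pt, pt, pt, rad_smul x hc]

theorem inner_rad {x : E} (e : E) (h : -(‖x‖ / 2) < ⟪x, e⟫) (hx : x ≠ 0) :
    -(1 / 2) < ⟪rad x, e⟫ := by
  have h0 : 0 < ‖x‖ := norm_pos_iff.2 hx
  rw [rad, real_inner_smul_left, inv_mul_eq_div, lt_div_iff₀ h0]
  linarith

theorem norm_seg {e u : E} (he : ‖e‖ = 1) (hu : ‖u‖ = 1) (h : -(1 / 2) < ⟪u, e⟫) {s : ℝ}
    (hs : s ∈ Icc (0 : ℝ) 1) : (1 - s) • e + s • u ∈ closedBall (0 : E) 1 \ ball (0 : E) (1 / 2) := by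
  obtain ⟨hs0, hs1⟩ := hs
  refine ⟨?_, ?_⟩
  · rw [mem_closedBall_zero_iff]
    refine (norm_add_le _ _).trans ?_
    rw [norm_smul, norm_smul, he, hu, Real.norm_eq_abs, Real.norm_eq_abs,
      abs_of_nonneg (by linarith), abs_of_nonneg hs0]
    linarith
  · rw [mem_ball_zero_iff, not_lt]
    have h1 : ‖(1 - s) • e + s • u‖ ^ 2 = (1 - s) ^ 2 + 2 * (s * (1 - s) * ⟪u, e⟫) + s ^ 2 := by
      rw [norm_add_sq_real, norm_smul, norm_smul, he, hu, real_inner_smul_left,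
        real_inner_smul_right, real_inner_comm, Real.norm_eq_abs, Real.norm_eq_abs,
        abs_of_nonneg (by linarith), abs_of_nonneg hs0]
      ring
    have h2 : 0 ≤ s * (1 - s) := mul_nonneg hs0 (by linarith)
    have h3 : (1 / 2 : ℝ) ^ 2 ≤ ‖(1 - s) • e + s • u‖ ^ 2 := by
      rw [h1]
      nlinarith [sq_nonneg (1 - 2 * s)]
    exact le_of_sq_le_sq h3 (norm_nonneg _)

theorem RotMap.at {G : E → M3} (h : RotMap G) {x : E} (hx : x ≠ 0) : ContDiffAt ℝ ∞ G x :=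
  h.smooth.contDiffAt (isOpen_compl_singleton.mem_nhds hx)

/-- the lift on a cap -/
theorem exists_cap {G : E → M3} (h : RotMap G) {e : E} (he : ‖e‖ = 1) :
    ∃ L : E → ℍ[ℝ], (∀ x ≠ 0, -(‖x‖ / 2) < ⟪x, e⟫ → ContDiffAt ℝ ∞ L x ∧ IsRot (L x) (G x)) ∧
      ∀ (x : E) (c : ℝ), 0 < c → L (c • x) = L x := by
  have he0 : e ≠ 0 := fun h0 => by rw [h0, norm_zero] at he; exact zero_ne_one he
  obtain ⟨a, ha⟩ := exists_lift (h.so e he0)
  set A : Set E := closedBall (0 : E) 1 \ ball (0 : E) (1 / 2) with hA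
  have hAc : IsCompact A := (isCompact_closedBall (0 : E) 1).diff isOpen_ball
  have hA0 : ∀ x ∈ A, x ≠ 0 := fun x hx h0 => hx.2 (by rw [h0]; simp)
  have huc : UniformContinuousOn G A :=
    hAc.uniformContinuousOn_of_continuous (h.smooth.continuousOn.mono fun x hx => hA0 x hx)
  obtain ⟨δ, hδ, hδ'⟩ := Metric.uniformContinuousOn_iff.1 huc (4 / 5) (by norm_num)
  obtain ⟨n, hn⟩ := exists_nat_gt (2 / δ)
  have hn0 : (0 : ℝ) < n := (div_pos two_pos hδ).trans hn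
  have hn1 : 2 / (n : ℝ) < δ := by
    rw [div_lt_iff₀ hn0]
    rw [div_lt_iff₀ hδ] at hn
    linarith
  have hpt : ∀ k ≤ n, ∀ x ≠ 0, -(‖x‖ / 2) < ⟪x, e⟫ → pt e n k x ∈ A := fun k hk x hx hxe =>
    norm_seg he (norm_rad hx) (inner_rad e hxe hx)
      ⟨by positivity, by rw [div_le_one hn0]; exact_mod_cast hk⟩
  have hptc : ∀ k, ∀ x ≠ 0, ContDiffAt ℝ ∞ (pt e n k) x := fun k x hx =>
    contDiffAt_const.add (contDiffAt_const.smul (contDiffAt_rad hx))
  have hstep : ∀ k < n, ∀ x ≠ 0, -(‖x‖ / 2) < ⟪x, e⟫ →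
      0 < tr1 (mm (G (pt e n (k + 1) x)) (tp (G (pt e n k x)))) := by
    intro k hk x hx hxe
    have m1 := hpt (k + 1) hk x hx hxe
    have m0 := hpt k hk.le x hx hxe
    refine tr1_pos (h.so _ (hA0 _ m1)) (h.so _ (hA0 _ m0)) (hδ' _ m1 _ m0 ?_)
    have h1 : pt e n (k + 1) x - pt e n k x = (1 / (n : ℝ)) • (rad x - e) := by
      simp only [pt]
      push_cast
      rw [add_div]
      module
    rw [dist_eq_norm, h1, norm_smul, Real.norm_eq_abs, abs_of_pos (by positivity)]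
    have h2 : ‖rad x - e‖ ≤ 2 := by
      refine (norm_sub_le _ _).trans ?_
      rw [norm_rad hx, he]
      norm_num
    calc 1 / (n : ℝ) * ‖rad x - e‖ ≤ 1 / (n : ℝ) * 2 := by gcongr
      _ = 2 / n := by ring
      _ < δ := hn1
  have hmm : ContDiff ℝ ∞ (fun p : M3 × M3 => mm p.1 (tp p.2)) := by
    unfold mm tp
    fun_prop
  have key : ∀ k ≤ n, ∀ x ≠ 0, -(‖x‖ / 2) < ⟪x, e⟫ →
      ContDiffAt ℝ ∞ (cl G e a n k) x ∧ IsRot (cl G e a n k x) (G (pt e n k x)) := by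
    intro k
    induction k with
    | zero =>
      intro _ x hx hxe
      refine ⟨contDiffAt_const, ?_⟩
      have : pt e n 0 x = e := by simp [pt]
      rw [this]
      exact ha
    | succ k ih =>
      intro hk x hx hxe
      obtain ⟨i1, i2⟩ := ih (Nat.le_of_succ_le hk) x hx hxe
      have m1 := hpt (k + 1) hk x hx hxe
      have m0 := hpt k (Nat.le_of_succ_le hk) x hx hxe
      have hs := hstep k hk x hx hxe
      have hso := (h.so _ (hA0 _ m1)).mul (h.so _ (hA0 _ m0)).tp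
      refine ⟨?_, ?_⟩
      · have c1 : ContDiffAt ℝ ∞ (fun y => mm (G (pt e n (k + 1) y)) (tp (G (pt e n k y)))) x :=
          hmm.contDiffAt.comp x (((h.at (hA0 _ m1)).comp x (hptc (k + 1) x hx)).prodMk
            ((h.at (hA0 _ m0)).comp x (hptc k x hx)))
        have c2 : ContDiffAt ℝ ∞
            (fun y => lft (mm (G (pt e n (k + 1) y)) (tp (G (pt e n k y))))) x :=
          ContDiffAt.comp x (g := lft) (contDiffAt_lft hs) c1
        exact c2.mul i1
      · have h1 := (isRot_lft hso hs).mul i2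
        have h2 : mm (mm (G (pt e n (k + 1) x)) (tp (G (pt e n k x)))) (G (pt e n k x)) =
            G (pt e n (k + 1) x) := by
          have : Matrix.of (mm (mm (G (pt e n (k + 1) x)) (tp (G (pt e n k x))))
              (G (pt e n k x))) = Matrix.of (G (pt e n (k + 1) x)) := by
            rw [of_mm, of_mm, of_tp, Matrix.mul_assoc, (h.so _ (hA0 _ m0)).1, Matrix.mul_one]
          exact Matrix.of.injective this
        rwa [h2] at h1
  refine ⟨cl G e a n n, fun x hx hxe => ?_, fun x c hc => cl_hom G e a n n x hc⟩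
  obtain ⟨k1, k2⟩ := key n le_rfl x hx hxe
  refine ⟨k1, ?_⟩
  have h1 : pt e n n x = ‖x‖⁻¹ • x := by
    rw [pt, div_self hn0.ne']
    simp [rad]
  rwa [h1, h.hom x hx _ (inv_pos.2 (norm_pos_iff.2 hx))] at k2

/-- the overlap of the two caps is connected -/
theorem isPreconnected_overlap {e : E} (he : ‖e‖ = 1) (hE : 3 ≤ finrank ℝ E) :
    IsPreconnected {x : E | |⟪x, e⟫| < ‖x‖ / 2} := by
  let F := (ℝ ∙ e)ᗮ
  have he0 : e ≠ 0 := fun h0 => by rw [h0, norm_zero] at he; exact zero_ne_one he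
  have hF : finrank ℝ F + 1 = finrank ℝ E := by
    have h1 : finrank ℝ (ℝ ∙ e) + finrank ℝ F = finrank ℝ E :=
      Submodule.finrank_add_finrank_orthogonal (ℝ ∙ e)
    rw [finrank_span_singleton he0] at h1
    omega
  have hFr : 1 < Module.rank ℝ F := by
    rw [← finrank_eq_rank]
    exact_mod_cast (by omega : 1 < finrank ℝ F)
  have hS : IsPreconnected ({0}ᶜ : Set F) :=
    (isConnected_compl_singleton_of_one_lt_rank hFr 0).isPreconnected
  have hT : IsPreconnected (Ioo (-√(1 / 3 : ℝ)) (√(1 / 3 : ℝ))) := isPreconnected_Ioo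
  let f : F × ℝ → E := fun p => (p.1 : E) + (p.2 * ‖p.1‖) • e
  have hf : Continuous f := by
    have h1 : Continuous fun p : F × ℝ => ‖p.1‖ := continuous_norm.comp continuous_fst
    exact (continuous_subtype_val.comp continuous_fst).add
      ((continuous_snd.mul h1).smul continuous_const)
  have hye : ∀ y : F, ⟪(y : E), e⟫ = 0 := fun y => by
    have := (Submodule.mem_orthogonal_singleton_iff_inner_left (𝕜 := ℝ)).1 y.2
    exact this
  have h := (hS.prod hT).image f hf.continuousOn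
  convert h using 1
  ext x
  simp only [mem_ofPred_eq, mem_image, mem_prod, mem_compl_iff, mem_singleton_iff, Prod.exists]
  constructor
  · intro hx
    have hx0 : 0 < ‖x‖ := by linarith [abs_nonneg ⟪x, e⟫]
    have hm : x - ⟪x, e⟫ • e ∈ F := by
      refine (Submodule.mem_orthogonal_singleton_iff_inner_left (𝕜 := ℝ)).2 ?_
      rw [inner_sub_left, real_inner_smul_left, real_inner_self_eq_norm_sq, he]
      ring
    let y : F := ⟨x - ⟪x, e⟫ • e, hm⟩
    have hy2 : ‖y‖ ^ 2 = ‖x‖ ^ 2 - ⟪x, e⟫ ^ 2 := by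
      change ‖x - ⟪x, e⟫ • e‖ ^ 2 = _
      rw [norm_sub_sq_real, norm_smul, he, real_inner_smul_right, Real.norm_eq_abs, mul_one,
        sq_abs]
      ring
    have hi2 : ⟪x, e⟫ ^ 2 < ‖x‖ ^ 2 / 4 := by
      rw [← sq_abs]
      nlinarith [abs_nonneg ⟪x, e⟫]
    have hy0 : 0 < ‖y‖ := by
      by_contra h0
      have : ‖y‖ = 0 := le_antisymm (not_lt.1 h0) (norm_nonneg _)
      rw [this] at hy2
      nlinarith
    refine ⟨y, ⟪x, e⟫ / ‖y‖, ⟨fun h0 => by rw [h0, norm_zero] at hy0; exact lt_irrefl _ hy0, ?_⟩, ?_⟩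
    · rw [mem_Ioo, ← abs_lt]
      refine (Real.lt_sqrt (abs_nonneg _)).2 ?_
      rw [sq_abs, div_pow, div_lt_iff₀ (by positivity), hy2]
      nlinarith
    · change x - ⟪x, e⟫ • e + (⟪x, e⟫ / ‖y‖ * ‖y‖) • e = x
      rw [div_mul_cancel₀ _ hy0.ne', sub_add_cancel]
  · rintro ⟨y, s, ⟨hy, hs⟩, rfl⟩
    rw [mem_Ioo, ← abs_lt, Real.lt_sqrt (abs_nonneg _), sq_abs] at hs
    have hy0 : 0 < ‖y‖ := norm_pos_iff.2 hy
    have h1 : ⟪f (y, s), e⟫ = s * ‖y‖ := by
      simp only [f]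
      rw [inner_add_left, hye, real_inner_smul_left, real_inner_self_eq_norm_sq, he]
      ring
    have h2 : ‖f (y, s)‖ ^ 2 = ‖y‖ ^ 2 + (s * ‖y‖) ^ 2 := by
      simp only [f]
      rw [norm_add_sq_real, real_inner_smul_right, hye, norm_smul, he, Real.norm_eq_abs, mul_one,
        sq_abs]
      change ‖(y : E)‖ ^ 2 + _ + _ = _
      rw [Submodule.coe_norm]
      ring
    change |⟪f (y, s), e⟫| < ‖f (y, s)‖ / 2
    rw [h1]
    refine lt_of_pow_lt_pow_left₀ 2 (by positivity) ?_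
    rw [sq_abs, div_pow, h2, mul_pow]
    nlinarith [mul_pos hy0 hy0]

/-- **lifting a sphere of rotations** -/
theorem exists_rotLift {G : E → M3} (h : RotMap G) (hE : 3 ≤ finrank ℝ E) :
    ∃ L : E → ℍ[ℝ], (∀ x ≠ 0, ContDiffAt ℝ ∞ L x) ∧ (∀ x ≠ 0, IsRot (L x) (G x)) ∧
      ∀ x ≠ 0, ∀ c : ℝ, 0 < c → L (c • x) = L x := by
  have : Nontrivial E := nontrivial_of_finrank_pos (R := ℝ) (by omega)
  obtain ⟨e, he⟩ := exists_norm_eq E (zero_le_one (α := ℝ))
  obtain ⟨Lp, hp, hpc⟩ := exists_cap h he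
  obtain ⟨Lm, hm, hmc⟩ := exists_cap h (e := -e) (by rw [norm_neg, he])
  have hm' : ∀ x ≠ 0, ⟪x, e⟫ < ‖x‖ / 2 → ContDiffAt ℝ ∞ Lm x ∧ IsRot (Lm x) (G x) :=
    fun x hx hxe => hm x hx (by rw [inner_neg_right]; linarith)
  set O : Set E := {x : E | |⟪x, e⟫| < ‖x‖ / 2} with hO
  have hO0 : ∀ x ∈ O, x ≠ 0 := by
    intro x hx h0
    rw [hO, mem_ofPred_eq, h0] at hx
    simp at hx
  have hOp : ∀ x ∈ O, -(‖x‖ / 2) < ⟪x, e⟫ := fun x hx => (abs_lt.1 hx).1
  have hOm : ∀ x ∈ O, ⟪x, e⟫ < ‖x‖ / 2 := fun x hx => (abs_lt.1 hx).2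
  have hor : ∀ x ∈ O, Lp x = Lm x ∨ Lp x = -Lm x := fun x hx =>
    (hp x (hO0 x hx) (hOp x hx)).2.eq_or (hm' x (hO0 x hx) (hOm x hx)).2
  have hn : ∀ x ∈ O, ‖Lm x‖ = 1 := fun x hx => (hm' x (hO0 x hx) (hOm x hx)).2.1
  have hsign : ∃ s : ℝ, (s = 1 ∨ s = -1) ∧ ∀ x ∈ O, Lp x = s • Lm x := by
    by_contra hcon
    push Not at hcon
    obtain ⟨x, hx, hx1⟩ := hcon 1 (Or.inl rfl)
    obtain ⟨y, hy, hy1⟩ := hcon (-1) (Or.inr rfl)
    rw [one_smul] at hx1
    rw [neg_one_smul] at hy1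
    have hx2 : Lp x = -Lm x := (hor x hx).resolve_left hx1
    have hy2 : Lp y = Lm y := (hor y hy).resolve_right hy1
    have hc : ContinuousOn (fun z => ⟪Lp z, Lm z⟫) O := fun z hz =>
      ((hp z (hO0 z hz) (hOp z hz)).1.continuousAt.inner
        (hm' z (hO0 z hz) (hOm z hz)).1.continuousAt).continuousWithinAt
    have h1 := (isPreconnected_overlap he hE).intermediate_value hx hy hc
    have fx : ⟪Lp x, Lm x⟫ = -1 := by
      rw [hx2, inner_neg_left, real_inner_self_eq_norm_sq, hn x hx]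
      norm_num
    have fy : ⟪Lp y, Lm y⟫ = 1 := by
      rw [hy2, real_inner_self_eq_norm_sq, hn y hy]
      norm_num
    obtain ⟨z, hz, hz0⟩ := h1 (show (0 : ℝ) ∈ Icc ⟪Lp x, Lm x⟫ ⟪Lp y, Lm y⟫ by
      rw [fx, fy]; constructor <;> norm_num)
    simp only at hz0
    rcases hor z hz with h2 | h2
    · rw [h2, real_inner_self_eq_norm_sq, hn z hz] at hz0
      norm_num at hz0
    · rw [h2, inner_neg_left, real_inner_self_eq_norm_sq, hn z hz] at hz0
      norm_num at hz0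
  obtain ⟨s, hs, hsL⟩ := hsign
  have hmrot : ∀ x ≠ 0, ⟪x, e⟫ < ‖x‖ / 2 → IsRot (s • Lm x) (G x) := by
    intro x hx hxe
    have h1 := (hm' x hx hxe).2
    rcases hs with rfl | rfl
    · rwa [one_smul]
    · rw [neg_one_smul]
      refine ⟨by rw [norm_neg, h1.1], fun v => ?_⟩
      rw [neg_mul, mul_neg, h1.2]
  classical
  let L : E → ℍ[ℝ] := fun x => if -(‖x‖ / 2) < ⟪x, e⟫ then Lp x else s • Lm x
  have hopen : IsOpen {x : E | -(‖x‖ / 2) < ⟪x, e⟫} :=
    isOpen_lt (continuous_norm.div_const 2).neg (by fun_prop)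
  have hopen' : IsOpen {x : E | ⟪x, e⟫ < ‖x‖ / 2} :=
    isOpen_lt (by fun_prop) (continuous_norm.div_const 2)
  have hLm : ∀ x ≠ 0, ⟪x, e⟫ < ‖x‖ / 2 → L x = s • Lm x := by
    intro x hx hxe
    by_cases h1 : -(‖x‖ / 2) < ⟪x, e⟫
    · simp only [L, if_pos h1]
      exact hsL x (abs_lt.2 ⟨h1, hxe⟩)
    · simp only [L, if_neg h1]
  have hcase : ∀ x : E, x ≠ 0 → ¬ -(‖x‖ / 2) < ⟪x, e⟫ → ⟪x, e⟫ < ‖x‖ / 2 := by
    intro x hx h1
    have := norm_pos_iff.2 hx
    linarith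
  refine ⟨L, fun x hx => ?_, fun x hx => ?_, fun x hx c hc => ?_⟩
  · by_cases h1 : -(‖x‖ / 2) < ⟪x, e⟫
    · refine (hp x hx h1).1.congr_of_eventuallyEq ?_
      filter_upwards [hopen.mem_nhds h1] with y hy
      simp only [L, if_pos hy]
    · refine ((hm' x hx (hcase x hx h1)).1.const_smul s).congr_of_eventuallyEq ?_
      filter_upwards [hopen'.mem_nhds (hcase x hx h1), isOpen_compl_singleton.mem_nhds hx] with
        y hy hy0
      exact hLm y hy0 hy
  · by_cases h1 : -(‖x‖ / 2) < ⟪x, e⟫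
    · simp only [L, if_pos h1]
      exact (hp x hx h1).2
    · rw [hLm x hx (hcase x hx h1)]
      exact hmrot x hx (hcase x hx h1)
  · have h2 : (-(‖c • x‖ / 2) < ⟪c • x, e⟫) ↔ (-(‖x‖ / 2) < ⟪x, e⟫) := by
      rw [norm_smul, real_inner_smul_left, Real.norm_eq_abs, abs_of_pos hc]
      constructor
      · intro h3
        by_contra h4
        nlinarith
      · intro h3
        nlinarith
    simp only [L, h2, hpc x c hc, hmc x c hc]

end Vale.Agent.P231.S2I
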