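import Vale.Agent.P231.H584.Side
import Vale.Agent.P231.WF.Conn

/-!
# P231, stage 2: integrality, part (I4), the formal evaluation

`S` is the bundle of the pairs `(v, w)` with its flow `Λ`, `A (v, w) = (v, -w)`, `g : S × ℝ → M` the
push off, `b` the two form `J (K g^*F - A^* K g^*F)`, `X` is the punctured space `ℝ^4 ∖ 0`,
`j : X → S`, and `I` the integral over the three dimensional sphere.
-/

set_option linter.unusedSectionVars false
set_option linter.unusedVariables false

open MeasureTheory Set Module Filter Topology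
open scoped ContDiff

namespace Vale.Agent.P231.S2I

open Fm W H584

section Aux

variable {X Y : Type*} {D : Dif X} {D' : Dif Y}

theorem pull_mul' {f : X → Y} (hf : D.Map D' f) (a b : Form D') :
    Form.pull f hf (a * b) = Form.pull f hf a * Form.pull f hf b :=
  map_mul (Form.pullA f hf) a b

theorem pull_add' {f : X → Y} (hf : D.Map D' f) (a b : Form D') :
    Form.pull f hf (a + b) = Form.pull f hf a + Form.pull f hf b :=
  map_add (Form.pullA f hf) a b

theorem pull_sub' {f : X → Y} (hf : D.Map D' f) (a b : Form D') :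
    Form.pull f hf (a - b) = Form.pull f hf a - Form.pull f hf b :=
  map_sub (Form.pullA f hf) a b

theorem pull_smul' {f : X → Y} (hf : D.Map D' f) (c : ℝ) (a : Form D') :
    Form.pull f hf (c • a) = c • Form.pull f hf a :=
  map_smul (Form.pullA f hf) c a

theorem pull_zero' {f : X → Y} (hf : D.Map D' f) :
    Form.pull f hf (0 : Form D') = 0 :=
  map_zero (Form.pullA f hf)

variable {I : Form D →ₗ[ℝ] ℝ}

/-- Stokes formula on the cylinder -/
theorem I_K_d (hI : ∀ w : Form D, I w.d = 0) (w : Form (D.prod (Dif.lin ℝ))) :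
    I (Form.K w.d) = I (at_ 1 w) - I (at_ 0 w) := by
  have h := congrArg I (homotopy' w)
  rw [map_sub, map_add, hI, add_zero] at h
  exact h.symm

/-- the integral of the square of a closed two form on the cylinder -/
theorem I_K_sq (hI : ∀ w : Form D, I w.d = 0) {B : Form (D.prod (Dif.lin ℝ))} (hBd : B.d = 0)
    (hBe : B.sg = B) {τ : Form D} (hτ : τ.d = at_ 0 B) :
    I (Form.K (B * B)) = I ((τ + Form.K B) * at_ 1 B) - I (τ * at_ 0 B) := by
  have hp : (Pm B).d = B - pr (at_ 0 B) := Pm_d (b := 0) (by rw [hBd, pr_zero])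
  have h0e : (at_ 0 B).sg = at_ 0 B := by rw [← at_sg, hBe]
  have h1 : (Pm B * B).d = B * B - pr (at_ 0 B) * B := by
    rw [d_mul_closed _ hBd, hp, sub_mul]
  have h2 := I_K_d hI (Pm B * B)
  rw [h1, K_sub, K_pr_mul, h0e, at_mul, at_mul, Pm_at, KT_one, Pm_zero, zero_mul, map_zero,
    sub_zero, map_sub] at h2
  have h3 : at_ 1 B - at_ 0 B = (Form.K B).d := by
    rw [homotopy', hBd, K_zero, zero_add]
  have h4 : I (τ * (Form.K B).d) = I (at_ 0 B * Form.K B) := by
    rw [integral_by_parts hI _ _ (by rw [hτ, h0e]), hτ]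
  rw [← h3, mul_sub, map_sub] at h4
  rw [add_mul, map_add]
  linarith

end Aux

section Main

variable {X S S₀ M : Type*} {dX : Dif X} {dS : Dif S} {dS₀ : Dif S₀} {dM : Dif M}

/-- the integral of a form with basic differential -/
theorem I_of_gysin {T : ℝ} (hT : T ≠ 0) {Λ : S × ℝ → S} (hΛ : IsFlow dS T Λ)
    {α : Form dS} (hα : Form.pull Λ hΛ.map α = pr α + dt) (hαo : α.sg = -α)
    {I : Form dX →ₗ[ℝ] ℝ} (hI : ∀ w : Form dX, I w.d = 0) {j : X → S} (hj : dX.Map dS j)
    (hIΛ : ∀ w, Basic Λ hΛ.map w → I (Form.pull j hj w) = 0) {τ : Form dS}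
    (hτ : Basic Λ hΛ.map τ.d) :
    T * I (Form.pull j hj τ) = I (Form.pull j hj (α * J Λ hΛ.map T τ)) := by
  obtain ⟨x, hx⟩ := gysin hΛ hα hαo hτ
  have h := congrArg (fun w => I (Form.pull j hj w)) hx
  simp only [pull_add', map_add, pull_smul', map_smul, Form.pull_d, hI, add_zero,
    smul_eq_mul] at h
  rw [hIΛ _ (J_basic hΛ _), zero_add] at h
  exact h

/-- **(I4), formal evaluation.** -/
theorem eval {T : ℝ} (hT : T ≠ 0) {Λ : S × ℝ → S} (hΛ : IsFlow dS T Λ)
    {foot : S → M} (hfoot : dS.Map dM foot)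
    {A : S → S} (hA : dS.Map dS A) (hAf : ∀ s, foot (A s) = foot s)
    (hAΛ : ∀ s t, A (Λ (s, t)) = Λ (A s, t))
    {g : S × ℝ → M} (hg : (dS.prod (Dif.lin ℝ)).Map dM g) (hg0 : ∀ s, g (s, 0) = foot s)
    (hg1 : ∀ s t, g (Λ (s, t), 1) = g (s, 1))
    {F : Form dM} (hF : F.d = 0) (hF4 : WF.IsDeg F 4)
    {α : Form dS} (hα : Form.pull Λ hΛ.map α = pr α + dt) (hαo : α.sg = -α)
    {b : Form dS} (hb : b = J Λ hΛ.map T (Form.K (Form.pull g hg F) -
      Form.pull A hA (Form.K (Form.pull g hg F))))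
    {a μ : ℝ} {ρ : Form dS} (hρ : Basic Λ hΛ.map ρ)
    (hrel : b * b = a • ((T⁻¹ • α.d) * (T⁻¹ • α.d)) +
      μ • (Form.pull (fun s => g (s, 1)) (map_at hg 1) F +
          Form.pull A hA (Form.pull (fun s => g (s, 1)) (map_at hg 1) F)) + ρ.d)
    {T' : ℝ} (hT' : T' ≠ 0) {ψ : X × ℝ → X} (hψ : IsFlow dX T' ψ)
    {C : X × ℝ → S} (hC : (dX.prod (Dif.lin ℝ)).Map dS C)
    (hCψ : ∀ x t, C (ψ (x, t), 1) = Λ (C (x, 1), t))
    {q : X → S₀} (hq : dX.Map dS₀ q) {ι : S₀ → S} (hι : dS₀.Map dS ι)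
    (hC0 : ∀ x, C (x, 0) = ι (q x))
    {I : Form dX →ₗ[ℝ] ℝ} (hI : ∀ w : Form dX, I w.d = 0)
    (hIψ : ∀ w : Form dX, Basic ψ hψ.map w → I w = 0)
    (hI0 : ∀ w : Form dS₀, I (Form.pull q hq w) = 0)
    (hIb : I (Form.pull (fun x => C (x, 1)) (map_at hC 1) (α * b)) = 0)
    {k : ℝ} {o ζ : Form dS₀} (ho2 : WF.IsDeg o 2) (hζ1 : WF.IsDeg ζ 1)
    (hob : Form.pull ι hι b = k • o + ζ.d)
    {τ : Form dX} (hτ1 : WF.IsDeg τ 1) (hτ : τ.d = Form.pull q hq o)
    (hc : WF.SConn dX) (x₀ : X) :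
    a * I (Form.pull (fun x => C (x, 1)) (map_at hC 1) ((T⁻¹ • α) * (T⁻¹ • α.d))) =
      -(k ^ 2 * I (τ * Form.pull q hq o)) - 2 * μ *
        (I (Form.K (Form.pull (fun p => foot (C p))
          (Dif.Map.comp (f := C) (g := foot) hfoot hC) F)) +
        I (Form.pull (fun x => C (x, 1)) (map_at hC 1) (Form.K (Form.pull g hg F)))) := by
  have hFe : F.sg = F := hF4.sg_even (k := 2)
  set Kg := Form.K (Form.pull g hg F) with hKg
  set Fp := Form.pull (fun s => g (s, 1)) (map_at hg 1) F with hFp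
  set Fm := Form.pull A hA Fp with hFm
  set δ := Kg - Form.pull A hA Kg with hδ
  set j : X → S := fun x => C (x, 1) with hjdef
  have hj : dX.Map dS j := map_at hC 1
  have hj0 : dX.Map dS (fun x => C (x, 0)) := map_at hC 0
  have hιq : dX.Map dS (fun x => ι (q x)) := Dif.Map.comp (f := q) (g := ι) hι hq
  -- degrees
  have hKg3 : WF.IsDeg Kg 3 := WF.IsDeg.K (WF.IsDeg.pull hg hF4)
  have hδ3 : WF.IsDeg δ 3 := WF.IsDeg.sub hKg3 (WF.IsDeg.pull hA hKg3)
  have hb2 : WF.IsDeg b 2 := by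
    rw [hb]
    have h1 : WF.IsDeg (Form.pull Λ hΛ.map δ) 3 := WF.IsDeg.pull hΛ.map hδ3
    have h2 : WF.IsDeg (Form.pull (fun p : S × ℝ => (p.1, T * p.2)) (map_scale T)
      (Form.pull Λ hΛ.map δ)) 3 := WF.IsDeg.pull (map_scale T) h1
    have h3 : WF.IsDeg (Form.K (Form.pull (fun p : S × ℝ => (p.1, T * p.2)) (map_scale T)
      (Form.pull Λ hΛ.map δ))) 2 := WF.IsDeg.K h2
    exact @h3
  have hbe : b.sg = b := hb2.sg_even (k := 1)
  -- differentials
  have hKgd : Kg.d = Fp - Form.pull foot hfoot F := by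
    have h := homotopy' (Form.pull g hg F)
    rw [← Form.pull_d, hF, pull_zero', K_zero, zero_add, at_pull_of hg] at h
    have h0 : at_ 0 (Form.pull g hg F) = Form.pull foot hfoot F :=
      pull_pull (Form.map_slice 0) hg hfoot hg0 F
    rw [h0] at h
    exact h.symm
  have hAfoot : Form.pull A hA (Form.pull foot hfoot F) = Form.pull foot hfoot F :=
    pull_pull hA hfoot hfoot hAf F
  have hδd : δ.d = Fp - Fm := by
    rw [hδ, Form.d_sub, ← Form.pull_d, hKgd, pull_sub', hAfoot]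
    abel
  have hFpb : Basic Λ hΛ.map Fp := basic_pull (map_at hg 1) hg1 F
  have hFmb : Basic Λ hΛ.map Fm := by
    have h1 : dS.Map dM (fun s => g (A s, 1)) := fun h => map_at hg 1 (hA h)
    have h2 : Fm = Form.pull (fun s => g (A s, 1)) h1 F :=
      pull_pull hA (map_at hg 1) h1 (fun s => rfl) F
    rw [h2]
    exact basic_pull h1 (fun s t => by rw [hAΛ, hg1]) F
  have hδb : Basic Λ hΛ.map δ.d := by
    rw [hδd]
    exact Basic.sub hFpb hFmb
  have hbd : b.d = 0 := by
    have h3 := J_d hΛ δ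
    rw [J_of_basic T hδb, ← hb] at h3
    exact neg_eq_zero.1 h3.symm
  have hbb : Basic Λ hΛ.map b := by
    rw [hb]
    exact J_basic hΛ δ
  -- pull back by `j`
  have hIΛ : ∀ w, Basic Λ hΛ.map w → I (Form.pull j hj w) = 0 := fun w hw => by
    refine hIψ _ ?_
    rw [basic_def]
    have h1 : (dX.prod (Dif.lin ℝ)).Map dS (fun p => j (ψ p)) :=
      Dif.Map.comp (f := ψ) (g := j) hj hψ.map
    have h2 : (dX.prod (Dif.lin ℝ)).Map dS (fun p => Λ (j p.1, p.2)) :=
      Dif.Map.comp (f := fun p : X × ℝ => (j p.1, p.2)) (g := Λ) hΛ.map (map_cyl hj)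
    have e1 : Form.pull ψ hψ.map (Form.pull j hj w) = Form.pull (fun p => j (ψ p)) h1 w :=
      pull_pull hψ.map hj h1 (fun _ => rfl) w
    have e2 : Form.pull (fun p => j (ψ p)) h1 w =
        Form.pull (fun p : X × ℝ => (j p.1, p.2)) (map_cyl hj) (Form.pull Λ hΛ.map w) :=
      (pull_pull (map_cyl hj) hΛ.map h1 (fun p => (hCψ _ _).symm) w).symm
    rw [e1, e2, hw, pull_pr]
  have hjα : Form.pull ψ hψ.map (Form.pull j hj α) = pr (Form.pull j hj α) + dt := by
    have h1 : (dX.prod (Dif.lin ℝ)).Map dS (fun p => j (ψ p)) :=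
      Dif.Map.comp (f := ψ) (g := j) hj hψ.map
    have e1 : Form.pull ψ hψ.map (Form.pull j hj α) = Form.pull (fun p => j (ψ p)) h1 α :=
      pull_pull hψ.map hj h1 (fun _ => rfl) α
    have e2 : Form.pull (fun p => j (ψ p)) h1 α =
        Form.pull (fun p : X × ℝ => (j p.1, p.2)) (map_cyl hj) (Form.pull Λ hΛ.map α) :=
      (pull_pull (map_cyl hj) hΛ.map h1 (fun p => (hCψ _ _).symm) α).symm
    rw [e1, e2, hα, pull_add', pull_pr hj, pull_dt hj]
  have hjbb : Basic ψ hψ.map (Form.pull j hj b) := by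
    rw [basic_def]
    have h1 : (dX.prod (Dif.lin ℝ)).Map dS (fun p => j (ψ p)) :=
      Dif.Map.comp (f := ψ) (g := j) hj hψ.map
    have e1 : Form.pull ψ hψ.map (Form.pull j hj b) = Form.pull (fun p => j (ψ p)) h1 b :=
      pull_pull hψ.map hj h1 (fun _ => rfl) b
    have e2 : Form.pull (fun p => j (ψ p)) h1 b =
        Form.pull (fun p : X × ℝ => (j p.1, p.2)) (map_cyl hj) (Form.pull Λ hΛ.map b) :=
      (pull_pull (map_cyl hj) hΛ.map h1 (fun p => (hCψ _ _).symm) b).symm
    rw [e1, e2, hbb, pull_pr]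
  -- the integral of `δ`
  have hIδ : I (Form.pull j hj δ) = 0 := by
    have h := I_of_gysin hT hΛ hα hαo hI hj hIΛ hδb
    rw [← hb] at h
    have h' : I (Form.pull j hj (α * b)) = 0 := hIb
    rw [h'] at h
    exact (mul_eq_zero.1 h).resolve_left hT
  -- the forms on the cylinder
  have hI0' : ∀ w : Form dS, I (at_ 0 (Form.pull C hC w)) = 0 := fun w => by
    have h1 : at_ 0 (Form.pull C hC w) = Form.pull q hq (Form.pull ι hι w) :=
      (pull_pull (Form.map_slice 0) hC hιq hC0 w).trans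
        (pull_pull hq hι hιq (fun _ => rfl) w).symm
    rw [h1]
    exact hI0 _
  have hI1' : ∀ w : Form dS, at_ 1 (Form.pull C hC w) = Form.pull j hj w := fun w =>
    at_pull_of hC 1 w
  have hKd : ∀ w : Form dS, I (Form.K (Form.pull C hC w.d)) = I (Form.pull j hj w) := fun w => by
    rw [Form.pull_d, I_K_d hI, hI0', sub_zero, hI1']
  -- the right hand side
  set N := I (Form.K (Form.pull (fun p => foot (C p))
          (Dif.Map.comp (f := C) (g := foot) hfoot hC) F)) + I (Form.pull j hj Kg) with hN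
  have hNp : I (Form.K (Form.pull C hC Fp)) = N := by
    have h1 : Fp = Form.pull foot hfoot F + Kg.d := by rw [hKgd]; abel
    rw [h1, pull_add', Form.K_add, map_add, hKd, hN]
    congr 2
    exact congrArg _ (pull_pull hC hfoot _ (fun _ => rfl) F)
  have hNm : I (Form.K (Form.pull C hC Fm)) = N := by
    have h1 : Fm = Fp - δ.d := by rw [hδd]; abel
    rw [h1, pull_sub', K_sub, map_sub, hKd, hIδ, sub_zero, hNp]
  -- the left hand side
  set B := Form.pull C hC b with hB
  have hBd : B.d = 0 := by rw [hB, ← Form.pull_d, hbd, pull_zero']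
  have hBe : B.sg = B := by rw [hB, ← Form.pull_sg, hbe]
  have hB0 : at_ 0 B = k • Form.pull q hq o + (Form.pull q hq ζ).d := by
    have h1 : at_ 0 B = Form.pull q hq (Form.pull ι hι b) :=
      (pull_pull (Form.map_slice 0) hC hιq hC0 b).trans
        (pull_pull hq hι hιq (fun _ => rfl) b).symm
    rw [h1, hob, pull_add', pull_smul', Form.pull_d]
  set τ0 := k • τ + Form.pull q hq ζ with hτ0
  have hτ0d : τ0.d = at_ 0 B := by
    rw [hτ0, Form.d_add, Form.d_smul, hτ, hB0]
  have hτ01 : WF.IsDeg τ0 1 := WF.IsDeg.add (WF.IsDeg.smul k hτ1) (WF.IsDeg.pull hq hζ1)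
  have hsq := I_K_sq hI hBd hBe hτ0d
  have hB1 : at_ 1 B = Form.pull j hj b := hI1' b
  set lam := τ0 + Form.K B with hlam
  have hlam1 : WF.IsDeg lam 1 := WF.IsDeg.add hτ01 (WF.IsDeg.K (WF.IsDeg.pull hC hb2))
  have hlamd : lam.d = Form.pull j hj b := by
    have h3 : at_ 1 B - at_ 0 B = (Form.K B).d := by
      rw [homotopy', hBd, K_zero, zero_add]
    rw [hlam, Form.d_add, hτ0d, ← h3, ← hB1]
    abel
  -- `I (λ dλ) = 0`
  have hJlam : J ψ hψ.map T' lam = WF.ptv (J ψ hψ.map T' lam) x₀ • 1 := by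
    have h0 : WF.IsDeg (J ψ hψ.map T' lam) 0 := by
      have h1 : WF.IsDeg (Form.pull ψ hψ.map lam) 1 := WF.IsDeg.pull hψ.map hlam1
      have h2 : WF.IsDeg (Form.pull (fun p : X × ℝ => (p.1, T' * p.2)) (map_scale T')
        (Form.pull ψ hψ.map lam)) 1 := WF.IsDeg.pull (map_scale T') h1
      have h3 : WF.IsDeg (Form.K (Form.pull (fun p : X × ℝ => (p.1, T' * p.2)) (map_scale T')
        (Form.pull ψ hψ.map lam))) 0 := WF.IsDeg.K h2
      exact @h3
    have h1 : (J ψ hψ.map T' lam).d = 0 := by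
      have h3 := J_d hψ lam
      rw [hlamd, J_of_basic T' hjbb] at h3
      exact neg_eq_zero.1 h3.symm
    have h2 := WF.const_of_closed hc h0 h1 x₀
    rw [Algebra.algebraMap_eq_smul_one] at h2
    exact h2
  have hjbd : (Form.pull j hj b).d = 0 := by rw [← Form.pull_d, hbd, pull_zero']
  have hjαo : (Form.pull j hj α).sg = -Form.pull j hj α := by
    rw [← Form.pull_sg, hαo]
    exact map_neg (Form.pullA j hj) α
  have hll : I (lam * Form.pull j hj b) = 0 := by
    have hbas : Basic ψ hψ.map (lam * Form.pull j hj b).d := by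
      rw [d_mul_closed _ hjbd, hlamd]
      exact Basic.mul hjbb hjbb
    have h := avg hψ hjα hjαo hI hIψ hbas
    rw [J_mul_basic _ _ hjbb, hJlam, smul_mul_assoc, one_mul, mul_smul_comm, map_smul,
      ← pull_mul'] at h
    have h' : I (Form.pull j hj (α * b)) = 0 := hIb
    rw [h', smul_zero] at h
    exact (mul_eq_zero.1 h).resolve_left hT'
  -- `I (τ₀ dτ₀) = k² H`
  have hoe : (Form.pull q hq o).sg = Form.pull q hq o := by
    rw [← Form.pull_sg, ho2.sg_even (k := 1)]
  have htt : I (τ0 * at_ 0 B) = k ^ 2 * I (τ * Form.pull q hq o) := by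
    have e1 : I (τ * (Form.pull q hq ζ).d) = 0 := by
      rw [integral_by_parts hI _ _ (by rw [hτ, hoe]), hτ, ← pull_mul']
      exact hI0 _
    have e2 : I (Form.pull q hq ζ * Form.pull q hq o) = 0 := by
      rw [← pull_mul']
      exact hI0 _
    have e3 : I (Form.pull q hq ζ * (Form.pull q hq ζ).d) = 0 := by
      rw [← Form.pull_d, ← pull_mul']
      exact hI0 _
    rw [hB0, hτ0, add_mul, mul_add, mul_add, smul_mul_assoc, smul_mul_assoc, mul_smul_comm,
      mul_smul_comm, map_add, map_add, map_add, map_smul, map_smul, map_smul, map_smul, e1, e2,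
      e3]
    simp only [smul_eq_mul]
    ring
  have hKbb : I (Form.K (Form.pull C hC (b * b))) = -(k ^ 2 * I (τ * Form.pull q hq o)) := by
    rw [pull_mul', ← hB, hsq, hB1, hll, htt, zero_sub]
  -- the form `Ξ`
  set e := T⁻¹ • α.d with he
  have hed : e.d = 0 := by rw [he, Form.d_smul, Form.d_d, smul_zero]
  set Xi := a • ((T⁻¹ • α) * e) + ρ with hXi
  have hXid : Xi.d = b * b - μ • (Fp + Fm) := by
    rw [hXi, Form.d_add, Form.d_smul, d_mul_closed _ hed, Form.d_smul, hrel, ← he]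
    abel
  have hfin := hKd Xi
  rw [hXid, pull_sub', pull_smul', pull_add', K_sub, Form.K_smul, Form.K_add, map_sub, map_smul,
    map_add, hKbb, hNp, hNm, hXi, pull_add', map_add, hIΛ _ hρ, add_zero, pull_smul', map_smul,
    smul_eq_mul, smul_eq_mul] at hfin
  change a * I (Form.pull j hj ((T⁻¹ • α) * e)) = _
  rw [← hfin]
  ring

end Main

end Vale.Agent.P231.S2I
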