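import Vale.Agent.P231.Fm.DegSphere
import Vale.Agent.P231.Co.On
import Vale.Agent.P231.S2I.Eval

/-!
# P231, stage 2: integrality, the number `N` as an integral over `ℝ^4`

`dP V` is the punctured space. The integral over the unit sphere of a form `w` on `dP V` is
`∫ evalForm (dR ρ x * w.val id x) b` with a cutoff function `ρ` (`= 0` near `0`, `= 1` outside of
a compact set).
-/

set_option linter.unusedSectionVars false
set_option linter.unusedVariables false

open MeasureTheory Set Module Filter Topology Metric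
open scoped ContDiff

namespace Vale.Agent.P231.S2I

open Fm W H584
open Q (dR Cut)

variable {V : Type} [NormedAddCommGroup V] [InnerProductSpace ℝ V] [FiniteDimensional ℝ V]
  [MeasurableSpace V] [BorelSpace V]

/-- the punctured space -/
abbrev dP (V : Type) [NormedAddCommGroup V] [InnerProductSpace ℝ V] : Dif V :=
  (Dif.lin V).on {x | x ≠ 0}

theorem at_id {x : V} (hx : x ≠ 0) : (dP V).At (id : V → V) x :=
  ⟨Sm.of_contDiff contDiff_id x, isOpen_ne.mem_nhds hx⟩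

theorem sm_rad {x : V} (hx : x ≠ 0) : Sm (rad : V → V) x := by
  filter_upwards [isOpen_ne.mem_nhds hx] with y hy using contDiffAt_rad hy

/-- the top form pulled back by a homogeneous map vanishes -/
theorem eval_hom {Y : Type*} {D' : Dif Y} {f : V → Y} (hf : (dP V).Map D' f) {x : V}
    (hx : x ≠ 0) (hh : ∀ᶠ y in 𝓝 x, f y = f (rad y)) (w : Form D') {n : ℕ}
    (b : Basis (Fin n) ℝ V) : evalForm ((Form.pull f hf w).val id x) b = 0 := by
  have hr : rad x ≠ 0 := fun h0 => by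
    have := norm_rad hx
    rw [h0, norm_zero] at this
    exact zero_ne_one this
  have h1 : D'.At f x := hf (at_id hx)
  have h2 : D'.At f (rad x) := hf (at_id hr)
  have h3 : (Form.pull f hf w).val id x = Fm.pull (fderiv ℝ rad x) (w.val f (rad x)) := by
    rw [Form.pull_val hf w (at_id hx)]
    change w.val f x = _
    rw [w.congr (v := f ∘ rad) h1 hh, w.nat h2 (sm_rad hx)]
  refine Q.evalForm_eq_zero_of_iprod b hx ?_
  rw [h3, pull_iprod, sphMap_rad.fderiv_self hx, Q.iprod_zero_left, map_zero]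

/-- the integral of a differential -/
theorem integral_prim [Nontrivial V] (μ : Measure V) [μ.IsAddHaarMeasure] {n : ℕ}
    (b : Fin n → V) (Θ : Form (dP V)) (h0 : ∀ᶠ x in 𝓝 (0 : V), Θ.val id x = 0)
    {ρ : V → ℝ} {K : Set V} (hρ : Cut ρ K) {Φ : V → ℝ}
    (hΦ : ∀ x ≠ 0, Φ x = evalForm (Θ.d.val id x) b) (hρ0 : ∀ x ≠ 0, ρ x = 0 ∨ Φ x = 0) :
    ∫ x, Φ x ∂μ = ∫ x, evalForm (dR ρ x * Θ.val id x) b ∂μ := by
  set s : V → Lam V := Θ.val id with hs
  have hsm : ∀ x ≠ 0, ContDiffAt ℝ ∞ s x := fun x hx => Θ.smooth (at_id hx)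
  have hsd : ∀ x ≠ 0, extd s x = Θ.d.val id x := fun x hx => (Form.d_val Θ (at_id hx)).symm
  have hs0 : s =ᶠ[𝓝 (0 : V)] fun _ => 0 := h0
  have hs1 : ContDiff ℝ ∞ s := contDiff_iff_contDiffAt.2 fun x => by
    rcases eq_or_ne x 0 with rfl | hx
    · exact contDiffAt_const.congr_of_eventuallyEq hs0
    · exact hsm x hx
  let w : V → Lam V := fun x => (1 - ρ x) • s x
  have hw : ContDiff ℝ ∞ w := (contDiff_const.sub hρ.smooth).smul hs1
  have hwc : HasCompactSupport w := HasCompactSupport.intro hρ.compact fun y hy => by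
    simp only [w, hρ.one y hy, sub_self, zero_smul]
  have h1 := integral_evalForm_extd μ b (hw.of_le (by simp)) hwc
  have i1 : Integrable (fun y => evalForm (extd w y) b) μ := by
    have c1 : Continuous fun y => extd w y :=
      dLin.continuous.comp (hw.continuous_fderiv (by simp))
    have c2 : HasCompactSupport fun y => extd w y :=
      (hwc.fderiv ℝ).comp_left (g := dLin) (map_zero _)
    exact (evalL b).integrable_comp (c1.integrable_of_hasCompactSupport c2)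
  have i2 : Integrable (fun y => evalForm (dR ρ y * s y) b) μ := by
    have c1 : Continuous fun y => dR ρ y * s y :=
      ((Q.contDiff_dR hρ.smooth).mul hs1).continuous
    have c2 : HasCompactSupport fun y => dR ρ y * s y :=
      HasCompactSupport.intro hρ.compact fun y hy => by
        rw [hρ.dR_out hy, zero_mul]
    exact (evalL b).integrable_comp (c1.integrable_of_hasCompactSupport c2)
  have h2 : ∀ y ≠ 0, Φ y = evalForm (extd w y) b + evalForm (dR ρ y * s y) b := by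
    intro y hy
    have h3 : extd w y = dx (fderiv ℝ (fun x => 1 - ρ x) y) * s y + (1 - ρ y) • extd s y :=
      extd_smul ((contDiff_const.sub hρ.smooth).differentiable (by simp) y)
        ((hsm y hy).differentiableAt (by simp))
    have h4 : fderiv ℝ (fun x => 1 - ρ x) y = -fderiv ℝ ρ y := by
      rw [fderiv_const_sub]
    rw [h3, h4, map_neg, neg_mul, hsd y hy, Q.evalForm_add, Q.evalForm_smul, ← hΦ y hy]
    have h5 : evalForm (-(dx (fderiv ℝ ρ y) * s y)) b = -evalForm (dR ρ y * s y) b := by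
      rw [← neg_one_smul ℝ, Q.evalForm_smul, neg_one_mul]
      rfl
    rw [h5]
    rcases hρ0 y hy with h6 | h6
    · rw [h6]
      ring
    · rw [h6]
      ring
  have h3 : Φ =ᵐ[μ] fun y => evalForm (extd w y) b + evalForm (dR ρ y * s y) b := by
    have h4 : ∀ᵐ y ∂μ, y ≠ 0 := by
      have : μ {(0 : V)} = 0 := measure_singleton _
      filter_upwards [compl_mem_ae_iff.2 this] with y hy using hy
    filter_upwards [h4] with y hy using h2 y hy
  rw [integral_congr_ae h3, integral_add i1 i2, h1, zero_add]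

/-! ### the homotopies -/

/-- the cutoff functions of time -/
noncomputable def tr (a : ℝ) (x : V) : ℝ := Real.smoothTransition (3 * ‖x‖ - a)

theorem tr_zero {a : ℝ} {x : V} (h : 3 * ‖x‖ ≤ a) : tr a x = 0 :=
  Real.smoothTransition.zero_of_nonpos (sub_nonpos.2 h)

theorem tr_one {a : ℝ} {x : V} (h : a + 1 ≤ 3 * ‖x‖) : tr a x = 1 :=
  Real.smoothTransition.one_of_one_le (by linarith)

theorem sm_tr (a : ℝ) {x : V} (hx : x ≠ 0) : Sm (tr a : V → ℝ) x := by
  filter_upwards [isOpen_ne.mem_nhds hx] with y hy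
  exact Real.smoothTransition.contDiff.contDiffAt.comp y
    ((contDiffAt_const.mul (contDiffAt_norm ℝ hy)).sub contDiffAt_const)

theorem tr_zero_ev {a : ℝ} {x : V} (h : 3 * ‖x‖ < a) : ∀ᶠ y in 𝓝 x, tr a y = 0 := by
  have : IsOpen {y : V | 3 * ‖y‖ < a} :=
    isOpen_lt (continuous_const.mul continuous_norm) continuous_const
  filter_upwards [this.mem_nhds h] with y hy using tr_zero (le_of_lt hy)

theorem tr_one_ev {a : ℝ} {x : V} (h : a + 1 < 3 * ‖x‖) : ∀ᶠ y in 𝓝 x, tr a y = 1 := by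
  have : IsOpen {y : V | a + 1 < 3 * ‖y‖} :=
    isOpen_lt continuous_const (continuous_const.mul continuous_norm)
  filter_upwards [this.mem_nhds h] with y hy using tr_one (le_of_lt hy)

theorem map_tr (a : ℝ) : ((dP V).prod (Dif.lin ℝ)).Map ((dP V).prod (Dif.lin ℝ))
    (fun p => (p.1, tr a p.1 * p.2)) := by
  intro E _ _ _ u x h
  refine ⟨h.1, ?_⟩
  have h1 : Sm (fun y => (u y).1) x := h.1.1
  have h2 : ∀ᶠ y in 𝓝 x, (u y).1 ≠ 0 := h.1.2
  have h3 : Sm (fun y => (u y).2) x := h.2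
  have h4 : Sm (fun y => tr a (u y).1 * (u y).2) x := by
    filter_upwards [h1, h2, h3] with y e1 e2 e3
    exact ((sm_tr a e2).self_of_nhds.comp y e1).mul e3
  exact h4

theorem map_tr1 (a : ℝ) : (dP V).Map ((dP V).prod (Dif.lin ℝ)) (fun x => (x, tr a x)) := by
  intro E _ _ _ u x h
  refine ⟨h, ?_⟩
  have h1 : Sm u x := h.1
  have h2 : ∀ᶠ y in 𝓝 x, u y ≠ 0 := h.2
  have h4 : Sm (fun y => tr a (u y)) x := by
    filter_upwards [h1, h2] with y e1 e2
    exact (sm_tr a e2).self_of_nhds.comp y e1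
  exact h4

section Theta

variable {M : Type*} {dM : Dif M} {G : V × ℝ → M}

/-- the homotopy with the cutoff -/
noncomputable def cG (G : V × ℝ → M) (a : ℝ) (p : V × ℝ) : M := G (p.1, tr a p.1 * p.2)

theorem map_cG (hG : ((dP V).prod (Dif.lin ℝ)).Map dM G) (a : ℝ) : ((dP V).prod (Dif.lin ℝ)).Map dM (cG G a) :=
  Dif.Map.comp (f := fun p : V × ℝ => (p.1, tr a p.1 * p.2)) (g := G) hG (map_tr a)

/-- the primitive -/
noncomputable def Th (hG : ((dP V).prod (Dif.lin ℝ)).Map dM G) (a : ℝ) (F : Form dM) :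
    Form (dP V) := Form.K (Form.pull (cG G a) (map_cG hG a) F)

theorem Th_def (hG : ((dP V).prod (Dif.lin ℝ)).Map dM G) (a : ℝ) (F : Form dM) :
    Th hG a F = Form.K (Form.pull (cG G a) (map_cG hG a) F) := rfl

theorem Th_d (hG : ((dP V).prod (Dif.lin ℝ)).Map dM G) (a : ℝ) {F : Form dM} (hF : F.d = 0) :
    (Th hG a F).d = Form.pull (fun x => G (x, tr a x))
      (Dif.Map.comp (f := fun x : V => (x, tr a x)) (g := G) hG (map_tr1 a)) F -
      Form.pull (fun x => G (x, 0)) (map_at hG 0) F := by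
  have h := homotopy' (Form.pull (cG G a) (map_cG hG a) F)
  rw [← Form.pull_d, hF, pull_zero', K_zero, zero_add] at h
  rw [Th_def, ← h]
  congr 1
  · exact pull_pull (Form.map_slice 1) (map_cG hG a) _ (fun x => by simp [cG]) F
  · exact pull_pull (Form.map_slice 0) (map_cG hG a) _ (fun x => by simp [cG]) F

theorem Th_val_one (hG : ((dP V).prod (Dif.lin ℝ)).Map dM G) (a : ℝ) (F : Form dM) {x : V} (h : a + 1 < 3 * ‖x‖) (hx : x ≠ 0) :
    (Th hG a F).val id x = (Form.K (Form.pull G hG F)).val id x := by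
  rw [Th_def, K_val' _ (at_id hx), K_val' _ (at_id hx)]
  refine intervalIntegral.integral_congr fun t _ => ?_
  change at1 _ = at1 _
  rw [Form.pull_val _ _ (Form.cyl_at (at_id hx) t), Form.pull_val _ _ (Form.cyl_at (at_id hx) t)]
  congr 1
  refine F.congr (map_cG hG a (Form.cyl_at (at_id hx) t)) ?_
  have h1 : Tendsto (Prod.fst : V × ℝ → V) (𝓝 (x, t)) (𝓝 x) := continuous_fst.continuousAt
  filter_upwards [h1.eventually (tr_one_ev h)] with p hp
  change G (p.1, tr a p.1 * p.2) = G (p.1, p.2)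
  rw [hp, one_mul]

theorem Th_val_zero (hG : ((dP V).prod (Dif.lin ℝ)).Map dM G) (a : ℝ) (F : Form dM) {x : V} (h : 3 * ‖x‖ < a) :
    (Th hG a F).val id x = 0 := by
  by_cases hx : x = 0
  · refine Form.junk _ fun h => ?_
    exact h.2.self_of_nhds hx
  rw [Th_def, K_val' _ (at_id hx)]
  have h2 : ∀ t : ℝ, co (Form.pull (cG G a) (map_cG hG a) F) id x t = 0 := fun t => by
    rw [co, Form.pull_val _ _ (Form.cyl_at (at_id hx) t)]
    have h1 : Tendsto (Prod.fst : V × ℝ → V) (𝓝 (x, t)) (𝓝 x) := continuous_fst.continuousAt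
    have h3 : cG G a ∘ Form.cyl id =ᶠ[𝓝 (x, t)] (fun y => G (y, 0)) ∘ Prod.fst := by
      filter_upwards [h1.eventually (tr_zero_ev h)] with p hp
      change G (p.1, tr a p.1 * p.2) = G (p.1, 0)
      rw [hp, zero_mul]
    have h4 : dM.At (fun y : V => G (y, 0)) x := map_at hG 0 (at_id hx)
    rw [F.congr (map_cG hG a (Form.cyl_at (at_id hx) t)) h3,
      F.nat (u := fun y : V => G (y, 0)) (g := (Prod.fst : V × ℝ → V)) (x := (x, t)) h4
        (Sm.of_contDiff contDiff_fst _), fderiv_fst, at1_fst]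
  simp only [h2]
  exact intervalIntegral.integral_zero

end Theta

section Hh

variable {M : Type*} {dM : Dif M} {G₁ G₂ : V × ℝ → M}

open Classical in
/-- the concatenation of two homotopies, as a map on `V` -/
noncomputable def Hh (G₁ G₂ : V × ℝ → M) (p₀ : M) (x : V) : M :=
  if x = 0 then p₀ else if ‖x‖ ≤ 1 then G₁ (x, tr 1 x) else G₂ (x, tr 4 x)

variable {p₀ : M} (h0 : ∀ x : V, x ≠ 0 → G₁ (x, 0) = p₀)
  (h12 : ∀ x : V, x ≠ 0 → G₁ (x, 1) = G₂ (x, 0))

include h12 in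
theorem Hh_one {x : V} (hx : x ≠ 0) (h : 3 * ‖x‖ < 4) : Hh G₁ G₂ p₀ x = G₁ (x, tr 1 x) := by
  rw [Hh, if_neg hx]
  split_ifs with h1
  · rfl
  · rw [not_le] at h1
    rw [tr_zero h.le, tr_one (by linarith), h12 x hx]

include h12 in
theorem Hh_two {x : V} (hx : x ≠ 0) (h : 2 < 3 * ‖x‖) : Hh G₁ G₂ p₀ x = G₂ (x, tr 4 x) := by
  rw [Hh, if_neg hx]
  split_ifs with h1
  · rw [tr_zero (a := 4) (by linarith), tr_one (by linarith), h12 x hx]
  · rfl

include h0 h12 in
theorem Hh_zero {x : V} (h : 3 * ‖x‖ < 1) : Hh G₁ G₂ p₀ x = p₀ := by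
  by_cases hx : x = 0
  · rw [Hh, if_pos hx]
  · rw [Hh_one h12 hx (by linarith), tr_zero h.le, h0 x hx]

theorem Hh_far {x : V} (hx : 5 ≤ 3 * ‖x‖) : Hh G₁ G₂ p₀ x = G₂ (x, 1) := by
  have hx0 : x ≠ 0 := fun h => by
    rw [h, norm_zero] at hx
    norm_num at hx
  rw [Hh, if_neg hx0, if_neg (by linarith), tr_one (by linarith)]

theorem Hh_mem {x : V} : Hh G₁ G₂ p₀ x = p₀ ∨
    (x ≠ 0 ∧ ‖x‖ ≤ 1 ∧ Hh G₁ G₂ p₀ x = G₁ (x, tr 1 x)) ∨
    (x ≠ 0 ∧ 1 < ‖x‖ ∧ Hh G₁ G₂ p₀ x = G₂ (x, tr 4 x)) := by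
  by_cases hx : x = 0
  · exact Or.inl (by rw [Hh, if_pos hx])
  · by_cases h1 : ‖x‖ ≤ 1
    · exact Or.inr (Or.inl ⟨hx, h1, by rw [Hh, if_neg hx, if_pos h1]⟩)
    · exact Or.inr (Or.inr ⟨hx, not_le.1 h1, by rw [Hh, if_neg hx, if_neg h1]⟩)

theorem const_at [Nontrivial V] (hG₁ : ((dP V).prod (Dif.lin ℝ)).Map dM G₁)
    (h0 : ∀ x : V, x ≠ 0 → G₁ (x, 0) = p₀) {E : Type} [NormedAddCommGroup E] [NormedSpace ℝ E]
    [FiniteDimensional ℝ E] (x : E) : dM.At (fun _ : E => p₀) x := by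
  obtain ⟨v, hv⟩ := exists_ne (0 : V)
  have h1 : dM.At (fun y : V => G₁ (y, 0)) v := map_at hG₁ 0 (at_id hv)
  have h2 : dM.At (fun _ : V => p₀) v := dM.congr h1 (by
    filter_upwards [isOpen_ne.mem_nhds hv] with y hy using h0 y hy)
  exact dM.comp (u := fun _ : V => p₀) (g := fun _ : E => v) h2 (Sm.of_contDiff contDiff_const _)

include h0 h12 in
theorem map_Hh [Nontrivial V] (hG₁ : ((dP V).prod (Dif.lin ℝ)).Map dM G₁)
    (hG₂ : ((dP V).prod (Dif.lin ℝ)).Map dM G₂) : (Dif.lin V).Map dM (Hh G₁ G₂ p₀) := by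
  intro E _ _ _ u x hu
  have hc : ContinuousAt u x := Sm.continuousAt hu
  have hc3 : ContinuousAt (fun y => 3 * ‖u y‖) x := continuousAt_const.mul hc.norm
  rcases lt_or_ge (3 * ‖u x‖) 1 with h1 | h1
  · refine dM.congr (const_at hG₁ h0 x) ?_
    filter_upwards [hc3.eventually (gt_mem_nhds h1)] with y hy
    exact (Hh_zero h0 h12 hy).symm
  have hx0 : u x ≠ 0 := fun h => by
    rw [h, norm_zero] at h1
    norm_num at h1
  have hne : ∀ᶠ y in 𝓝 x, u y ≠ 0 := hc.eventually (isOpen_ne.mem_nhds hx0)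
  rcases lt_or_ge (3 * ‖u x‖) 4 with h2 | h2
  · have h3 : dM.At (fun y => G₁ (u y, tr 1 (u y))) x := hG₁ (map_tr1 1 ⟨hu, hne⟩)
    refine dM.congr h3 ?_
    filter_upwards [hc3.eventually (gt_mem_nhds h2), hne] with y hy hy0
    exact (Hh_one h12 hy0 hy).symm
  · have h3 : dM.At (fun y => G₂ (u y, tr 4 (u y))) x := hG₂ (map_tr1 4 ⟨hu, hne⟩)
    refine dM.congr h3 ?_
    have h4 : 2 < 3 * ‖u x‖ := by linarith
    filter_upwards [hc3.eventually (lt_mem_nhds h4), hne] with y hy hy0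
    exact (Hh_two h12 hy0 hy).symm

/-- germs determine the values -/
theorem eval_congr {F : Form dM} {f f' : V → M} {x : V} (hf : dM.At f x) (h : f =ᶠ[𝓝 x] f') :
    F.val f x = F.val f' x := F.congr hf h

/-- **the integral over `ℝ^n` of the concatenation** -/
theorem integral_Hh [Nontrivial V] (μ : Measure V) [μ.IsAddHaarMeasure] {n : ℕ}
    (b : Basis (Fin n) ℝ V) (hG₁ : ((dP V).prod (Dif.lin ℝ)).Map dM G₁)
    (hG₂ : ((dP V).prod (Dif.lin ℝ)).Map dM G₂)
    (hh₁ : ∀ x : V, x ≠ 0 → ∀ c : ℝ, 0 < c → ∀ t, G₁ (c • x, t) = G₁ (x, t))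
    (hh₂ : ∀ x : V, x ≠ 0 → ∀ c : ℝ, 0 < c → ∀ t, G₂ (c • x, t) = G₂ (x, t))
    (h0 : ∀ x : V, x ≠ 0 → G₁ (x, 0) = p₀)
    (h12 : ∀ x : V, x ≠ 0 → G₁ (x, 1) = G₂ (x, 0)) {F : Form dM} (hF : F.d = 0)
    {ρ : V → ℝ} {K : Set V} (hρ : Cut ρ K) (hρ2 : ∀ x, ‖x‖ ≤ 2 → ρ x = 0) :
    ∫ x, evalForm ((Form.pull (Hh G₁ G₂ p₀) (map_Hh h0 h12 hG₁ hG₂) F).val id x) b ∂μ =
      ∫ x, evalForm (dR ρ x * (Form.K (Form.pull G₁ hG₁ F) +
        Form.K (Form.pull G₂ hG₂ F)).val id x) b ∂μ := by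
  have hrd₁ : ∀ (y : V), y ≠ 0 → ∀ t, G₁ (y, t) = G₁ (rad y, t) := fun y hy t =>
    (hh₁ y hy ‖y‖⁻¹ (inv_pos.2 (norm_pos_iff.2 hy)) t).symm
  have hrd₂ : ∀ (y : V), y ≠ 0 → ∀ t, G₂ (y, t) = G₂ (rad y, t) := fun y hy t =>
    (hh₂ y hy ‖y‖⁻¹ (inv_pos.2 (norm_pos_iff.2 hy)) t).symm
  have hv₁ : ∀ (s : ℝ) (y : V), y ≠ 0 →
      evalForm (F.val (fun z => G₁ (z, s)) y) b = 0 := fun s y hy => by
    have h := eval_hom (map_at hG₁ s) hy (by
      filter_upwards [isOpen_ne.mem_nhds hy] with z hz using hrd₁ z hz s) F b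
    rwa [Form.pull_val _ _ (at_id hy)] at h
  have hv₂ : ∀ (s : ℝ) (y : V), y ≠ 0 →
      evalForm (F.val (fun z => G₂ (z, s)) y) b = 0 := fun s y hy => by
    have h := eval_hom (map_at hG₂ s) hy (by
      filter_upwards [isOpen_ne.mem_nhds hy] with z hz using hrd₂ z hz s) F b
    rwa [Form.pull_val _ _ (at_id hy)] at h
  have hd₁ : ∀ y : V, y ≠ 0 → evalForm ((Th hG₁ 1 F).d.val id y) b =
      evalForm (F.val (fun z => G₁ (z, tr 1 z)) y) b := fun y hy => by
    rw [Th_d hG₁ 1 hF, Form.sub_val, Q.evalForm_sub, Form.pull_val _ _ (at_id hy),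
      Form.pull_val _ _ (at_id hy)]
    change _ - evalForm (F.val (fun z => G₁ (z, 0)) y) b = _
    rw [hv₁ 0 y hy, sub_zero]
    rfl
  have hd₂ : ∀ y : V, y ≠ 0 → evalForm ((Th hG₂ 4 F).d.val id y) b =
      evalForm (F.val (fun z => G₂ (z, tr 4 z)) y) b := fun y hy => by
    rw [Th_d hG₂ 4 hF, Form.sub_val, Q.evalForm_sub, Form.pull_val _ _ (at_id hy),
      Form.pull_val _ _ (at_id hy)]
    change _ - evalForm (F.val (fun z => G₂ (z, 0)) y) b = _
    rw [hv₂ 0 y hy, sub_zero]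
    rfl
  have hA₁ : ∀ y : V, y ≠ 0 → dM.At (fun z => G₁ (z, tr 1 z)) y := fun y hy =>
    hG₁ (map_tr1 1 (at_id hy))
  have hA₂ : ∀ y : V, y ≠ 0 → dM.At (fun z => G₂ (z, tr 4 z)) y := fun y hy =>
    hG₂ (map_tr1 4 (at_id hy))
  have hH : ∀ y : V, (Form.pull (Hh G₁ G₂ p₀) (map_Hh h0 h12 hG₁ hG₂) F).val id y =
      F.val (Hh G₁ G₂ p₀) y := fun y => Form.pull_val _ _ (Sm.of_contDiff contDiff_id y)
  have hAH : ∀ y : V, dM.At (Hh G₁ G₂ p₀) y := fun y =>
    map_Hh h0 h12 hG₁ hG₂ (u := id) (Sm.of_contDiff contDiff_id y)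
  have h3c : Continuous fun y : V => 3 * ‖y‖ := continuous_const.mul continuous_norm
  set Θ := Th hG₁ 1 F + Th hG₂ 4 F with hΘ
  have hmain := integral_prim μ b Θ (by
      have : ∀ᶠ y in 𝓝 (0 : V), 3 * ‖y‖ < 1 := h3c.continuousAt.eventually
        (gt_mem_nhds (by simp))
      filter_upwards [this] with y hy
      rw [hΘ, Form.add_val, Th_val_zero hG₁ 1 F hy, Th_val_zero hG₂ 4 F (by linarith), add_zero])
    hρ (Φ := fun x => evalForm ((Form.pull (Hh G₁ G₂ p₀)
      (map_Hh h0 h12 hG₁ hG₂) F).val id x) b) (fun x hx => by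
        rw [hH, hΘ, Form.d_add, Form.add_val, Q.evalForm_add, hd₁ x hx, hd₂ x hx]
        rcases lt_or_ge (3 * ‖x‖) 3 with h | h
        · have e1 : F.val (fun z => G₂ (z, tr 4 z)) x = F.val (fun z => G₂ (z, 0)) x := by
            refine F.congr (hA₂ x hx) ?_
            filter_upwards [tr_zero_ev (a := 4) (x := x) (by linarith)] with y hy
            rw [hy]
          have e2 : F.val (Hh G₁ G₂ p₀) x = F.val (fun z => G₁ (z, tr 1 z)) x := by
            refine F.congr (hAH x) ?_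
            filter_upwards [h3c.continuousAt.eventually
              (gt_mem_nhds (show 3 * ‖x‖ < 4 by linarith)), isOpen_ne.mem_nhds hx] with y hy hy0
            exact Hh_one h12 hy0 hy
          rw [e1, e2, hv₂ 0 x hx, add_zero]
        · have e1 : F.val (fun z => G₁ (z, tr 1 z)) x = F.val (fun z => G₁ (z, 1)) x := by
            refine F.congr (hA₁ x hx) ?_
            filter_upwards [tr_one_ev (a := 1) (x := x) (by linarith)] with y hy
            rw [hy]
          have e2 : F.val (Hh G₁ G₂ p₀) x = F.val (fun z => G₂ (z, tr 4 z)) x := by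
            refine F.congr (hAH x) ?_
            filter_upwards [h3c.continuousAt.eventually
              (lt_mem_nhds (show 2 < 3 * ‖x‖ by linarith)), isOpen_ne.mem_nhds hx] with y hy hy0
            exact Hh_two h12 hy0 hy
          rw [e1, e2, hv₁ 1 x hx, zero_add])
    (fun x hx => by
      rcases le_or_gt ‖x‖ 2 with h | h
      · exact Or.inl (hρ2 x h)
      · right
        have e2 : F.val (Hh G₁ G₂ p₀) x = F.val (fun z => G₂ (z, 1)) x := by
          refine F.congr (hAH x) ?_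
          filter_upwards [h3c.continuousAt.eventually
            (lt_mem_nhds (show 5 < 3 * ‖x‖ by linarith))] with y hy
          exact Hh_far hy.le
        change evalForm ((Form.pull (Hh G₁ G₂ p₀)
          (map_Hh h0 h12 hG₁ hG₂) F).val id x) b = 0
        rw [hH, e2, hv₂ 1 x hx])
  rw [hmain]
  refine integral_congr_ae (Eventually.of_forall fun x => ?_)
  change evalForm (dR ρ x * _) b = evalForm (dR ρ x * _) b
  rcases lt_or_ge ‖x‖ 2 with h | h
  · have h1 : ρ =ᶠ[𝓝 x] fun _ => 0 := by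
      filter_upwards [(isOpen_lt continuous_norm continuous_const).mem_nhds h] with y hy
      exact hρ2 y (le_of_lt hy)
    have h2 : dR ρ x = 0 := by
      rw [dR, h1.fderiv_eq]
      simp
    rw [h2, zero_mul, zero_mul]
  · have hx : x ≠ 0 := fun h1 => by
      rw [h1, norm_zero] at h
      norm_num at h
    rw [hΘ, Form.add_val, Form.add_val, Th_val_one hG₁ 1 F (by linarith) hx,
      Th_val_one hG₂ 4 F (by linarith) hx]

/-- **the number `N` as an integral over `ℝ^n`**: `G₁` (for instance `foot ∘ C`), and the push off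
`g` along `j`. -/
theorem integral_Hh_j [Nontrivial V] {S : Type*} {dS : Dif S} (μ : Measure V)
    [μ.IsAddHaarMeasure] {n : ℕ} (b : Basis (Fin n) ℝ V)
    (hG₁ : ((dP V).prod (Dif.lin ℝ)).Map dM G₁) {j : V → S} (hj : (dP V).Map dS j)
    {g : S × ℝ → M} (hg : (dS.prod (Dif.lin ℝ)).Map dM g)
    (hh₁ : ∀ x : V, x ≠ 0 → ∀ c : ℝ, 0 < c → ∀ t, G₁ (c • x, t) = G₁ (x, t))
    (hhj : ∀ x : V, x ≠ 0 → ∀ c : ℝ, 0 < c → j (c • x) = j x)
    (h0 : ∀ x : V, x ≠ 0 → G₁ (x, 0) = p₀)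
    (h12 : ∀ x : V, x ≠ 0 → G₁ (x, 1) = g (j x, 0)) {F : Form dM} (hF : F.d = 0)
    {ρ : V → ℝ} {K : Set V} (hρ : Cut ρ K) (hρ2 : ∀ x, ‖x‖ ≤ 2 → ρ x = 0) :
    ∫ x, evalForm ((Form.pull (Hh G₁ (fun p => g (j p.1, p.2)) p₀)
        (map_Hh h0 h12 hG₁ (Dif.Map.comp (f := fun p : V × ℝ => (j p.1, p.2)) (g := g) hg
          (map_cyl hj))) F).val id x) b ∂μ =
      ∫ x, evalForm (dR ρ x * (Form.K (Form.pull G₁ hG₁ F) +
        Form.pull j hj (Form.K (Form.pull g hg F))).val id x) b ∂μ := by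
  have hG₂ : ((dP V).prod (Dif.lin ℝ)).Map dM (fun p => g (j p.1, p.2)) :=
    Dif.Map.comp (f := fun p : V × ℝ => (j p.1, p.2)) (g := g) hg (map_cyl hj)
  rw [integral_Hh μ b hG₁ hG₂ hh₁ (fun x hx c hc t => by rw [hhj x hx c hc]) h0 h12 hF hρ hρ2]
  have h1 : Form.K (Form.pull (fun p : V × ℝ => g (j p.1, p.2))
      (Dif.Map.comp (f := fun p : V × ℝ => (j p.1, p.2)) (g := g) hg (map_cyl hj)) F) =
      Form.pull j hj (Form.K (Form.pull g hg F)) := by
    rw [← K_nat hj]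
    congr 1
    exact (pull_pull (map_cyl hj) hg _ (fun _ => rfl) F).symm
  rw [h1]

end Hh

end Vale.Agent.P231.S2I
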