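import Vale.Agent.P231.Co.On
import Vale.Agent.P231.WF.Deg

/-!
# P231, forms on an open subset of a vector space
-/

set_option linter.unusedSectionVars false
set_option linter.unusedVariables false

open Set Module Filter Topology
open scoped ContDiff

namespace Vale.Agent.P231.S2I

open Fm

variable {V : Type} [NormedAddCommGroup V] [NormedSpace ℝ V] [FiniteDimensional ℝ V] {O : Set V}

theorem on_id (hO : IsOpen O) {x : V} (hx : x ∈ O) : ((Dif.lin V).on O).At (id : V → V) x :=
  ⟨Sm.of_contDiff contDiff_id x, hO.mem_nhds hx⟩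

/-- a smooth form on an open subset of a vector space -/
noncomputable def ofOn (hO : IsOpen O) (w : V → Lam V) (hw : ContDiffOn ℝ ∞ w O) :
    Form ((Dif.lin V).on O) :=
  Form.mk' (fun u x => pb u w x)
    (fun {E} _ _ _ {u x} h => contDiffAt_pb (m := ∞) (n := ∞) h.1.contDiffAt
      (hw.contDiffAt (hO.mem_nhds h.2.self_of_nhds)) (by simp))
    (fun {E F} _ _ _ _ _ _ {u g x} h hg =>
      pb_comp (f := g) (g := u) w h.1.differentiableAt hg.differentiableAt)
    (fun {E} _ _ _ {u v x} h huv => pb_congr w huv)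

theorem ofOn_val (hO : IsOpen O) (w : V → Lam V) (hw : ContDiffOn ℝ ∞ w O) {E : Type}
    [NormedAddCommGroup E] [NormedSpace ℝ E] [FiniteDimensional ℝ E] {u : E → V} {x : E}
    (h : ((Dif.lin V).on O).At u x) : (ofOn hO w hw).val u x = pb u w x :=
  Form.mk'_val (D := (Dif.lin V).on O) h

theorem ofOn_val_id (hO : IsOpen O) (w : V → Lam V) (hw : ContDiffOn ℝ ∞ w O) {x : V}
    (hx : x ∈ O) : (ofOn hO w hw).val id x = w x := by
  rw [ofOn_val hO w hw (on_id hO hx)]
  exact pb_id w x

/-- the value in a plot is determined by the value in the identity plot -/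
theorem on_val (hO : IsOpen O) (a : Form ((Dif.lin V).on O)) {E : Type}
    [NormedAddCommGroup E] [NormedSpace ℝ E] [FiniteDimensional ℝ E] {u : E → V} {x : E}
    (h : ((Dif.lin V).on O).At u x) :
    a.val u x = Fm.pull (fderiv ℝ u x) (a.val id (u x)) :=
  a.nat (u := id) (g := u) (on_id hO h.2.self_of_nhds) h.1

theorem ext_id (hO : IsOpen O) {a b : Form ((Dif.lin V).on O)}
    (h : ∀ x ∈ O, a.val id x = b.val id x) : a = b :=
  Form.ext_val fun E _ _ _ u x hu => by
    rw [on_val hO a hu, on_val hO b hu, h _ hu.2.self_of_nhds]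

theorem contDiffOn_val_id (hO : IsOpen O) (a : Form ((Dif.lin V).on O)) :
    ContDiffOn ℝ ∞ (a.val id) O := fun x hx => (a.smooth (on_id hO hx)).contDiffWithinAt

theorem ofOn_val_self (hO : IsOpen O) (a : Form ((Dif.lin V).on O)) :
    ofOn hO (a.val id) (contDiffOn_val_id hO a) = a :=
  ext_id hO fun x hx => ofOn_val_id hO _ _ hx

theorem contDiffOn_extd (hO : IsOpen O) {w : V → Lam V} (hw : ContDiffOn ℝ ∞ w O) :
    ContDiffOn ℝ ∞ (extd w) O := fun x hx =>
  (contDiffAt_extd (hw.contDiffAt (hO.mem_nhds hx)) (by simp)).contDiffWithinAt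

theorem d_val_id (hO : IsOpen O) (a : Form ((Dif.lin V).on O)) {x : V} (hx : x ∈ O) :
    a.d.val id x = extd (a.val id) x := Form.d_val a (on_id hO hx)

theorem d_ofOn (hO : IsOpen O) (w : V → Lam V) (hw : ContDiffOn ℝ ∞ w O) :
    (ofOn hO w hw).d = ofOn hO (extd w) (contDiffOn_extd hO hw) := ext_id hO fun x hx => by
  rw [d_val_id hO _ hx, ofOn_val_id hO _ _ hx]
  refine extd_congr ?_
  filter_upwards [hO.mem_nhds hx] with y hy using ofOn_val_id hO _ _ hy

theorem isDeg_ofOn (hO : IsOpen O) (w : V → Lam V) (hw : ContDiffOn ℝ ∞ w O) {k : ℕ}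
    (h : ∀ x ∈ O, w x ∈ WF.hom V k) : WF.IsDeg (ofOn hO w hw) k := fun {E} _ _ _ {u x} hu => by
  rw [ofOn_val hO w hw hu]
  exact WF.pull_mem_hom _ (h _ hu.2.self_of_nhds)

/-- a smooth map pulls back forms given by functions -/
theorem pull_ofOn {V' : Type} [NormedAddCommGroup V'] [NormedSpace ℝ V'] [FiniteDimensional ℝ V']
    {O' : Set V'} (hO : IsOpen O) (hO' : IsOpen O') {f : V' → V}
    (hf : ((Dif.lin V').on O').Map ((Dif.lin V).on O) f) (w : V → Lam V)
    (hw : ContDiffOn ℝ ∞ w O) {x : V'} (hx : x ∈ O') :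
    (Form.pull f hf (ofOn hO w hw)).val id x = pb f w x := by
  rw [Form.pull_val hf _ (on_id hO' hx), ofOn_val hO w hw (hf (on_id hO' hx))]
  rfl

end Vale.Agent.P231.S2I
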