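import Vale.Agent.P231.Co.Gys
import Vale.Agent.P231.S2I.DegC
import Vale.Agent.P231.S2I.OfOn
import Vale.Agent.P231.S2I.Nint

/-!
# P231, stage 2: closed forms of top degree on the sphere and on the punctured space
-/

set_option linter.unusedSectionVars false
set_option linter.unusedVariables false

open MeasureTheory Set Module Filter Topology Metric
open scoped ContDiff

namespace Vale.Agent.P231.S2I

open Fm W H584 Vale.Agent.P231.WA Vale.Agent.P231.Co
open Q (dR Cut)
open Vale.Agent.P231.Fm (Sm Dif Form Lam)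

/-- the point -/
abbrev Pt := Fin 0 → ℝ

/-- the diffeology of the point -/
noncomputable abbrev dPt : Dif Pt := Dif.lin Pt

theorem pt_pos {a : Form dPt} {k : ℕ} (h : Form.IsDeg (k + 1) a) : a = 0 :=
  DimLE.isDeg_eq_zero (dimLE_lin Pt) (by simp) h

theorem pt_at {E : Type} [NormedAddCommGroup E] [NormedSpace ℝ E] [FiniteDimensional ℝ E]
    (u : E → Pt) (x : E) : dPt.At u x := by
  have : u = fun _ => 0 := funext fun y => Subsingleton.elim _ _
  rw [this]
  exact Sm.of_contDiff contDiff_const x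

theorem pt_zero {a : Form dPt} (h : Form.IsDeg 0 a) : a = WF.ptv a 0 • (1 : Form dPt) :=
  Form.ext_val fun E _ _ _ u x hu => by
    rw [WF.val_of_isDeg_zero (DegC.toWF h) hu, Form.smul_val, Form.one_val hu,
      Algebra.algebraMap_eq_smul_one, Subsingleton.elim (u x) 0]

variable {F : Type} [NormedAddCommGroup F] [InnerProductSpace ℝ F] [FiniteDimensional ℝ F]
  [MeasurableSpace F] [BorelSpace F] {m : ℕ} (o : OrthonormalBasis (Fin m) ℝ F)

/-- closed forms of top degree on the sphere -/
theorem sphere_top {σ ω' : Form (SB dPt F)} {j : ℕ} (hm : m = j + 2) (hσ : σ.d = 0)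
    (hσk : Form.IsDeg (j + 1) σ) (hω : ω'.d = 0) (hωk : Form.IsDeg (j + 1) ω')
    (h1 : si o ω' = 1) : ∃ κ : Form (SB dPt F), Form.IsDeg j κ ∧
      σ = WF.ptv (si o σ) 0 • ω' + κ.d := by
  have hs : si o σ = WF.ptv (si o σ) 0 • (1 : Form dPt) :=
    pt_zero (isDeg_si o hσk (by omega))
  set c := WF.ptv (si o σ) 0 with hc
  have h2 : (σ - c • ω').d = 0 := by rw [Form.d_sub, Form.d_smul, hσ, hω, smul_zero, sub_zero]
  have h3 : si o (σ - c • ω') = 0 := by rw [si_sub, si_smul, h1, hs, sub_self]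
  obtain ⟨τ, hτ⟩ := exists_th o dPt
  have h4 := gysin2 o h2 h3 hτ
  have h5 : Form.IsDeg (j + 1) (σ - c • ω') := hσk.sub (hωk.smul c)
  have h6 : ba o (σ - c • ω') τ = 0 := pt_pos (isDeg_ba o h5 hτ)
  refine ⟨ka o (σ - c • ω') τ, isDeg_ka o h5 hτ, ?_⟩
  rw [h6, pS, Co.pull_zero, zero_add] at h4
  rw [← h4]
  abel

/-! ### the punctured space -/

/-- the inclusion of the sphere -/
theorem map_i : (SB dPt F).Map (dP F) Prod.snd := fun {E} _ _ _ {u x} h => ⟨h.1.2, by
  filter_upwards [h.2] with y hy h0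
  have hy' : ‖(u y).2‖ = 1 := hy
  have h0' : (u y).2 = 0 := h0
  rw [h0', norm_zero] at hy'
  exact zero_ne_one hy'⟩

/-- the normalisation -/
theorem map_r : (dP F).Map (SB dPt F) (fun y => ((0 : Pt), rad y)) := fun {E} _ _ _ {u x} h => by
  have h0 : u x ≠ 0 := h.2.self_of_nhds
  refine ⟨⟨Sm.of_contDiff contDiff_const _, sm_normalize h.1 h0⟩, ?_⟩
  filter_upwards [h.2] with y hy
  exact norm_rad hy

/-- the radial homotopy -/
noncomputable def rh (p : F × ℝ) : F := Real.exp ((p.2 - 1) * Real.log ‖p.1‖) • p.1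

theorem map_rh : ((dP F).prod (Dif.lin ℝ)).Map (dP F) rh := fun {E} _ _ _ {u x} h => by
  have h1 : Sm (fun y => (u y).1) x := h.1.1
  have h2 : ∀ᶠ y in 𝓝 x, (u y).1 ≠ 0 := h.1.2
  have h3 : Sm (fun y => (u y).2) x := h.2
  refine ⟨?_, ?_⟩
  · have h4 : Sm (fun y => Real.exp (((u y).2 - 1) * Real.log ‖(u y).1‖) • (u y).1) x := by
      filter_upwards [h1, h2, h3] with y e1 e2 e3
      refine ContDiffAt.smul (ContDiffAt.exp (ContDiffAt.mul (e3.sub contDiffAt_const) ?_)) e1
      exact (e1.norm ℝ e2).log (norm_ne_zero_iff.2 e2)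
    exact h4
  · filter_upwards [h2] with y hy
    exact smul_ne_zero (Real.exp_pos _).ne' hy

theorem rh_one {y : F} : rh (y, 1) = y := by simp [rh]

theorem rh_zero {y : F} (hy : y ≠ 0) : rh (y, 0) = rad y := by
  have h : 0 < ‖y‖ := norm_pos_iff.2 hy
  rw [rh, rad]
  simp only [zero_sub, neg_mul, one_mul]
  rw [Real.exp_neg, Real.exp_log h]

theorem map_rad' : (dP F).Map (dP F) rad := fun h => map_i (map_r h)

/-- a closed form on the punctured space is homogeneous, up to an exact form -/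
theorem rad_homotopy {σ : Form (dP F)} (hσ : σ.d = 0) :
    σ = Form.pull rad map_rad' σ + (Form.K (Form.pull rh map_rh σ)).d := by
  have h := homotopy' (Form.pull rh map_rh σ)
  rw [← Form.pull_d, hσ, Co.pull_zero, K_zero, zero_add] at h
  have h1 : at_ 1 (Form.pull rh map_rh σ) = σ :=
    (pull_pull (k := fun y : F => y) (Form.map_slice 1) map_rh (fun h => h)
      (fun y => rh_one) σ).trans (Form.pull_id _ σ)
  have h2 : at_ 0 (Form.pull rh map_rh σ) = Form.pull rad map_rad' σ := by
    refine Form.ext_val fun E _ _ _ u x hu => ?_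
    rw [at_, Form.pull_val _ _ hu, Form.pull_val _ _ (Form.map_slice 0 hu),
      Form.pull_val _ _ hu]
    refine σ.congr (map_rh (Form.map_slice 0 hu)) ?_
    filter_upwards [hu.2] with y hy
    exact rh_zero hy
  rw [h1, h2] at h
  rw [← h]
  abel

/-- the sphere integral of a form on the punctured space -/
noncomputable def sint (σ : Form (dP F)) : ℝ :=
  WF.ptv (si o (Form.pull Prod.snd map_i σ : Form (SB dPt F))) 0

/-- **closed forms of top degree on the punctured space** -/
theorem punct_top {σ ω' : Form (dP F)} {j : ℕ} (hm : m = j + 2) (hσ : σ.d = 0)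
    (hσk : Form.IsDeg (j + 1) σ) (hω : ω'.d = 0) (hωk : Form.IsDeg (j + 1) ω')
    (h1 : sint o ω' = 1) : ∃ ζ : Form (dP F), Form.IsDeg j ζ ∧
      σ = sint o σ • ω' + ζ.d := by
  have hd : ∀ {w : Form (dP F)}, w.d = 0 →
      (Form.pull Prod.snd map_i w : Form (SB dPt F)).d = 0 := fun {w} hw => by
    rw [← Form.pull_d, hw, Co.pull_zero]
  have hs1 : si o (Form.pull Prod.snd map_i ω' : Form (SB dPt F)) = 1 := by
    have h2 := pt_zero (isDeg_si o (hωk.pull Prod.snd map_i : Form.IsDeg (j + 1)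
      (Form.pull Prod.snd map_i ω' : Form (SB dPt F))) (k := 0) (by omega))
    rw [h2]
    change sint o ω' • (1 : Form dPt) = 1
    rw [h1, one_smul]
  obtain ⟨κ, hκ, e⟩ := sphere_top o hm (hd hσ) (hσk.pull Prod.snd map_i) (hd hω)
    (hωk.pull Prod.snd map_i) hs1
  set c := sint o σ with hc
  have e' : (Form.pull Prod.snd map_i σ : Form (SB dPt F)) =
      c • Form.pull Prod.snd map_i ω' + κ.d := e
  have hr : ∀ w : Form (dP F), Form.pull (fun y => ((0 : Pt), rad y)) map_r
      (Form.pull Prod.snd map_i w : Form (SB dPt F)) = Form.pull rad map_rad' w := fun w =>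
    pull_pull map_r map_i map_rad' (fun _ => rfl) w
  have e2 := congrArg (Form.pull (fun y : F => ((0 : Pt), rad y)) map_r) e'
  rw [hr, Co.pull_add, Co.pull_smul, hr, Form.pull_d] at e2
  have e3 := rad_homotopy hσ
  have e4 := rad_homotopy hω
  have e5 : Form.pull rad map_rad' ω' = ω' - (Form.K (Form.pull rh map_rh ω')).d := by
    nth_rw 2 [e4]
    abel
  refine ⟨Form.pull (fun y => ((0 : Pt), rad y)) map_r κ + Form.K (Form.pull rh map_rh σ) -
    c • Form.K (Form.pull rh map_rh ω'), ?_, ?_⟩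
  · exact ((hκ.pull _ map_r).add (hσk.pull rh map_rh).K).sub
      (((hωk.pull rh map_rh).K).smul c)
  · rw [e2, e5] at e3
    conv_lhs => rw [e3]
    rw [Form.d_sub, Form.d_add, Form.d_smul, smul_sub]
    abel

/-! ### the sphere integral as an integral over `F` -/

/-- the radial cutoff of `Co.Sph` -/
noncomputable def chF (y : F) : ℝ := Real.smoothTransition (2 * ‖y‖ ^ 2 - 1)

theorem contDiff_chF : ContDiff ℝ ∞ (chF : F → ℝ) :=
  Real.smoothTransition.contDiff.comp ((contDiff_const.mul (contDiff_norm_sq ℝ)).sub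
    contDiff_const)

theorem cut_chF : Cut (chF : F → ℝ) (closedBall 0 1) where
  smooth := contDiff_chF
  compact := isCompact_closedBall _ _
  one y hy := by
    rw [mem_closedBall_zero_iff, not_le] at hy
    exact Real.smoothTransition.one_of_one_le (by nlinarith)
  zero := by
    have h1 : ContinuousAt (fun y : F => 2 * ‖y‖ ^ 2) 0 := by fun_prop
    have h2 : (fun y : F => 2 * ‖y‖ ^ 2) 0 < 1 := by simp
    filter_upwards [h1.eventually (gt_mem_nhds h2)] with y hy
    exact Real.smoothTransition.zero_of_nonpos (by linarith)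

/-- the sphere integral with the cutoff `chF` -/
theorem sint_eq (w : Form (dP F)) :
    sint o w = ∫ y, evalForm (dR chF y * (Form.pull rad map_rad' w).val id y) o := by
  set s : Form (SB dPt F) := Form.pull Prod.snd map_i w with hs
  have hV : (dx s).VC 1 := vc_of_van (vc_dx s)
  have hu : dPt.At (fun _ : ℝ => (0 : Pt)) 0 := pt_at _ _
  have h1 : sint o w = aug (fib volume o ((dx s).val (cylF fun _ : ℝ => (0 : Pt))) 0) := by
    rw [← Form.fi_val hV hu]
    rfl
  have h2 := ContinuousLinearMap.integral_comp_comm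
    (LinearMap.toContinuousLinearMap (aug (E := ℝ)).toLinearMap) (hV.integrable hu o)
  have h3 : aug (fib volume o ((dx s).val (cylF fun _ : ℝ => (0 : Pt))) 0) =
      ∫ y, aug (slice o ((dx s).val (cylF fun _ : ℝ => (0 : Pt)) ((0 : ℝ), y))) := h2.symm
  rw [h1, h3]
  refine integral_congr_ae (Eventually.of_forall fun y => ?_)
  have hv : (D1 dPt F).At (fun z : F => ((0 : Pt), z)) y :=
    ⟨pt_at _ _, Sm.of_contDiff contDiff_id y⟩
  have h4 : aug (slice o ((dx s).val (cylF fun _ : ℝ => (0 : Pt)) ((0 : ℝ), y))) =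
      evalForm ((dx s).val (fun z : F => ((0 : Pt), z)) y) o := by
    have e1 : (fun z : F => ((0 : Pt), z)) =
        (cylF fun _ : ℝ => (0 : Pt)) ∘ fun z : F => ((0 : ℝ), z) := rfl
    have e2 : Sm (fun z : F => ((0 : ℝ), z)) y :=
      Sm.of_contDiff (contDiff_const.prodMk contDiff_id) y
    rw [e1, (dx s).nat (u := cylF fun _ : ℝ => (0 : Pt)) (g := fun z : F => ((0 : ℝ), z))
      (cylF_at hu y) e2, (hasFDerivAt_prodMk_right (𝕜 := ℝ) (0 : ℝ) y).fderiv, evalForm_pull,
      slice_apply, aug_pull]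
    rfl
  change aug (slice o ((dx s).val (cylF fun _ : ℝ => (0 : Pt)) ((0 : ℝ), y))) = _
  rw [h4, Co.dx, Form.mx_val]
  have h5 : (chf dPt F).d.val (fun z : F => ((0 : Pt), z)) y = dR chF y := by
    rw [Form.d_val _ hv, Q.dR_eq (contDiff_chF.differentiable (by simp))]
    refine extd_congr ?_
    filter_upwards [(D1 dPt F).open' hv] with z hz
    rw [chf, Form.fn_val _ _ hz]
    rfl
  rw [h5]
  change _ = evalForm (dR chF y * (Form.pull rad map_rad' w).val id y) o
  by_cases hy : y = 0
  · have h6 : dR (chF : F → ℝ) y = 0 := by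
      rw [hy]
      exact cut_chF.dR_near.self_of_nhds
    rw [h6, zero_mul, zero_mul]
  · have h6 : (PB dPt F).At (fun z : F => ((0 : Pt), z)) y := ⟨hv, by
      filter_upwards [isOpen_ne.mem_nhds hy] with z hz using hz⟩
    rw [Form.pull_val _ _ h6, hs, Form.pull_val _ _ (map_nrm h6), Form.pull_val _ _ (at_id hy)]
    rfl

/-- the sphere integral of an exact form -/
theorem integral_dR_d {n : ℕ} (b : Fin n → F) (z : Form (dP F)) {r : F → ℝ} {K : Set F}
    (hr : Cut r K) : ∫ y, evalForm (dR r y * z.d.val id y) b = 0 := by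
  let w : F → Lam F := fun y => dR r y * z.val id y
  have hw0 : w =ᶠ[𝓝 (0 : F)] fun _ => 0 := by
    filter_upwards [hr.dR_near] with y hy
    simp only [w, hy, zero_mul]
  have hw : ContDiff ℝ ∞ w := contDiff_iff_contDiffAt.2 fun y => by
    rcases eq_or_ne y 0 with rfl | hy
    · exact contDiffAt_const.congr_of_eventuallyEq hw0
    · exact (Q.contDiff_dR hr.smooth).contDiffAt.mul (z.smooth (at_id hy))
  have hwc : HasCompactSupport w := HasCompactSupport.intro hr.compact fun y hy => by
    simp only [w, hr.dR_out hy, zero_mul]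
  have h1 := integral_evalForm_extd (volume : Measure F) b (hw.of_le (by simp)) hwc
  have h2 : ∀ y, evalForm (extd w y) b = -evalForm (dR r y * z.d.val id y) b := fun y => by
    rcases eq_or_ne y 0 with rfl | hy
    · rw [extd_congr hw0, extd_const, hr.dR_near.self_of_nhds, zero_mul, Q.evalForm_zero,
        neg_zero]
    · have h3 : extd w y = extd (dR r) y * z.val id y + inv (dR r y) * extd (z.val id) y :=
        extd_mul ((Q.contDiff_dR hr.smooth).differentiable (by simp) y)
          (z.differentiableAt (at_id hy))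
      rw [h3, Q.extd_dR hr.smooth, zero_mul, zero_add, dR, inv_dx, neg_mul,
        ← Form.d_val z (at_id hy), ← neg_one_smul ℝ, Q.evalForm_smul, neg_one_mul]
  simp only [h2, integral_neg, neg_eq_zero] at h1
  exact h1

theorem integrable_dR {n : ℕ} (b : Fin n → F) (z : Form (dP F)) {r : F → ℝ} {K : Set F}
    (hr : Cut r K) : Integrable (fun y => evalForm (dR r y * z.val id y) b) := by
  have hc : Continuous fun y => dR r y * z.val id y := by
    refine continuous_iff_continuousAt.2 fun y => ?_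
    rcases eq_or_ne y 0 with rfl | hy
    · have h1 : (fun y => dR r y * z.val id y) =ᶠ[𝓝 (0 : F)] fun _ => 0 := by
        filter_upwards [hr.dR_near] with x hx
        rw [hx, zero_mul]
      exact (continuousAt_const (y := (0 : Lam F))).congr h1.symm
    · exact ((Q.contDiff_dR hr.smooth).contDiffAt.mul (z.smooth (at_id hy))).continuousAt
  refine Continuous.integrable_of_hasCompactSupport ((evalL b).continuous.comp hc) ?_
  refine HasCompactSupport.intro hr.compact fun y hy => ?_
  change evalL b (dR r y * z.val id y) = 0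
  rw [hr.dR_out hy, zero_mul, map_zero]

/-- the sphere integral with an arbitrary cutoff -/
theorem sint_eq_cut {w : Form (dP F)} (hw : w.d = 0) {r : F → ℝ} {K : Set F} (hr : Cut r K) :
    sint o w = ∫ y, evalForm (dR r y * w.val id y) o := by
  have h1 := rad_homotopy hw
  set z := Form.K (Form.pull rh map_rh w) with hz
  have h2 : ∀ y, evalForm (dR r y * w.val id y) o =
      evalForm (dR r y * (Form.pull rad map_rad' w).val id y) o +
        evalForm (dR r y * z.d.val id y) o := fun y => by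
    conv_lhs => rw [h1]
    rw [Form.add_val, mul_add, Q.evalForm_add]
  simp only [h2]
  rw [integral_add (integrable_dR o _ hr) (integrable_dR o _ hr), integral_dR_d o z hr,
    add_zero, sint_eq]
  have hd : (Form.pull rad map_rad' w).d = 0 := by rw [← Form.pull_d, hw, Co.pull_zero]
  refine cut_indep volume o (σ := (Form.pull rad map_rad' w).val id) ?_ ?_ cut_chF hr
  · exact fun y hy => ((Form.pull rad map_rad' w).smooth
      (at_id (V := F) hy)).contDiffWithinAt
  · intro y hy
    rw [← Form.d_val _ (at_id hy), hd, Form.zero_val, Q.evalForm_zero]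

/-- **(LH1)** in the language of functions -/
theorem exists_top_prim {j : ℕ} (hm : m = j + 2) {σ ω' : F → Lam F}
    (hσ : ContDiffOn ℝ ∞ σ {x | x ≠ 0}) (hσd : ∀ x ≠ 0, extd σ x = 0)
    (hσk : ∀ x ≠ 0, Q.IsDeg (j + 1) (σ x))
    (hω : ContDiffOn ℝ ∞ ω' {x | x ≠ 0}) (hωd : ∀ x ≠ 0, extd ω' x = 0)
    (hωk : ∀ x ≠ 0, Q.IsDeg (j + 1) (ω' x)) {r : F → ℝ} {K : Set F} (hr : Cut r K)
    (h1 : ∫ y, evalForm (dR r y * ω' y) o = 1) :
    ∃ ζ : F → Lam F, ContDiffOn ℝ ∞ ζ {x | x ≠ 0} ∧ (∀ x ≠ 0, Q.IsDeg j (ζ x)) ∧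
      ∀ x ≠ 0, σ x = (∫ y, evalForm (dR r y * σ y) o) • ω' x + extd ζ x := by
  have hO : IsOpen {x : F | x ≠ 0} := isOpen_ne
  set s : Form (dP F) := ofOn hO σ hσ with hs
  set w : Form (dP F) := ofOn hO ω' hω with hw
  have hsv : ∀ x ≠ 0, s.val id x = σ x := fun x hx => ofOn_val_id hO σ hσ hx
  have hwv : ∀ x ≠ 0, w.val id x = ω' x := fun x hx => ofOn_val_id hO ω' hω hx
  have hsd : s.d = 0 := ext_id hO fun x hx => by
    rw [hs, d_ofOn, ofOn_val_id hO _ _ hx, hσd x hx, Form.zero_val]
  have hwd : w.d = 0 := ext_id hO fun x hx => by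
    rw [hw, d_ofOn, ofOn_val_id hO _ _ hx, hωd x hx, Form.zero_val]
  have hsk : Form.IsDeg (j + 1) s :=
    DegC.ofWF (isDeg_ofOn hO σ hσ fun x hx => DegC.mem_hom_iff_q.2 (hσk x hx))
  have hwk : Form.IsDeg (j + 1) w :=
    DegC.ofWF (isDeg_ofOn hO ω' hω fun x hx => DegC.mem_hom_iff_q.2 (hωk x hx))
  have hint : ∀ {a : Form (dP F)} {f : F → Lam F}, (∀ x ≠ 0, a.val id x = f x) →
      ∀ y, evalForm (dR r y * a.val id y) o = evalForm (dR r y * f y) o := fun {a f} h y => by
    rcases eq_or_ne y 0 with rfl | hy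
    · rw [hr.dR_near.self_of_nhds, zero_mul, zero_mul]
    · rw [h y hy]
  have e1 : sint o w = 1 := by
    rw [sint_eq_cut o hwd hr, ← h1]
    exact integral_congr_ae (Eventually.of_forall (hint hwv))
  have e2 : sint o s = ∫ y, evalForm (dR r y * σ y) o := by
    rw [sint_eq_cut o hsd hr]
    exact integral_congr_ae (Eventually.of_forall (hint hsv))
  obtain ⟨ζ, hζ, h⟩ := punct_top o hm hsd hsk hwd hwk e1
  refine ⟨ζ.val id, contDiffOn_val_id hO ζ, fun x hx => DegC.q_val hζ (at_id hx),
    fun x hx => ?_⟩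
  rw [← hsv x hx, ← hwv x hx, ← d_val_id hO ζ hx, ← e2]
  conv_lhs => rw [h]
  rw [Form.add_val, Form.smul_val]

end Vale.Agent.P231.S2I
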