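import Vale.Agent.P231.Fm.DegSphere
import Vale.Agent.P231.H584.Flow
import Vale.Agent.P231.WF.Conn

/-!
# P231, stage 2: integrality, part (I2), the integral over a sphere as a functional on forms

`Px V` is the punctured space `V ∖ 0`, `ISp μ b r` the functional
`w ↦ ∫ evalForm (dR r x * w x) b` (the integral of `w` over the unit sphere).
-/

set_option linter.unusedSectionVars false
set_option linter.unusedVariables false

open MeasureTheory Set Module Filter Topology Metric
open scoped ContDiff

namespace Vale.Agent.P231.S2I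

open Fm W H584
open Q (dR Cut)

/-- the punctured space -/
abbrev Px (V : Type*) [Zero V] := {x : V // x ≠ 0}

/-- the diffeology of the punctured space -/
def dPx (V : Type*) [NormedAddCommGroup V] [NormedSpace ℝ V] : Dif (Px V) :=
  (Dif.lin V).ind Subtype.val

section Ret

variable {V : Type} [NormedAddCommGroup V] [NormedSpace ℝ V] [Nontrivial V]

open Classical in
/-- the retraction onto the punctured space -/
noncomputable def ret (x : V) : Px V :=
  if h : x ≠ 0 then ⟨x, h⟩ else ⟨(exists_ne (0 : V)).choose, (exists_ne (0 : V)).choose_spec⟩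

theorem ret_val {x : V} (h : x ≠ 0) : (ret x : V) = x := by
  rw [ret, dif_pos h]

theorem ret_of {x : V} (h : x ≠ 0) : ret x = ⟨x, h⟩ := by
  rw [ret, dif_pos h]

@[simp] theorem ret_coe (x : Px V) : ret (x : V) = x := ret_of x.2

theorem at_ret [FiniteDimensional ℝ V] {x : V} (h : x ≠ 0) : (dPx V).At ret x := by
  change Sm (Subtype.val ∘ ret) x
  refine (Sm.of_contDiff contDiff_id x).congr ?_
  filter_upwards [isOpen_compl_singleton.mem_nhds h] with y hy
  exact (ret_val hy).symm

theorem map_val : (dPx V).Map (Dif.lin V) Subtype.val := fun h => h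

/-- plots of the punctured space factor through `ret` -/
theorem eq_ret_comp {E : Type} (u : E → Px V) : u = ret ∘ fun y => (u y : V) := by
  funext y
  exact (ret_coe _).symm

theorem map_of_at [FiniteDimensional ℝ V] {Y : Type*} {D : Dif Y} {f : Px V → Y}
    (hf : ∀ x : V, x ≠ 0 → D.At (f ∘ ret) x) : (dPx V).Map D f := by
  intro E _ _ _ u x hu
  have h1 : f ∘ u = (f ∘ ret) ∘ fun y => (u y : V) := by
    rw [Function.comp_assoc, ← eq_ret_comp]
  rw [h1]
  exact D.comp (hf _ (u x).2) hu

variable [FiniteDimensional ℝ V]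

theorem val_eq_pb (w : Form (dPx V)) {E : Type} [NormedAddCommGroup E] [NormedSpace ℝ E]
    [FiniteDimensional ℝ E] {u : E → Px V} {x : E} (h : (dPx V).At u x) :
    w.val u x = pb (fun y => (u y : V)) (w.val ret) x := by
  have h1 : w.val u x = w.val (ret ∘ fun y => (u y : V)) x := by rw [← eq_ret_comp]
  rw [h1, w.nat (u := ret) (g := fun y => (u y : V)) (at_ret (u x).2) h, pb]

theorem form_ext {v w : Form (dPx V)} (h : ∀ x : V, x ≠ 0 → v.val ret x = w.val ret x) : v = w :=
  Form.ext_val fun E _ _ _ u x hu => by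
    rw [val_eq_pb v hu, val_eq_pb w hu, pb, pb, h _ (u x).2]

theorem form_ext_cyl {v w : Form ((dPx V).prod (Dif.lin ℝ))} (h : ∀ (x : V) (t : ℝ), x ≠ 0 →
    v.val (Form.cyl ret) (x, t) = w.val (Form.cyl ret) (x, t)) : v = w := by
  refine ext_cyl fun E _ _ _ u x t hu => ?_
  have h1 : (Form.cyl u : E × ℝ → Px V × ℝ) = Form.cyl ret ∘
      fun p : E × ℝ => ((u p.1 : V), p.2) := by
    funext p
    exact Prod.ext (ret_coe _).symm rfl
  have h2 : Sm (fun p : E × ℝ => ((u p.1 : V), p.2)) (x, t) := by
    refine Sm.prodMk ?_ (Sm.of_contDiff contDiff_snd _)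
    exact Sm.comp (f := fun y => (u y : V)) (g := Prod.fst) (x := ((x, t) : E × ℝ)) hu
      (Sm.of_contDiff contDiff_fst _)
  have h3 : ((dPx V).prod (Dif.lin ℝ)).At (Form.cyl ret) ((u x : V), t) :=
    Form.cyl_at (at_ret (u x).2) t
  rw [h1, v.nat (u := Form.cyl ret) (g := fun p : E × ℝ => ((u p.1 : V), p.2)) h3 h2,
    w.nat (u := Form.cyl ret) (g := fun p : E × ℝ => ((u p.1 : V), p.2)) h3 h2, h _ _ (u x).2]

theorem contDiffOn_val (w : Form (dPx V)) : ContDiffOn ℝ ∞ (w.val ret) {0}ᶜ := fun _ hx =>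
  (w.smooth (at_ret hx)).contDiffWithinAt

theorem smooth_val (w : Form (dPx V)) {x : V} (hx : x ≠ 0) : ContDiffAt ℝ ∞ (w.val ret) x :=
  w.smooth (at_ret hx)

end Ret

section Fun

variable {V : Type} [NormedAddCommGroup V] [NormedSpace ℝ V] [Nontrivial V]
  [FiniteDimensional ℝ V] [MeasurableSpace V] [BorelSpace V] {n : ℕ} {r : V → ℝ} {K : Set V}

theorem contDiff_cut_val (hr : Cut r K) (w : Form (dPx V)) :
    ContDiff ℝ ∞ (fun x => dR r x * w.val ret x) := by
  refine contDiff_iff_contDiffAt.2 fun y => ?_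
  rcases eq_or_ne y 0 with rfl | hy
  · have h1 : (fun y => dR r y * w.val ret y) =ᶠ[𝓝 (0 : V)] fun _ => 0 := by
      filter_upwards [hr.dR_near] with z hz
      rw [hz, zero_mul]
    exact contDiffAt_const.congr_of_eventuallyEq h1
  · exact (Q.contDiff_dR hr.smooth).contDiffAt.mul (smooth_val w hy)

theorem compact_cut_val (hr : Cut r K) (w : Form (dPx V)) :
    HasCompactSupport (fun x => dR r x * w.val ret x) :=
  HasCompactSupport.intro hr.compact fun y hy => by rw [hr.dR_out hy, zero_mul]

theorem integrable_cut (μ : Measure V) [μ.IsAddHaarMeasure] (b : Fin n → V) (hr : Cut r K)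
    (w : Form (dPx V)) : Integrable (fun x => evalForm (dR r x * w.val ret x) b) μ := by
  refine Continuous.integrable_of_hasCompactSupport
    ((evalL b).continuous.comp (contDiff_cut_val hr w).continuous) ?_
  exact (compact_cut_val hr w).comp_left (g := fun w => evalForm w b) (Q.evalForm_zero b)

/-- the integral over the sphere -/
noncomputable def ISp (μ : Measure V) [μ.IsAddHaarMeasure] (b : Fin n → V) (hr : Cut r K) :
    Form (dPx V) →ₗ[ℝ] ℝ where
  toFun w := ∫ x, evalForm (dR r x * w.val ret x) b ∂μ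
  map_add' v w := by
    rw [← integral_add (integrable_cut μ b hr v) (integrable_cut μ b hr w)]
    refine integral_congr_ae (Eventually.of_forall fun x => ?_)
    change evalForm (dR r x * (v + w).val ret x) b = _
    rw [Form.add_val, mul_add, Q.evalForm_add]
  map_smul' c w := by
    rw [RingHom.id_apply, smul_eq_mul, ← integral_const_mul]
    refine integral_congr_ae (Eventually.of_forall fun x => ?_)
    change evalForm (dR r x * (c • w).val ret x) b = _
    rw [Form.smul_val, mul_smul_comm, Q.evalForm_smul]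

variable (μ : Measure V) [μ.IsAddHaarMeasure]

theorem ISp_apply (b : Fin n → V) (hr : Cut r K) (w : Form (dPx V)) :
    ISp μ b hr w = ∫ x, evalForm (dR r x * w.val ret x) b ∂μ := rfl

/-- pointwise vanishing -/
theorem ISp_eq_zero (b : Fin n → V) (hr : Cut r K) (w : Form (dPx V))
    (h : ∀ x ≠ 0, evalForm (dR r x * w.val ret x) b = 0) : ISp μ b hr w = 0 := by
  rw [ISp_apply]
  have : ∀ x, evalForm (dR r x * w.val ret x) b = 0 := fun x => by
    rcases eq_or_ne x 0 with rfl | hx
    · rw [hr.dR_near.self_of_nhds, zero_mul, Q.evalForm_zero]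
    · exact h x hx
  simp [this]

theorem ISp_congr (b : Fin n → V) (hr : Cut r K) {v w : Form (dPx V)}
    (h : ∀ x ≠ 0, evalForm (dR r x * v.val ret x) b = evalForm (dR r x * w.val ret x) b) :
    ISp μ b hr v = ISp μ b hr w := by
  rw [← sub_eq_zero, ← map_sub]
  refine ISp_eq_zero μ b hr _ fun x hx => ?_
  rw [Form.sub_val, mul_sub, Q.evalForm_sub, h x hx, sub_self]

/-- **Stokes** -/
theorem ISp_d (b : Fin n → V) (hr : Cut r K) (w : Form (dPx V)) : ISp μ b hr w.d = 0 := by
  have h1 := integral_evalForm_extd μ b ((contDiff_cut_val hr w).of_le (by simp))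
    (compact_cut_val hr w)
  rw [ISp_apply]
  have h2 : ∀ x, evalForm (dR r x * w.d.val ret x) b =
      -evalForm (extd (fun x => dR r x * w.val ret x) x) b := fun x => by
    rcases eq_or_ne x 0 with rfl | hx
    · have h3 : (fun y => dR r y * w.val ret y) =ᶠ[𝓝 (0 : V)] fun _ => 0 := by
        filter_upwards [hr.dR_near] with z hz
        rw [hz, zero_mul]
      rw [hr.dR_near.self_of_nhds, zero_mul, extd_congr h3, extd_const, Q.evalForm_zero, neg_zero]
    · have h4 : extd (fun x => dR r x * w.val ret x) x = extd (dR r) x * w.val ret x +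
          inv (dR r x) * extd (w.val ret) x :=
        extd_mul ((Q.contDiff_dR hr.smooth).contDiffAt.differentiableAt (by simp))
          ((smooth_val w hx).differentiableAt (by simp))
      have h5 : inv (dR r x) = -dR r x := inv_dx _
      rw [h4, Q.extd_dR hr.smooth, zero_mul, zero_add, h5, neg_mul, Form.d_val _ (at_ret hx)]
      have h6 : evalForm (-(dR r x * extd (w.val ret) x)) b =
          -evalForm (dR r x * extd (w.val ret) x) b := by
        rw [← neg_one_smul ℝ, Q.evalForm_smul]
        ring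
      rw [h6, neg_neg]
  simp only [h2]
  rw [integral_neg, h1, neg_zero]

/-- forms annihilated by a vector tangent to the spheres -/
theorem eval_cut_eq_zero (b : Basis (Fin n) ℝ V) {x : V} {w : Lam V} {v : V} (hv : v ≠ 0)
    (hrv : fderiv ℝ r x v = 0) (hw : iprod v w = 0) : evalForm (dR r x * w) b = 0 := by
  refine Q.evalForm_eq_zero_of_iprod b hv ?_
  rw [dR, iprod_dx_mul, hrv, hw]
  simp

/-- a linear map to a space of smaller dimension has a kernel vector also killed by `l` -/
theorem exists_ker {F : Type*} [NormedAddCommGroup F] [NormedSpace ℝ F] [FiniteDimensional ℝ F]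
    (h : finrank ℝ F + 2 ≤ finrank ℝ V) (g : V →L[ℝ] F) (l : V →L[ℝ] ℝ) :
    ∃ v : V, v ≠ 0 ∧ g v = 0 ∧ l v = 0 := by
  have h1 : finrank ℝ (F × ℝ) < finrank ℝ V := by
    rw [finrank_prod, finrank_self]
    omega
  obtain ⟨v, hv, hv0⟩ := Submodule.exists_mem_ne_zero_of_ne_bot
    (LinearMap.ker_ne_bot_of_finrank_lt (f := (g.prod l : V →L[ℝ] F × ℝ).toLinearMap) h1)
  have h2 : (g.prod l) v = 0 := hv
  have h3 : (g v, l v) = 0 := h2
  rw [Prod.mk_eq_zero] at h3
  exact ⟨v, hv0, h3.1, h3.2⟩

/-- forms pulled back from a space of small dimension -/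
theorem ISp_pull {S : Type*} {dS : Dif S} {m : ℕ} (hS : WF.DimLE dS m) (hm : m + 2 ≤ finrank ℝ V)
    (b : Basis (Fin n) ℝ V) (hr : Cut r K) {q : Px V → S} (hq : (dPx V).Map dS q) (w : Form dS) :
    ISp μ b hr (Form.pull q hq w) = 0 := by
  refine ISp_eq_zero μ b hr _ fun x hx => ?_
  obtain ⟨F, _, _, _, c, g, hF, hg, hc, hu⟩ := hS (hq (at_ret hx))
  rw [Form.pull_val hq _ (at_ret hx), w.congr (hq (at_ret hx)) hu, w.nat hc hg]
  obtain ⟨v, hv0, hgv, hrv⟩ := exists_ker (F := F) (by omega) (fderiv ℝ g x) (fderiv ℝ r x)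
  refine eval_cut_eq_zero b hv0 hrv ?_
  rw [pull_iprod, hgv, Q.iprod_zero_left, map_zero]

/-- pull back by a linear isomorphism of determinant one which preserves the cutoff -/
theorem ISp_linear (b : Basis (Fin n) ℝ V) (hr : Cut r K) (S : V ≃L[ℝ] V)
    (hdet : LinearMap.det (S : V →L[ℝ] V).toLinearMap = 1) (hrS : ∀ x, r (S x) = r x)
    {σ : Px V → Px V} (hσ : (dPx V).Map (dPx V) σ) (hσS : ∀ x, (σ x : V) = S x)
    (w : Form (dPx V)) : ISp μ b hr (Form.pull σ hσ w) = ISp μ b hr w := by
  rw [ISp_apply, ISp_apply]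
  have h1 : ∀ x, evalForm (dR r x * (Form.pull σ hσ w).val ret x) b =
      evalForm (dR r (S x) * w.val ret (S x)) b := fun x => by
    rcases eq_or_ne x 0 with rfl | hx
    · rw [map_zero, hr.dR_near.self_of_nhds, zero_mul, zero_mul]
    · have hSx : S x ≠ 0 := fun h => hx (by rwa [S.map_eq_zero_iff] at h)
      have e1 : (Form.pull σ hσ w).val ret x = pull (S : V →L[ℝ] V) (w.val ret (S x)) := by
        rw [Form.pull_val hσ _ (at_ret hx)]
        have e2 : σ ∘ ret =ᶠ[𝓝 x] ret ∘ S := by
          filter_upwards [isOpen_compl_singleton.mem_nhds hx] with y hy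
          have hSy : S y ≠ 0 := fun h => hy (by rwa [S.map_eq_zero_iff] at h)
          refine Subtype.ext ?_
          change (σ (ret y) : V) = ret (S y)
          rw [hσS, ret_val hy, ret_val hSy]
        rw [w.congr (hσ (at_ret hx)) e2, w.nat (at_ret hSx)
          (Sm.of_contDiff S.contDiff x)]
        congr 2
        exact (S : V →L[ℝ] V).fderiv
      have e3 : dR r x = pull (S : V →L[ℝ] V) (dR r (S x)) := by
        rw [dR, dR, pull_dx]
        congr 1
        have e4 : r = r ∘ S := funext fun y => (hrS y).symm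
        conv_lhs => rw [e4]
        rw [fderiv_comp x (hr.smooth.differentiable (by simp) _) S.differentiableAt]
        congr 1
        exact (S : V →L[ℝ] V).fderiv
      rw [e1, e3, ← map_mul, evalForm_pull_det, hdet, one_mul]
  simp only [h1]
  have h2 := (μ.addHaar_preimage_continuousLinearEquiv)
  have h3 := MeasureTheory.Measure.map_linearMap_addHaar_eq_smul_addHaar μ
    (f := (S : V →L[ℝ] V).toLinearMap) (by rw [hdet]; exact one_ne_zero)
  have h4 : MeasurePreserving (S : V → V) μ μ := by
    refine ⟨S.continuous.measurable, ?_⟩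
    have h5 : (((S : V →L[ℝ] V).toLinearMap : V →ₗ[ℝ] V) : V → V) = S := rfl
    rw [← h5, h3, hdet]
    simp
  exact h4.integral_comp S.toHomeomorph.measurableEmbedding
    (fun x => evalForm (dR r x * w.val ret x) b)

/-- basic forms of a flow whose orbits are tangent to the spheres -/
theorem ISp_basic (b : Basis (Fin n) ℝ V) (hr : Cut r K) {ψ : Px V × ℝ → Px V}
    (hψ : ((dPx V).prod (Dif.lin ℝ)).Map (dPx V) ψ) {G : V × ℝ → V} (hG : ContDiff ℝ ∞ G)
    (hψG : ∀ p : Px V × ℝ, (ψ p : V) = G (p.1, p.2)) (hG0 : ∀ x, G (x, 0) = x)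
    (hrG : ∀ x t, r (G (x, t)) = r x) (hξ : ∀ x ≠ 0, fderiv ℝ G (x, 0) ((0, 1) : V × ℝ) ≠ 0)
    {w : Form (dPx V)} (hw : Basic ψ hψ w) : ISp μ b hr w = 0 := by
  refine ISp_eq_zero μ b hr _ fun x hx => ?_
  refine eval_cut_eq_zero b (hξ x hx) ?_ ?_
  · -- the cutoff is constant along the orbits
    have h1 : HasFDerivAt G (fderiv ℝ G (x, 0)) (x, 0) :=
      (hG.differentiable (by simp) _).hasFDerivAt
    have h2 : HasDerivAt (fun t : ℝ => ((x, t) : V × ℝ)) ((0, 1) : V × ℝ) 0 :=
      (hasDerivAt_const (0 : ℝ) x).prodMk (hasDerivAt_id (0 : ℝ))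
    have h3 : HasDerivAt (fun t : ℝ => G (x, t)) (fderiv ℝ G (x, 0) ((0, 1) : V × ℝ)) 0 :=
      h1.comp_hasDerivAt (0 : ℝ) h2
    have h4 : HasFDerivAt r (fderiv ℝ r x) (G (x, 0)) := by
      rw [hG0]
      exact (hr.smooth.differentiable (by simp) _).hasFDerivAt
    have h5 := h4.comp_hasDerivAt (0 : ℝ) h3
    have h6 : (r ∘ fun t : ℝ => G (x, t)) = fun _ => r x := funext fun t => hrG x t
    rw [h6] at h5
    exact h5.unique (hasDerivAt_const (0 : ℝ) (r x))
  · have hcyl := Form.cyl_at (D := dPx V) (at_ret hx) 0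
    have hw' : Form.pull ψ hψ w = pr w := hw
    have h1 : (Form.pull ψ hψ w).val (Form.cyl ret) (x, 0) =
        (pr w).val (Form.cyl ret) (x, 0) := by rw [hw']
    have hGx : G (x, 0) ≠ 0 := by rwa [hG0]
    have e1 : (Form.pull ψ hψ w).val (Form.cyl ret) (x, 0) =
        pull (fderiv ℝ G (x, 0)) (w.val ret (G (x, 0))) := by
      rw [Form.pull_val hψ _ hcyl]
      have e2 : ψ ∘ Form.cyl ret =ᶠ[𝓝 (x, 0)] ret ∘ G := by
        have h7 : Tendsto (Prod.fst : V × ℝ → V) (𝓝 (x, 0)) (𝓝 x) := continuous_fst.continuousAt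
        filter_upwards [h7.eventually (isOpen_compl_singleton.mem_nhds hx),
          hG.continuous.continuousAt.eventually (isOpen_compl_singleton.mem_nhds hGx)] with p hp hp'
        refine Subtype.ext ?_
        change (ψ (ret p.1, p.2) : V) = ret (G p)
        rw [hψG, ret_val hp, ret_val hp']
      rw [w.congr (hψ hcyl) e2, w.nat (at_ret hGx) (Sm.of_contDiff hG _)]
    have e3 : (pr w).val (Form.cyl ret) (x, 0) =
        pull (ContinuousLinearMap.fst ℝ V ℝ) (w.val ret x) := Form.fst_val w (at_ret hx) 0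
    rw [e1, e3, hG0] at h1
    have h8 := congrArg (fun v => pull (ContinuousLinearMap.inl ℝ V ℝ) (iprod ((0, 1) : V × ℝ) v))
      h1
    have e4 : (ContinuousLinearMap.fst ℝ V ℝ) ((0, 1) : V × ℝ) = 0 := rfl
    rw [pull_iprod, pull_iprod, e4, Q.iprod_zero_left, map_zero, map_zero, ← pull_comp_apply] at h8
    have e5 : (fderiv ℝ G (x, 0)).comp (ContinuousLinearMap.inl ℝ V ℝ) =
        ContinuousLinearMap.id ℝ V := by
      have h9 : HasFDerivAt (fun y : V => G (y, 0))
          ((fderiv ℝ G (x, 0)).comp (ContinuousLinearMap.inl ℝ V ℝ)) x :=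
        ((hG.differentiable (by simp) _).hasFDerivAt).comp x (hasFDerivAt_prodMk_left x (0 : ℝ))
      have h10 : (fun y : V => G (y, 0)) = id := funext hG0
      rw [h10] at h9
      exact h9.unique (hasFDerivAt_id x)
    rw [e5, pull_id] at h8
    exact h8

end Fun

/-- the punctured space is smoothly connected -/
theorem sConn_Px {V : Type} [NormedAddCommGroup V] [NormedSpace ℝ V] [FiniteDimensional ℝ V]
    (h2 : 2 ≤ finrank ℝ V) : WF.SConn (dPx V) := by
  intro α f h v w
  -- linearly independent points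
  have key : ∀ v w : Px V, LinearIndependent ℝ ![(v : V), w] → f v = f w := by
    intro v w hvw
    have hne : ∀ t : ℝ, (v : V) + t • ((w : V) - v) ≠ 0 := by
      intro t ht
      have h3 := LinearIndependent.pair_iff.1 hvw (1 - t) t (by
        refine Eq.trans ?_ ht
        rw [sub_smul, one_smul, smul_sub]; abel)
      linarith [h3.1, h3.2]
    have h4 := h (fun t => (⟨(v : V) + t • ((w : V) - v), hne t⟩ : Px V)) (fun t => by
      change Sm (fun t : ℝ => (v : V) + t • ((w : V) - v)) t
      exact Sm.of_contDiff (by fun_prop) t) 0 1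
    have e0 : (⟨(v : V) + (0 : ℝ) • ((w : V) - v), hne 0⟩ : Px V) = v := by
      refine Subtype.ext ?_
      simp
    have e1 : (⟨(v : V) + (1 : ℝ) • ((w : V) - v), hne 1⟩ : Px V) = w := by
      refine Subtype.ext ?_
      simp
    simp only [e0, e1] at h4
    exact h4
  by_cases hvw : LinearIndependent ℝ ![(v : V), w]
  · exact key v w hvw
  · -- a third vector
    obtain ⟨z, hz⟩ : ∃ z : V, z ∉ Submodule.span ℝ {(v : V)} := by
      by_contra hcon
      push Not at hcon
      have h5 : Submodule.span ℝ {(v : V)} = ⊤ := Submodule.eq_top_iff'.2 hcon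
      have h6 := finrank_span_singleton (K := ℝ) v.2
      rw [h5, finrank_top] at h6
      omega
    have hz0 : z ≠ 0 := fun h0 => hz (by rw [h0]; exact Submodule.zero_mem _)
    have hvz : LinearIndependent ℝ ![(v : V), z] := by
      rw [LinearIndependent.pair_iff' v.2]
      intro a ha
      exact hz (by rw [← ha]; exact Submodule.smul_mem _ _ (Submodule.mem_span_singleton_self _))
    -- `w` is a multiple of `v`
    have hw : ∃ c : ℝ, c • (v : V) = w := by
      by_contra hcon
      push Not at hcon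
      exact hvw ((LinearIndependent.pair_iff' v.2).2 hcon)
    obtain ⟨c, hc⟩ := hw
    have hc0 : c ≠ 0 := fun h0 => w.2 (by rw [← hc, h0, zero_smul])
    have hwz : LinearIndependent ℝ ![(w : V), z] := by
      rw [LinearIndependent.pair_iff' w.2]
      intro a ha
      refine hz ?_
      rw [← ha, ← hc]
      exact Submodule.smul_mem _ _ (Submodule.smul_mem _ _ (Submodule.mem_span_singleton_self _))
    exact (key v ⟨z, hz0⟩ hvz).trans (key w ⟨z, hz0⟩ hwz).symm

end Vale.Agent.P231.S2I
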