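import Vale.Agent.P231.S2I.LH1

/-!
# P231, stage 2: closed forms of low degree on the punctured space are exact
-/

set_option linter.unusedSectionVars false
set_option linter.unusedVariables false

open MeasureTheory Set Module Filter Topology Metric
open scoped ContDiff

namespace Vale.Agent.P231.S2I

open Fm W H584 Vale.Agent.P231.WA Vale.Agent.P231.Co
open Q (dR Cut)
open Vale.Agent.P231.Fm (Sm Dif Form Lam)

variable {F : Type} [NormedAddCommGroup F] [InnerProductSpace ℝ F] [FiniteDimensional ℝ F]
  [MeasurableSpace F] [BorelSpace F] {m : ℕ}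

/-- **closed forms of degree between one and `m - 2` on the punctured space are exact** -/
theorem punct_low (o : OrthonormalBasis (Fin m) ℝ F) {σ : Form (dP F)} {j : ℕ} (hm : j + 2 < m) (hσ : σ.d = 0)
    (hσk : Form.IsDeg (j + 1) σ) : ∃ ζ : Form (dP F), Form.IsDeg j ζ ∧ σ = ζ.d := by
  have hs : (Form.pull Prod.snd map_i σ : Form (SB dPt F)).d = 0 := by
    rw [← Form.pull_d, hσ, Co.pull_zero]
  have hsk : Form.IsDeg (j + 1) (Form.pull Prod.snd map_i σ : Form (SB dPt F)) :=
    hσk.pull Prod.snd map_i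
  obtain ⟨a, κ, _, ha, e, hκ, _⟩ := sph_low o hsk hm hs
  rw [pt_pos ha, pS, Co.pull_zero, zero_add] at e
  have hr : Form.pull (fun y => ((0 : Pt), rad y)) map_r
      (Form.pull Prod.snd map_i σ : Form (SB dPt F)) = Form.pull rad map_rad' σ :=
    pull_pull map_r map_i map_rad' (fun _ => rfl) σ
  have e2 := congrArg (Form.pull (fun y : F => ((0 : Pt), rad y)) map_r) e
  rw [hr, Form.pull_d] at e2
  have e3 := rad_homotopy hσ
  rw [e2] at e3
  exact ⟨Form.pull (fun y => ((0 : Pt), rad y)) map_r κ + Form.K (Form.pull rh map_rh σ),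
    ((hκ j rfl).pull _ map_r).add (hσk.pull rh map_rh).K, by rw [Form.d_add]; exact e3⟩

end Vale.Agent.P231.S2I
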