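import Vale.Agent.P231.S2I.Nint
import Vale.Agent.P231.S2I.LH2
import Vale.Agent.P231.S2I.Fun3

/-!
# P231, stage 2: the two descriptions of the punctured space
-/

set_option linter.unusedSectionVars false
set_option linter.unusedVariables false

open MeasureTheory Set Module Filter Topology Metric
open scoped ContDiff

namespace Vale.Agent.P231.S2I

open Fm W H584
open Q (dR Cut)

variable {V : Type} [NormedAddCommGroup V] [InnerProductSpace ℝ V] [FiniteDimensional ℝ V]
  [MeasurableSpace V] [BorelSpace V] [Nontrivial V]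

theorem map_ret : (dP V).Map (dPx V) ret := fun {E} _ _ _ {u x} h =>
  (dPx V).comp (u := ret) (g := u) (at_ret h.2.self_of_nhds) h.1

theorem map_coe : (dPx V).Map (dP V) Subtype.val := fun {E} _ _ _ {u x} h =>
  ⟨h, Eventually.of_forall fun y => (u y).2⟩

theorem pull_ret_val (w : Form (dPx V)) {x : V} (hx : x ≠ 0) :
    (Form.pull ret map_ret w).val id x = w.val ret x := Form.pull_val _ _ (at_id hx)

theorem pull_coe_ret (w : Form (dPx V)) :
    Form.pull Subtype.val map_coe (Form.pull ret map_ret w) = w :=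
  (pull_pull (k := fun x : Px V => x) map_coe map_ret (fun h => h) (fun x => ret_coe x) w).trans
    (Form.pull_id _ w)

/-- closed forms of low degree on the punctured space are exact -/
theorem px_low {m : ℕ} (o : OrthonormalBasis (Fin m) ℝ V) {σ : Form (dPx V)} {j : ℕ}
    (hm : j + 2 < m) (hσ : σ.d = 0) (hσk : Form.IsDeg (j + 1) σ) :
    ∃ ζ : Form (dPx V), Form.IsDeg j ζ ∧ σ = ζ.d := by
  obtain ⟨ζ, hζ, e⟩ := punct_low o hm (σ := Form.pull ret map_ret σ)
    (by rw [← Form.pull_d, hσ, pull_zero']) (hσk.pull ret map_ret)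
  refine ⟨Form.pull Subtype.val map_coe ζ, hζ.pull _ map_coe, ?_⟩
  rw [← pull_coe_ret σ, e, Form.pull_d]

section N

variable {M S : Type*} {dM : Dif M} {dS : Dif S}

/-- the map `foot ∘ C` on `V × ℝ` -/
noncomputable def rG (G : Px V × ℝ → M) (p : V × ℝ) : M := G (ret p.1, p.2)

theorem map_rG {G : Px V × ℝ → M} (hG : ((dPx V).prod (Dif.lin ℝ)).Map dM G) :
    ((dP V).prod (Dif.lin ℝ)).Map dM (rG G) := fun h => hG ⟨map_ret h.1, h.2⟩

theorem K_rG {G : Px V × ℝ → M} (hG : ((dPx V).prod (Dif.lin ℝ)).Map dM G) (F : Form dM) :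
    Form.K (Form.pull (rG G) (map_rG hG) F) =
      Form.pull ret map_ret (Form.K (Form.pull G hG F)) := by
  rw [← K_nat map_ret]
  congr 1
  exact (pull_pull (map_cyl map_ret) hG (map_rG hG) (fun _ => rfl) F).symm

/-- **the number `N`** on `Px V`: the concatenation of `G : Px V × ℝ → M` (for instance
`foot ∘ C`) and the push off `g` along `j` -/
theorem integral_Hh_px {n : ℕ} (b : Basis (Fin n) ℝ V) {G : Px V × ℝ → M}
    (hG : ((dPx V).prod (Dif.lin ℝ)).Map dM G) {j : Px V → S} (hj : (dPx V).Map dS j)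
    {g : S × ℝ → M} (hg : (dS.prod (Dif.lin ℝ)).Map dM g) {p₀ : M}
    (hh : ∀ (x y : Px V) (c : ℝ), 0 < c → (y : V) = c • (x : V) → ∀ t, G (y, t) = G (x, t))
    (hhj : ∀ (x y : Px V) (c : ℝ), 0 < c → (y : V) = c • (x : V) → j y = j x)
    (h0 : ∀ x, G (x, 0) = p₀) (h12 : ∀ x, G (x, 1) = g (j x, 0)) {F : Form dM} (hF : F.d = 0)
    {ρ : V → ℝ} {K : Set V} (hρ : Cut ρ K) (hρ2 : ∀ x, ‖x‖ ≤ 2 → ρ x = 0) :
    ∃ (Hm : V → M) (hH : (Dif.lin V).Map dM Hm),
      (∀ x : V, Hm x = p₀ ∨ (∃ t, Hm x = G (ret x, t)) ∨ ∃ t, Hm x = g (j (ret x), t)) ∧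
      (∀ x : V, 5 ≤ 3 * ‖x‖ → Hm x = g (j (ret x), 1)) ∧
      ∫ x, evalForm ((Form.pull Hm hH F).val id x) b =
        ∫ x, evalForm (dR ρ x * (Form.K (Form.pull G hG F) +
          Form.pull j hj (Form.K (Form.pull g hg F))).val ret x) b := by
  have hrr : ∀ {x : V} (hx : x ≠ 0) {c : ℝ} (hc : 0 < c),
      ((ret (c • x) : Px V) : V) = c • ((ret x : Px V) : V) := fun {x} hx {c} hc => by
    rw [ret_val (smul_ne_zero hc.ne' hx), ret_val hx]
  have hj' : (dP V).Map dS (fun x => j (ret x)) := fun h => hj (map_ret h)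
  have hG₂ : ((dP V).prod (Dif.lin ℝ)).Map dM (fun p => g (j (ret p.1), p.2)) :=
    Dif.Map.comp (f := fun p : V × ℝ => (j (ret p.1), p.2)) (g := g) hg (map_cyl hj')
  have h0' : ∀ x : V, x ≠ 0 → rG G (x, 0) = p₀ := fun x _ => h0 _
  have h12' : ∀ x : V, x ≠ 0 → rG G (x, 1) = g (j (ret x), 0) := fun x _ => h12 _
  refine ⟨Hh (rG G) (fun p => g (j (ret p.1), p.2)) p₀, map_Hh h0' h12' (map_rG hG) hG₂, ?_, ?_,
    ?_⟩
  · intro x
    rcases Hh_mem (G₁ := rG G) (G₂ := fun p => g (j (ret p.1), p.2)) (p₀ := p₀) (x := x) with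
      h | ⟨_, _, h⟩ | ⟨_, _, h⟩
    · exact Or.inl h
    · exact Or.inr (Or.inl ⟨_, h⟩)
    · exact Or.inr (Or.inr ⟨_, h⟩)
  · intro x hx
    exact Hh_far hx
  · have h := integral_Hh_j (volume : Measure V) b (map_rG hG) hj' hg
      (fun x hx c hc t => hh _ _ c hc (hrr hx hc) t) (fun x hx c hc => hhj _ _ c hc (hrr hx hc))
      h0' h12' hF hρ hρ2
    rw [h]
    refine integral_congr_ae (Eventually.of_forall fun x => ?_)
    change evalForm (dR ρ x * _) b = evalForm (dR ρ x * _) b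
    rcases eq_or_ne x 0 with rfl | hx
    · rw [hρ.dR_near.self_of_nhds, zero_mul, zero_mul]
    · have e1 : Form.pull (fun x => j (ret x)) hj' (Form.K (Form.pull g hg F)) =
          Form.pull ret map_ret (Form.pull j hj (Form.K (Form.pull g hg F))) :=
        (pull_pull map_ret hj hj' (fun _ => rfl) _).symm
      rw [K_rG hG F, e1, ← pull_add', pull_ret_val _ hx]

end N

end Vale.Agent.P231.S2I
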