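import Vale.Agent.P231.S2I.Kf
import Vale.Agent.P231.S2II.ValF
import Vale.Agent.P231.Co.AngC

/-!
# P231, stage 2: integrality, change of the base point of the closed form
-/

set_option maxSynthPendingDepth 3
set_option linter.unusedSectionVars false
set_option linter.unusedVariables false

open Bundle Manifold Set Filter Module MeasureTheory
open scoped ContDiff Manifold Topology Real

namespace Vale.Agent.P231.S2I

noncomputable section

open Vale.Agent.P234 Vale.Agent.P231 Vale.Agent.P231.Fm Vale.Agent.P231.W Vale.Agent.P231.WR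
  Vale.Agent.P231.H584

variable {E : Type*} [NormedAddCommGroup E] [NormedSpace ℝ E]
  {M : Type*} [MetricSpace M] [ChartedSpace E M]
  [RiemannianBundle (fun x : M => TangentSpace 𝓘(ℝ, E) x)]
  {e : ∀ x : M, TangentSpace 𝓘(ℝ, E) x → M}
  [FiniteDimensional ℝ E] [IsManifold 𝓘(ℝ, E) ∞ M]
  [IsContMDiffRiemannianBundle 𝓘(ℝ, E) ∞ E (fun x : M => TangentSpace 𝓘(ℝ, E) x)]
  [CompactSpace M] [ConnectedSpace M] [IsRiemannianManifold 𝓘(ℝ, E) M]

variable (F : Facts e) {D : ℝ} (hD : 0 < D) (hB : InjGE e D) (hdiam : ∀ p q : M, dist p q ≤ D)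

theorem B0_lin (s : ℝ) (G G' : Form (dM E M)) :
    B0 F D (s • G + G') = s • B0 F D G + B0 F D G' := by
  rw [B0, pull_add', pull_smul', KT_add, KT_smul]
  rfl

theorem b0P_lin (s : ℝ) (G G' : Form (dM E M)) :
    L3.b0P F hD hB hdiam (s • G + G') =
      s • L3.b0P F hD hB hdiam G + L3.b0P F hD hB hdiam G' := by
  rw [L3.b0P, B0_lin, pull_add', pull_smul', J_add (hΦ := (isFlow_R F hD hB hdiam).map),
    J_smul (hΦ := (isFlow_R F hD hB hdiam).map)]
  rfl

theorem B0_exact (Γ : Form (dM E M)) :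
    B0 F D Γ.d = Form.pull (bar e D) (map_bar F D) Γ - Form.pull foot map_foot Γ -
      (B0 F D Γ).d := by
  have h := WA.KT_homotopy D (Form.pull (gm e) (map_gm F) Γ)
  rw [WA.at_pull (map_gm F) D (map_bar F D) (fun _ => rfl),
    WA.at_pull (map_gm F) 0 map_foot (fun v => gm_zero F v), ← Form.pull_d] at h
  rw [B0, B0, h]
  abel

theorem b0P_exact (Γ : Form (dM E M)) :
    L3.b0P F hD hB hdiam Γ.d = (L3.b0P F hD hB hdiam Γ).d := by
  have h1 : (dPr e D).Map (dM E M) (fun b => bar e D b.v) := fun h => map_bar F D (map_v h)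
  have h2 : (dPr e D).Map (dM E M) (fun b => foot b.v) := fun h => map_foot (map_v h)
  have e1 : Form.pull Pr.v map_v (Form.pull (bar e D) (map_bar F D) Γ) =
      Form.pull (fun b : Pr e D => bar e D b.v) h1 Γ :=
    H584.pull_pull map_v (map_bar F D) h1 (fun _ => rfl) Γ
  have e2 : Form.pull Pr.v map_v (Form.pull foot map_foot Γ) =
      Form.pull (fun b : Pr e D => foot b.v) h2 Γ :=
    H584.pull_pull map_v map_foot h2 (fun _ => rfl) Γ
  have b1 : Basic (R F hD hB hdiam) (isFlow_R F hD hB hdiam).map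
      (Form.pull (fun b : Pr e D => bar e D b.v) h1 Γ) :=
    basic_pull h1 (fun b t => show bar e D (R F hD hB hdiam (b, t)).v = bar e D b.v from
      bar_rv F hD hB hdiam b t) Γ
  have b2 : Basic (R F hD hB hdiam) (isFlow_R F hD hB hdiam).map
      (Form.pull (fun b : Pr e D => foot b.v) h2 Γ) :=
    basic_pull h2 (fun b t => show foot (R F hD hB hdiam (b, t)).v = foot b.v from rfl) Γ
  rw [L3.b0P, B0_exact, pull_sub', pull_sub', e1, e2, J_sub (hΦ := (isFlow_R F hD hB hdiam).map),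
    J_sub (hΦ := (isFlow_R F hD hB hdiam).map), J_of_basic _ b1, J_of_basic _ b2, sub_self, zero_sub, Form.pull_d, J_d (isFlow_R F hD hB hdiam), neg_neg]
  rfl

/-- the sphere integral is linear and kills exact forms -/
theorem kf_lin (s : ℝ) (b w : Form (dPr e D)) (p : S2I3.Fr e D 3) :
    S2II.kf F hD hB hdiam (s • b + w.d) (toF p) = s * S2II.kf F hD hB hdiam b (toF p) := by
  have h : ∀ b : Form (dPr e D), S2II.kf F hD hB hdiam b (toF p) =
      ISp volume (EuclideanSpace.basisFun (Fin 3) ℝ) (S2II.cut_rct 3)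
        (Form.pull (io F hD hB hdiam p) (map_io F hD hB hdiam p) b) := fun b =>
    (IS_eq_kf F hD hB hdiam b p).symm
  rw [h, h, pull_add', pull_smul', Form.pull_d, map_add, map_smul, ISp_d, add_zero, smul_eq_mul]

/-- **the closed form at another base point** -/
theorem exists_cmp (hdim : 5 < finrank ℝ E)
    (hl : ∀ x y : M, dist x y = D → finrank ℝ (H775.Pl e D x y) = 2 * 1 + 2)
    {p p' : M}
    {Pi : TangentSpace 𝓘(ℝ, E) p → TangentSpace 𝓘(ℝ, E) p →L[ℝ] TangentSpace 𝓘(ℝ, E) p}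
    {o : TangentSpace 𝓘(ℝ, E) p → Fm.Lam (TangentSpace 𝓘(ℝ, E) p)}
    {ρ : TangentSpace 𝓘(ℝ, E) p → ℝ} {r₀ : ℝ}
    (hJ : FE.LineP e D p 1 Pi o) (hρ : WE.Rho e D p ρ r₀)
    {Pi' : TangentSpace 𝓘(ℝ, E) p' → TangentSpace 𝓘(ℝ, E) p' →L[ℝ] TangentSpace 𝓘(ℝ, E) p'}
    {o' : TangentSpace 𝓘(ℝ, E) p' → Fm.Lam (TangentSpace 𝓘(ℝ, E) p')}
    {ρ' : TangentSpace 𝓘(ℝ, E) p' → ℝ} {r₀' : ℝ}
    (hJ' : FE.LineP e D p' 1 Pi' o') (hρ' : WE.Rho e D p' ρ' r₀') {a : ℝ} (ha : a ≠ 0) :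
    ∃ (s : ℝ) (Γ : Form (dM E M)), s ^ 2 = 1 ∧ FE.FF F hD hB hdiam hl hJ hρ a =
      s • FE.FF F hD hB hdiam hl hJ' hρ' a + Γ.d := by
  obtain ⟨s, Γ, h1, -⟩ := CoC.gen_FF F hD hB hdiam hl hJ' hρ' a (by omega) ha 4
    (FE.FF F hD hB hdiam hl hJ hρ a) (by omega) (FE.FF_d F hD hB hdiam hl hJ hρ a)
    (S2II.isDeg_FF F hD hB hdiam hl hJ hρ a)
  have h2 : (4 : ℕ) / (2 * 1 + 2) = 1 := by norm_num
  rw [h2, pow_one] at h1
  refine ⟨s, Γ, ?_, h1⟩
  obtain ⟨v⟩ : Nonempty (UT E M) := by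
    have : Nontrivial E := nontrivial_of_finrank_pos (R := ℝ) (by omega)
    obtain ⟨v, -⟩ := S2II.exists_foot (E := E) p
    exact ⟨v⟩
  obtain ⟨W, hW⟩ := exists_isLF F hD hB hdiam (l := 3) hl v
  have h3 := S2II.abs_kf_b0P F hD hB hdiam (by omega) hl hJ hρ a (toF (S2I3.Fr.mk' v W hW))
  have h4 := S2II.abs_kf_b0P F hD hB hdiam (by omega) hl hJ' hρ' a (toF (S2I3.Fr.mk' v W hW))
  rw [h1, b0P_lin, b0P_exact, kf_lin, abs_mul, h4] at h3
  have h5 := S2II.kappa_pos (n := 1) ha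
  have h6 : |s| = 1 := by
    have : (|s| - 1) * (2 * S2II.kappa 1 a) = 0 := by linarith
    rcases mul_eq_zero.1 this with h | h
    · linarith
    · linarith
  rw [← sq_abs, h6, one_pow]

end

end Vale.Agent.P231.S2I
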