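import Vale.Agent.P231.S2I.NPart

/-!
# P231, stage 2: integrality, forms pulled back by a map which is homogeneous and invariant under
the circle action far away
-/

set_option linter.unusedSectionVars false
set_option linter.unusedVariables false

open MeasureTheory Set Module Filter Topology Metric
open scoped ContDiff

namespace Vale.Agent.P231.S2I

open Fm W H584
open Q (dR Cut)

section Gen

variable {V : Type} [NormedAddCommGroup V] [NormedSpace ℝ V] [FiniteDimensional ℝ V]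
  {M : Type*} {dM : Dif M}

/-- invariance under a local flow -/
theorem iprod_of_inv {f : V → M} {x v : V} (hf : dM.At f x) {Φ : V × ℝ → V}
    (hΦ : Sm Φ (x, 0)) (hΦ0 : ∀ y, Φ (y, 0) = y) (hinv : ∀ᶠ p in 𝓝 ((x, 0) : V × ℝ),
      f (Φ p) = f p.1) (hv : fderiv ℝ Φ (x, 0) ((0, 1) : V × ℝ) = v) (w : Form dM) :
    iprod v (w.val f x) = 0 := by
  have hfx : dM.At f (Φ (x, 0)) := by rw [hΦ0]; exact hf
  have hfst : Sm (Prod.fst : V × ℝ → V) (x, 0) := Sm.of_contDiff contDiff_fst _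
  have e1 : w.val (f ∘ Φ) (x, 0) = pull (fderiv ℝ Φ (x, 0)) (w.val f x) := by
    rw [w.nat hfx hΦ, hΦ0]
  have e2 : w.val (f ∘ Prod.fst) ((x, 0) : V × ℝ) =
      pull (fderiv ℝ Prod.fst ((x, 0) : V × ℝ)) (w.val f x) :=
    w.nat (u := f) (g := Prod.fst) (x := ((x, 0) : V × ℝ)) hf hfst
  have e3 : w.val (f ∘ Φ) (x, 0) = w.val (f ∘ Prod.fst) (x, 0) :=
    w.congr (dM.comp hfx hΦ) hinv
  have e4 : fderiv ℝ Prod.fst ((x, 0) : V × ℝ) = ContinuousLinearMap.fst ℝ V ℝ :=
    (ContinuousLinearMap.fst ℝ V ℝ).fderiv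
  rw [e1, e2, e4] at e3
  have h8 := congrArg (fun v => pull (ContinuousLinearMap.inl ℝ V ℝ)
    (iprod ((0, 1) : V × ℝ) v)) e3
  have e5 : (ContinuousLinearMap.fst ℝ V ℝ) ((0, 1) : V × ℝ) = 0 := rfl
  simp only [pull_iprod, hv, e5, Q.iprod_zero_left, map_zero] at h8
  rw [← pull_comp_apply] at h8
  have e6 : (fderiv ℝ Φ (x, 0)).comp (ContinuousLinearMap.inl ℝ V ℝ) =
      ContinuousLinearMap.id ℝ V := by
    have h9 : HasFDerivAt (fun y : V => Φ (y, 0))
        ((fderiv ℝ Φ (x, 0)).comp (ContinuousLinearMap.inl ℝ V ℝ)) x :=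
      (hΦ.differentiableAt.hasFDerivAt).comp x (hasFDerivAt_prodMk_left x (0 : ℝ))
    have h10 : (fun y : V => Φ (y, 0)) = id := funext hΦ0
    rw [h10] at h9
    exact h9.unique (hasFDerivAt_id x)
  rw [e6, pull_id] at h8
  exact h8

end Gen

variable {M : Type*} {dM : Dif M} {Hm : R4 → M}

/-- **the far part has rank two** -/
theorem iprod_far (hH : (Dif.lin R4).Map dM Hm) {c₀ : ℝ} (hc₀ : c₀ ≠ 0)
    (hfar : ∀ x : R4, 5 ≤ 3 * ‖x‖ → (∀ c : ℝ, 1 ≤ c → Hm (c • x) = Hm x) ∧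
      ∀ t : ℝ, Hm (Rot c₀ (x, t)) = Hm x) (w : Form dM) {x : R4} (hx : 5 < 3 * ‖x‖) :
    iprod x ((Form.pull Hm hH w).val id x) = 0 ∧
      iprod (Jr x) ((Form.pull Hm hH w).val id x) = 0 := by
  have hid : (Dif.lin R4).At (id : R4 → R4) x := Sm.of_contDiff contDiff_id x
  have hA : dM.At Hm x := hH (u := id) hid
  have hval : (Form.pull Hm hH w).val id x = w.val Hm x := Form.pull_val hH w hid
  have hn : ∀ᶠ p in 𝓝 ((x, 0) : R4 × ℝ), 5 < 3 * ‖p.1‖ := by
    have h1 : Continuous fun p : R4 × ℝ => 3 * ‖p.1‖ := by fun_prop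
    exact h1.continuousAt.eventually (lt_mem_nhds hx)
  rw [hval]
  refine ⟨?_, ?_⟩
  · refine iprod_of_inv hA (Φ := fun p : R4 × ℝ => (1 + p.2) • p.1)
      (Sm.of_contDiff (by fun_prop) _) (fun y => by simp) ?_ ?_ w
    · have h2 : ∀ᶠ p in 𝓝 ((x, 0) : R4 × ℝ), 5 < 3 * ‖(1 + p.2) • p.1‖ := by
        have h1 : Continuous fun p : R4 × ℝ => 3 * ‖(1 + p.2) • p.1‖ := by fun_prop
        exact h1.continuousAt.eventually (lt_mem_nhds (by simpa using hx))
      have h3 : ∀ᶠ p in 𝓝 ((x, 0) : R4 × ℝ), 0 < 1 + p.2 := by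
        have h1 : Continuous fun p : R4 × ℝ => 1 + p.2 := by fun_prop
        exact h1.continuousAt.eventually (lt_mem_nhds (by norm_num))
      filter_upwards [hn, h2, h3] with p hp1 hp2 hp3
      rcases le_total 0 p.2 with h | h
      · exact (hfar p.1 hp1.le).1 (1 + p.2) (by linarith)
      · have h4 := (hfar ((1 + p.2) • p.1) hp2.le).1 (1 + p.2)⁻¹
          ((one_le_inv₀ hp3).2 (by linarith))
        rw [smul_smul, inv_mul_cancel₀ hp3.ne', one_smul] at h4
        exact h4.symm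
    · have h5 : HasFDerivAt (fun p : R4 × ℝ => (1 + p.2) • p.1) _ ((x, 0) : R4 × ℝ) :=
        HasFDerivAt.smul (((ContinuousLinearMap.snd ℝ R4 ℝ).hasFDerivAt).const_add 1)
          (ContinuousLinearMap.fst ℝ R4 ℝ).hasFDerivAt
      rw [h5.fderiv]
      simp
  · have h6 := iprod_of_inv hA (Φ := Rot c₀) (v := c₀ • Jr x)
      (Sm.of_contDiff (contDiff_Rot c₀) _) (Rot_zero c₀) ?_ ?_ w
    · have h7 : iprod (c₀ • Jr x) (w.val Hm x) = c₀ • iprod (Jr x) (w.val Hm x) := by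
        rw [Fm.iprod_smul]
      rw [h7] at h6
      exact (smul_eq_zero.1 h6).resolve_left hc₀
    · filter_upwards [hn] with p hp
      exact (hfar p.1 hp.le).2 p.2
    · rw [(hasFDerivAt_Rot c₀ x 0).fderiv, Rot_zero]
      simp

/-- forms killed by `x` -/
theorem eval_far (b : Basis (Fin 4) ℝ R4) {x : R4} (hx : x ≠ 0) {w : Lam R4}
    (h1 : iprod x w = 0) : evalForm w b = 0 := Q.evalForm_eq_zero_of_iprod b hx h1

/-- forms killed by `x` and `Jr x` -/
theorem eval_far_dx (b : Basis (Fin 4) ℝ R4) {x : R4} (hx : x ≠ 0) {w : Lam R4}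
    (h1 : iprod x w = 0) (h2 : iprod (Jr x) w = 0) (a : R4 →L[ℝ] ℝ) :
    evalForm (dx a * w) b = 0 := by
  obtain ⟨v, hv, hav, hw⟩ : ∃ v : R4, v ≠ 0 ∧ a v = 0 ∧ iprod v w = 0 := by
    by_cases h : a x = 0
    · exact ⟨x, hx, h, h1⟩
    · refine ⟨a (Jr x) • x - a x • Jr x, fun h0 => h ?_, ?_, ?_⟩
      · have h3 := congrArg (fun v => inner ℝ (Jr x) v) h0
        simp only [inner_sub_right, inner_smul_right, inner_Jr_self, inner_Jr_Jr,
          inner_zero_right, mul_zero, zero_sub, neg_eq_zero] at h3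
        exact (mul_eq_zero.1 h3).resolve_right (inner_self_ne_zero.2 hx)
      · simp only [map_sub, map_smul, smul_eq_mul]
        ring
      · have h3 : a (Jr x) • x - a x • Jr x = a (Jr x) • x + (-a x) • Jr x := by module
        rw [h3, Fm.iprod_add, Fm.iprod_smul, Fm.iprod_smul, h1, h2, smul_zero, smul_zero, add_zero]
  refine Q.evalForm_eq_zero_of_iprod b hv ?_
  rw [iprod_dx_mul, hav, hw]
  simp

/-- **Stokes for a map of rank two at infinity** -/
theorem integral_far (hH : (Dif.lin R4).Map dM Hm) {c₀ : ℝ} (hc₀ : c₀ ≠ 0)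
    (hfar : ∀ x : R4, 5 ≤ 3 * ‖x‖ → (∀ c : ℝ, 1 ≤ c → Hm (c • x) = Hm x) ∧
      ∀ t : ℝ, Hm (Rot c₀ (x, t)) = Hm x) (Γ : Form dM) :
    ∫ x, evalForm ((Form.pull Hm hH Γ.d).val id x) (EuclideanSpace.basisFun (Fin 4) ℝ) = 0 := by
  set w : R4 → Lam R4 := (Form.pull Hm hH Γ).val id with hw
  have hid : ∀ x : R4, (Dif.lin R4).At (id : R4 → R4) x := fun x => Sm.of_contDiff contDiff_id x
  have hws : ContDiff ℝ ∞ w := contDiff_iff_contDiffAt.2 fun x =>
    (Form.pull Hm hH Γ).smooth (hid x)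
  have hwd : ∀ x, (Form.pull Hm hH Γ.d).val id x = extd w x := fun x => by
    rw [Form.pull_d, Form.d_val _ (hid x)]
  -- a cutoff function
  have hχ : ContDiff ℝ ∞ (rst : R4 → ℝ) := contDiff_rst
  let u : R4 → Lam R4 := fun x => (1 - rst x) • w x
  have hus : ContDiff ℝ ∞ u := (contDiff_const.sub hχ).smul hws
  have huc : HasCompactSupport u := HasCompactSupport.intro (isCompact_closedBall (0 : R4) 3)
    fun x hx => by
      simp only [u, cut_rst.one x hx, sub_self, zero_smul]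
  have hI := integral_evalForm_extd volume (EuclideanSpace.basisFun (Fin 4) ℝ)
    (hus.of_le (by simp)) huc
  rw [← hI]
  refine integral_congr_ae (Eventually.of_forall fun x => ?_)
  change evalForm ((Form.pull Hm hH Γ.d).val id x) _ = evalForm (extd u x) _
  have e1 : DifferentiableAt ℝ (fun x => 1 - rst x) x :=
    (differentiableAt_const _).sub (hχ.differentiable (by simp) x)
  have e2 : extd u x = dx (fderiv ℝ (fun x => 1 - rst x) x) * w x + (1 - rst x) • extd w x :=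
    extd_smul e1 (hws.differentiable (by simp) x)
  rw [e2, Q.evalForm_add, Q.evalForm_smul, hwd]
  rcases lt_or_ge ‖x‖ 2 with hx | hx
  · have h1 : rst =ᶠ[𝓝 x] fun _ => (0 : ℝ) := rst_zero hx
    have h2 : (fun x => 1 - rst x) =ᶠ[𝓝 x] fun _ => (1 : ℝ) := by
      filter_upwards [h1] with y hy
      rw [hy, sub_zero]
    rw [h2.fderiv_eq, h1.self_of_nhds]
    simp [Q.evalForm_zero]
  · have hx0 : x ≠ 0 := fun h => by rw [h, norm_zero] at hx; linarith
    have hx5 : 5 < 3 * ‖x‖ := by linarith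
    obtain ⟨g1, g2⟩ := iprod_far hH hc₀ hfar Γ hx5
    obtain ⟨g3, g4⟩ := iprod_far hH hc₀ hfar Γ.d hx5
    rw [hwd] at g3
    have h3 := eval_far_dx (EuclideanSpace.basisFun (Fin 4) ℝ).toBasis hx0 g1 g2
      (fderiv ℝ (fun x => 1 - rst x) x)
    have h4 := eval_far (EuclideanSpace.basisFun (Fin 4) ℝ).toBasis hx0 g3
    rw [OrthonormalBasis.coe_toBasis] at h3 h4
    rw [h3, h4, mul_zero, add_zero]

end Vale.Agent.P231.S2I
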