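import Vale.Agent.P231.S2I.Fun3
import Vale.Agent.P231.H584.Side

/-!
# P231, stage 2: integrality, part (I2), the standard circle action on `ℝ^4 ∖ 0`

`R4 = ℝ^4 = ℂ^2` with the complex structure `Jr`, `ψr T (x, t) = e^{i π t / T} x`, `I3` the integral
over the three dimensional sphere.
-/

set_option linter.unusedSectionVars false
set_option linter.unusedVariables false

open MeasureTheory Set Module Filter Topology Metric
open scoped ContDiff

namespace Vale.Agent.P231.S2I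

open Fm W H584
open Q (dR Cut)

/-- the four dimensional space -/
abbrev R4 := EuclideanSpace ℝ (Fin 4)

/-- the complex structure -/
noncomputable def Jr : R4 →L[ℝ] R4 := LinearMap.toContinuousLinearMap
  { toFun := fun x => !₂[-x 1, x 0, -x 3, x 2]
    map_add' := fun x y => by
      ext i
      fin_cases i <;> simp <;> ring
    map_smul' := fun c x => by
      ext i
      fin_cases i <;> simp }

theorem Jr_apply (x : R4) : Jr x = !₂[-x 1, x 0, -x 3, x 2] := rfl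

theorem Jr_Jr (x : R4) : Jr (Jr x) = -x := by
  ext i
  fin_cases i <;> simp [Jr_apply]

theorem inner_Jr_self (x : R4) : inner ℝ (Jr x) x = 0 := by
  simp [Jr_apply, PiLp.inner_apply, Fin.sum_univ_four]
  ring

theorem inner_Jr_Jr (x y : R4) : inner ℝ (Jr x) (Jr y) = inner ℝ x y := by
  simp [Jr_apply, PiLp.inner_apply, Fin.sum_univ_four]
  ring

theorem inner_Jr_left (x y : R4) : inner ℝ (Jr x) y = -inner ℝ x (Jr y) := by
  simp [Jr_apply, PiLp.inner_apply, Fin.sum_univ_four]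
  ring

theorem norm_sq_Jr (x : R4) : ‖Jr x‖ ^ 2 = ‖x‖ ^ 2 := by
  rw [← real_inner_self_eq_norm_sq, inner_Jr_Jr, real_inner_self_eq_norm_sq]

theorem Jr_ne_zero {x : R4} (hx : x ≠ 0) : Jr x ≠ 0 := fun h => hx (by
  have := Jr_Jr x
  rw [h, map_zero] at this
  exact neg_eq_zero.1 this.symm)

/-- the rotation `(x, t) ↦ e^{i c t} x` -/
noncomputable def Rot (c : ℝ) (p : R4 × ℝ) : R4 :=
  Real.cos (c * p.2) • p.1 + Real.sin (c * p.2) • Jr p.1

theorem contDiff_Rot (c : ℝ) : ContDiff ℝ ∞ (Rot c) := by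
  have h1 : ContDiff ℝ ∞ fun p : R4 × ℝ => Real.cos (c * p.2) • p.1 :=
    (Real.contDiff_cos.comp (contDiff_const.mul contDiff_snd)).smul contDiff_fst
  have h2 : ContDiff ℝ ∞ fun p : R4 × ℝ => Real.sin (c * p.2) • Jr p.1 :=
    (Real.contDiff_sin.comp (contDiff_const.mul contDiff_snd)).smul
      (Jr.contDiff.comp contDiff_fst)
  exact h1.add h2

theorem Rot_zero (c : ℝ) (x : R4) : Rot c (x, 0) = x := by simp [Rot]

theorem Rot_add (c : ℝ) (x : R4) (s t : ℝ) : Rot c (Rot c (x, s), t) = Rot c (x, s + t) := by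
  simp only [Rot, map_add, map_smul, Jr_Jr, mul_add, Real.cos_add, Real.sin_add]
  module

theorem norm_sq_Rot (c : ℝ) (p : R4 × ℝ) : ‖Rot c p‖ ^ 2 = ‖p.1‖ ^ 2 := by
  have h1 := inner_Jr_self p.1
  have h2 : inner ℝ p.1 (Jr p.1) = 0 := by rw [real_inner_comm]; exact h1
  rw [Rot, ← real_inner_self_eq_norm_sq, ← real_inner_self_eq_norm_sq]
  simp only [inner_add_left, inner_add_right, inner_smul_left, inner_smul_right, h1, h2,
    inner_Jr_Jr, conj_trivial]
  linear_combination inner ℝ p.1 p.1 * Real.sin_sq_add_cos_sq (c * p.2)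

theorem norm_Rot (c : ℝ) (p : R4 × ℝ) : ‖Rot c p‖ = ‖p.1‖ := by
  have h := norm_sq_Rot c p
  exact (pow_left_inj₀ (norm_nonneg _) (norm_nonneg _) two_ne_zero).1 h

theorem Rot_ne_zero (c : ℝ) {p : R4 × ℝ} (h : p.1 ≠ 0) : Rot c p ≠ 0 := fun h0 => h (by
  have := norm_Rot c p
  rw [h0, norm_zero] at this
  exact norm_eq_zero.1 this.symm)

/-- the derivative of the rotation -/
theorem hasFDerivAt_Rot (c : ℝ) (x : R4) (t : ℝ) : HasFDerivAt (Rot c)
    ((Real.cos (c * t) • ContinuousLinearMap.id ℝ R4 + Real.sin (c * t) • Jr).comp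
        (ContinuousLinearMap.fst ℝ R4 ℝ) +
      (c • (ContinuousLinearMap.snd ℝ R4 ℝ)).smulRight (Jr (Rot c (x, t)))) (x, t) := by
  have h1 : HasFDerivAt (fun p : R4 × ℝ => c * p.2) (c • ContinuousLinearMap.snd ℝ R4 ℝ)
      (x, t) := (ContinuousLinearMap.snd ℝ R4 ℝ).hasFDerivAt.const_mul c
  have h2 := h1.cos
  have h3 := h1.sin
  have h4 : HasFDerivAt (fun p : R4 × ℝ => p.1) (ContinuousLinearMap.fst ℝ R4 ℝ) (x, t) :=
    (ContinuousLinearMap.fst ℝ R4 ℝ).hasFDerivAt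
  have h5 : HasFDerivAt (fun p : R4 × ℝ => Jr p.1) (Jr.comp (ContinuousLinearMap.fst ℝ R4 ℝ))
      (x, t) := (Jr.comp (ContinuousLinearMap.fst ℝ R4 ℝ)).hasFDerivAt
  have h6 := (h2.smul h4).add (h3.smul h5)
  refine h6.congr_fderiv ?_
  refine ContinuousLinearMap.ext fun p => ?_
  simp [Rot, Jr_Jr]
  module

/-- the circle action on the punctured space, of period `2 T` -/
noncomputable def ψr (T : ℝ) (p : Px R4 × ℝ) : Px R4 :=
  ⟨Rot (Real.pi / T) (p.1, p.2), Rot_ne_zero _ p.1.2⟩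

theorem ψr_val (T : ℝ) (p : Px R4 × ℝ) : (ψr T p : R4) = Rot (Real.pi / T) (p.1, p.2) := rfl

theorem isFlow_ψr {T : ℝ} (hT : T ≠ 0) : IsFlow (dPx R4) (2 * T) (ψr T) where
  map := by
    intro E _ _ _ u x hu
    change Sm (fun y => Rot (Real.pi / T) (((u y).1 : R4), (u y).2)) x
    exact (Sm.of_contDiff (contDiff_Rot _) _).comp (Sm.prodMk hu.1 hu.2)
  zero x := Subtype.ext (Rot_zero _ _)
  add x s t := Subtype.ext (Rot_add _ _ _ _)
  per x := Subtype.ext (by
    rw [ψr_val, Rot]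
    have h : Real.pi / T * (2 * T) = 2 * Real.pi := by field_simp
    simp [h])

theorem rst_Rot (c : ℝ) (x : R4) (t : ℝ) : rst (Rot c (x, t)) = rst x := by
  rw [rst, rst, norm_Rot]

/-- the standard basis -/
noncomputable def b4 : Basis (Fin 4) ℝ R4 := (EuclideanSpace.basisFun (Fin 4) ℝ).toBasis

/-- the integral over the three dimensional sphere -/
noncomputable def I3 : Form (dPx R4) →ₗ[ℝ] ℝ := ISp (K := closedBall 0 3) volume b4 cut_rst

theorem I3_d (w : Form (dPx R4)) : I3 w.d = 0 := ISp_d _ _ _ _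

theorem I3_pull {S : Type*} {dS : Dif S} (hS : WF.DimLE dS 2) {q : Px R4 → S}
    (hq : (dPx R4).Map dS q) (w : Form dS) : I3 (Form.pull q hq w) = 0 :=
  ISp_pull _ hS (by simp) _ _ hq w

theorem I3_basic {T : ℝ} (hT : T ≠ 0) {w : Form (dPx R4)}
    (hw : Basic (ψr T) (isFlow_ψr hT).map w) : I3 w = 0 := by
  refine ISp_basic volume b4 cut_rst (isFlow_ψr hT).map (contDiff_Rot (Real.pi / T))
    (fun p => rfl) (Rot_zero _) (rst_Rot _) (fun x hx => ?_) hw
  rw [(hasFDerivAt_Rot _ x 0).fderiv]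
  have h1 : Real.pi / T ≠ 0 := div_ne_zero Real.pi_ne_zero hT
  have h2 := Jr_ne_zero hx
  rw [Rot_zero]
  simp [h1, h2]

theorem sConn_R4 : WF.SConn (dPx R4) := sConn_Px (by simp)

/-! ### the standard connection form -/

/-- the form `x₀ dx₁ - x₁ dx₀ + x₂ dx₃ - x₃ dx₂` -/
noncomputable def lamv : R4 →L[ℝ] (R4 →L[ℝ] ℝ) := (innerSL ℝ).comp Jr

theorem lamv_apply (x y : R4) : lamv x y = inner ℝ (Jr x) y := rfl

/-- the form `λ` on `ℝ^4` -/
noncomputable def lamw (x : R4) : Lam R4 := dx (lamv x)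

theorem contDiff_lamw : ContDiff ℝ ∞ lamw := dx.contDiff.comp lamv.contDiff

theorem map_nrm : (dPx R4).Map (Dif.lin ℝ) (fun x => (‖(x : R4)‖ ^ 2)⁻¹) := by
  refine map_of_at fun x hx => ?_
  have h1 : Sm (fun y : R4 => (‖y‖ ^ 2)⁻¹) x := by
    refine Sm.of_contDiffOn (U := {0}ᶜ) (fun y hy => ?_) isOpen_compl_singleton hx
    exact (ContDiffAt.inv (contDiff_norm_sq ℝ).contDiffAt
      (pow_ne_zero 2 (norm_ne_zero_iff.2 hy))).contDiffWithinAt
  refine h1.congr ?_
  filter_upwards [isOpen_compl_singleton.mem_nhds hx] with y hy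
  change (‖y‖ ^ 2)⁻¹ = (‖(ret y : R4)‖ ^ 2)⁻¹
  rw [ret_val hy]

/-- `λ` as a form on the punctured space -/
noncomputable def lamF : Form (dPx R4) :=
  Form.pull Subtype.val map_val (Form.ofLin lamw contDiff_lamw)

/-- `λ / |x|^2` -/
noncomputable def tauF : Form (dPx R4) := Form.fn _ map_nrm * lamF

theorem coe_ret_ev {x : R4} (hx : x ≠ 0) : (Subtype.val ∘ (ret : R4 → Px R4)) =ᶠ[𝓝 x] id := by
  filter_upwards [isOpen_compl_singleton.mem_nhds hx] with y hy
  exact ret_val hy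

theorem lamF_val {x : R4} (hx : x ≠ 0) : lamF.val ret x = lamw x := by
  rw [lamF, Form.pull_val map_val _ (at_ret hx), Form.ofLin_val _ _ (at_ret hx),
    pb_congr _ (coe_ret_ev hx)]
  exact pb_id _ _

theorem tauF_val {x : R4} (hx : x ≠ 0) : tauF.val ret x = (‖x‖ ^ 2)⁻¹ • lamw x := by
  rw [tauF, Form.mul_val, Form.fn_val _ _ (at_ret hx), lamF_val hx, ret_val hx,
    Algebra.algebraMap_eq_smul_one, smul_mul_assoc, one_mul]

theorem Jr_Rot (c : ℝ) (p : R4 × ℝ) : Jr (Rot c p) = Rot c (Jr p.1, p.2) := by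
  simp [Rot]

theorem inner_Rot (c : ℝ) (x y : R4) (t : ℝ) : inner ℝ (Rot c (x, t)) (Rot c (y, t)) =
    inner ℝ x y := by
  simp only [Rot, inner_add_left, inner_add_right, inner_smul_left, inner_smul_right,
    inner_Jr_left, conj_trivial, Jr_Jr, inner_neg_right]
  linear_combination inner ℝ x y * Real.sin_sq_add_cos_sq (c * t)

theorem lamv_Rot (c : ℝ) (x : R4) (t : ℝ) :
    (lamv (Rot c (x, t))).comp (fderiv ℝ (Rot c) (x, t)) =
      (lamv x).comp (ContinuousLinearMap.fst ℝ R4 ℝ) +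
        (c * ‖x‖ ^ 2) • ContinuousLinearMap.snd ℝ R4 ℝ := by
  rw [(hasFDerivAt_Rot c x t).fderiv]
  refine ContinuousLinearMap.ext fun p => ?_
  have h1 : (Real.cos (c * t) • ContinuousLinearMap.id ℝ R4 + Real.sin (c * t) • Jr) p.1 =
      Rot c (p.1, t) := by simp [Rot]
  have h2 : inner ℝ (Jr (Rot c (x, t))) (Rot c (p.1, t)) = inner ℝ (Jr x) p.1 := by
    rw [Jr_Rot, inner_Rot]
  have h3 : inner ℝ (Jr (Rot c (x, t))) (Jr (Rot c (x, t))) = ‖x‖ ^ 2 := by
    rw [inner_Jr_Jr, inner_Rot, real_inner_self_eq_norm_sq]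
  change inner ℝ (Jr (Rot c (x, t)))
    ((Real.cos (c * t) • ContinuousLinearMap.id ℝ R4 + Real.sin (c * t) • Jr) p.1 +
      (c * p.2) • Jr (Rot c (x, t))) = inner ℝ (Jr x) p.1 + (c * ‖x‖ ^ 2) * p.2
  rw [h1, inner_add_right, inner_smul_right, h2, h3]
  ring

/-- the standard form is a connection -/
theorem tauF_conn {T : ℝ} (hT : T ≠ 0) :
    Form.pull (ψr T) (isFlow_ψr hT).map ((T / Real.pi) • tauF) =
      pr ((T / Real.pi) • tauF) + dt := by
  refine form_ext_cyl fun x t hx => ?_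
  set c := Real.pi / T with hc
  have hcyl := Form.cyl_at (D := dPx R4) (at_ret hx) t
  have hGx : Rot c (x, t) ≠ 0 := Rot_ne_zero c (p := (x, t)) hx
  have hΨ : ((dPx R4).prod (Dif.lin ℝ)).Map (dPx R4) (ψr T) := (isFlow_ψr hT).map
  have e2 : ψr T ∘ Form.cyl ret =ᶠ[𝓝 (x, t)] ret ∘ Rot c := by
    have h7 : Tendsto (Prod.fst : R4 × ℝ → R4) (𝓝 (x, t)) (𝓝 x) := continuous_fst.continuousAt
    filter_upwards [h7.eventually (isOpen_compl_singleton.mem_nhds hx),
      (contDiff_Rot c).continuous.continuousAt.eventually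
        (isOpen_compl_singleton.mem_nhds hGx)] with p hp hp'
    refine Subtype.ext ?_
    change (ψr T (ret p.1, p.2) : R4) = ret (Rot c p)
    rw [ψr_val, ret_val hp, ret_val hp']
  rw [Form.pull_val hΨ _ hcyl, ((T / Real.pi) • tauF).congr (hΨ hcyl) e2,
    ((T / Real.pi) • tauF).nat (at_ret hGx) (Sm.of_contDiff (contDiff_Rot c) _), Form.smul_val,
    tauF_val hGx,
    Form.add_val, pr, Form.fst_val _ (at_ret hx) t, dt_val (at_ret hx) t, Form.smul_val,
    tauF_val hx, norm_Rot, map_smul, map_smul, map_smul, map_smul, lamw, lamw, pull_dx, pull_dx,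
    lamv_Rot, map_add, map_smul, smul_add, smul_add, dtl]
  congr 1
  rw [smul_smul, smul_smul]
  have h1 : ‖x‖ ^ 2 ≠ 0 := pow_ne_zero 2 (norm_ne_zero_iff.2 hx)
  have h2 : T / Real.pi * (‖x‖ ^ 2)⁻¹ * (c * ‖x‖ ^ 2) = 1 := by
    rw [hc]
    field_simp
  change (T / Real.pi * (‖x‖ ^ 2)⁻¹ * (c * ‖x‖ ^ 2)) • dx (ContinuousLinearMap.snd ℝ R4 ℝ) = _
  rw [h2, one_smul]

/-! ### the value of the integral -/

/-- the coordinate forms -/
noncomputable def ec (i : Fin 4) : Lam R4 := dx (EuclideanSpace.proj i : R4 →L[ℝ] ℝ)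

theorem lamv_eq (x : R4) : lamv x = x 0 • (EuclideanSpace.proj 1 : R4 →L[ℝ] ℝ) -
    x 1 • (EuclideanSpace.proj 0 : R4 →L[ℝ] ℝ) + x 2 • (EuclideanSpace.proj 3 : R4 →L[ℝ] ℝ) -
    x 3 • (EuclideanSpace.proj 2 : R4 →L[ℝ] ℝ) := by
  refine ContinuousLinearMap.ext fun y => ?_
  rw [lamv_apply, Jr_apply]
  simp [PiLp.inner_apply, Fin.sum_univ_four]
  ring

theorem lamw_eq (x : R4) : lamw x = x 0 • ec 1 - x 1 • ec 0 + x 2 • ec 3 - x 3 • ec 2 := by
  rw [lamw, lamv_eq]
  simp only [map_add, map_sub, map_smul, ec]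

/-- `dλ = 2 (dx₀ dx₁ + dx₂ dx₃)` -/
theorem extd_lamw (x : R4) : extd lamw x = (2 : ℝ) • (ec 0 * ec 1 + ec 2 * ec 3) := by
  have h1 : ∀ i : Fin 4, HasFDerivAt (fun x : R4 => x i) (EuclideanSpace.proj i : R4 →L[ℝ] ℝ) x :=
    fun i => (EuclideanSpace.proj i : R4 →L[ℝ] ℝ).hasFDerivAt
  have h2 : HasFDerivAt lamw
      ((EuclideanSpace.proj 0 : R4 →L[ℝ] ℝ).smulRight (ec 1) -
        (EuclideanSpace.proj 1 : R4 →L[ℝ] ℝ).smulRight (ec 0) +
        (EuclideanSpace.proj 2 : R4 →L[ℝ] ℝ).smulRight (ec 3) -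
        (EuclideanSpace.proj 3 : R4 →L[ℝ] ℝ).smulRight (ec 2)) x := by
    have h3 : lamw = fun x : R4 => x 0 • ec 1 - x 1 • ec 0 + x 2 • ec 3 - x 3 • ec 2 :=
      funext lamw_eq
    rw [h3]
    exact ((((h1 0).smul_const (ec 1)).sub ((h1 1).smul_const (ec 0))).add
      ((h1 2).smul_const (ec 3))).sub ((h1 3).smul_const (ec 2))
  rw [extd_of h2]
  simp only [map_sub, map_add, dLin_smulRight]
  have h4 : ec 1 * ec 0 = -(ec 0 * ec 1) := dx_anticomm _ _
  have h5 : ec 3 * ec 2 = -(ec 2 * ec 3) := dx_anticomm _ _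
  change ec 0 * ec 1 - ec 1 * ec 0 + ec 2 * ec 3 - ec 3 * ec 2 = _
  rw [h4, h5, two_smul]
  abel

theorem tauF_d_val {x : R4} (hx : x ≠ 0) : (tauF * tauF.d).val ret x =
    ((‖x‖ ^ 2)⁻¹ * (‖x‖ ^ 2)⁻¹) • (lamw x * extd lamw x) := by
  have h1 : tauF.val ret =ᶠ[𝓝 x] fun y => (‖y‖ ^ 2)⁻¹ • lamw y := by
    filter_upwards [isOpen_compl_singleton.mem_nhds hx] with y hy using tauF_val hy
  have h2 : DifferentiableAt ℝ (fun y : R4 => (‖y‖ ^ 2)⁻¹) x :=
    (ContDiffAt.inv (contDiff_norm_sq ℝ).contDiffAt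
      (pow_ne_zero 2 (norm_ne_zero_iff.2 hx))).differentiableAt (n := 1) one_ne_zero
  have h3 : DifferentiableAt ℝ lamw x := contDiff_lamw.differentiable (by simp) x
  rw [Form.mul_val, Form.d_val _ (at_ret hx), extd_congr h1, extd_smul h2 h3, tauF_val hx,
    mul_add, smul_mul_assoc, smul_mul_assoc]
  have h4 : lamw x * (dx (fderiv ℝ (fun y : R4 => (‖y‖ ^ 2)⁻¹) x) * lamw x) = 0 := by
    rw [← mul_assoc, lamw, dx_anticomm, neg_mul, mul_assoc, dx_mul_self, mul_zero, neg_zero]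
  rw [h4, smul_zero, zero_add, mul_smul_comm, smul_smul]

/-- `x₀ dx₀ + ... + x₃ dx₃` -/
noncomputable def radw (x : R4) : Lam R4 := x 0 • ec 0 + x 1 • ec 1 + x 2 • ec 2 + x 3 • ec 3

theorem ec_sq (i : Fin 4) : ec i * ec i = 0 := dx_mul_self _

theorem ec_anti (i j : Fin 4) : ec i * ec j = -(ec j * ec i) := dx_anticomm _ _

theorem radw_lamw (x : R4) : radw x * (lamw x * (ec 0 * ec 1 + ec 2 * ec 3)) =
    ‖x‖ ^ 2 • (ec 0 * (ec 1 * (ec 2 * ec 3))) := by
  have h01 := ec_anti 1 0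
  have h02 := ec_anti 2 0
  have h03 := ec_anti 3 0
  have h12 := ec_anti 2 1
  have h13 := ec_anti 3 1
  have h23 := ec_anti 3 2
  have key : ∀ i j : Fin 4, ∀ w : Lam R4, ec i * (ec j * w) = -(ec j * (ec i * w)) := by
    intro i j w
    rw [← mul_assoc, ec_anti, neg_mul, mul_assoc]
  have h01' := key 1 0
  have h02' := key 2 0
  have h03' := key 3 0
  have h12' := key 2 1
  have h13' := key 3 1
  have h23' := key 3 2
  have h00' : ∀ i : Fin 4, ∀ w : Lam R4, ec i * (ec i * w) = 0 := fun i w => by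
    rw [← mul_assoc, ec_sq, zero_mul]
  have hn : ‖x‖ ^ 2 = x 0 ^ 2 + x 1 ^ 2 + x 2 ^ 2 + x 3 ^ 2 := by
    rw [EuclideanSpace.norm_sq_eq]
    simp [Fin.sum_univ_four]
  rw [hn, lamw_eq, radw]
  simp only [mul_add, add_mul, mul_sub, sub_mul, smul_mul_assoc, mul_smul_comm, h01', h02', h03',
    h12', h13', h23', h00', mul_neg, h12, h13, h23, ec_sq, mul_zero,
    smul_zero, neg_zero, neg_neg, smul_neg]
  module

/-- the volume form on the standard basis -/
theorem eval_vol : evalForm (ec 0 * (ec 1 * (ec 2 * ec 3))) b4 = 1 := by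
  rw [evalForm_apply]
  simp only [cont_succ, cont_zero]
  have hb : ∀ i : Fin 4, b4 i = EuclideanSpace.single i (1 : ℝ) := fun i => by
    simp [b4]
  have hp : ∀ i j : Fin 4, (EuclideanSpace.proj i : R4 →L[ℝ] ℝ) (b4 j) = if i = j then 1 else 0 :=
    fun i j => by rw [hb]; simp
  simp [ec, iprod_dx_mul, hp]

theorem radw_eq (x : R4) : radw x = dx (innerSL ℝ x) := by
  have h : innerSL ℝ x = x 0 • (EuclideanSpace.proj 0 : R4 →L[ℝ] ℝ) +
      x 1 • (EuclideanSpace.proj 1 : R4 →L[ℝ] ℝ) + x 2 • (EuclideanSpace.proj 2 : R4 →L[ℝ] ℝ) +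
      x 3 • (EuclideanSpace.proj 3 : R4 →L[ℝ] ℝ) := by
    refine ContinuousLinearMap.ext fun y => ?_
    rw [innerSL_apply_apply]
    simp [PiLp.inner_apply, Fin.sum_univ_four, mul_comm]
  rw [radw, h]
  simp only [map_add, map_smul, ec]

theorem dR_rst {x : R4} (hx : x ≠ 0) :
    dR rst x = (deriv Real.smoothTransition (‖x‖ - 2) * ‖x‖⁻¹) • radw x := by
  rw [radw_eq, dR, ← map_smul]
  congr 1
  have h1 : HasFDerivAt (fun x : R4 => ‖x‖) (‖x‖⁻¹ • innerSL ℝ x) x := by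
    have h2 := (hasStrictFDerivAt_norm_sq x).hasFDerivAt
    have h3 : HasFDerivAt (fun x : R4 => Real.sqrt (‖x‖ ^ 2))
        ((1 / (2 * Real.sqrt (‖x‖ ^ 2))) • (2 • innerSL ℝ x)) x :=
      h2.sqrt (pow_ne_zero 2 (norm_ne_zero_iff.2 hx))
    have h4 : (fun x : R4 => Real.sqrt (‖x‖ ^ 2)) = fun x => ‖x‖ := by
      funext y
      exact Real.sqrt_sq (norm_nonneg _)
    rw [h4, Real.sqrt_sq (norm_nonneg _)] at h3
    refine h3.congr_fderiv ?_
    rw [← Nat.cast_smul_eq_nsmul ℝ, smul_smul]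
    congr 1
    have : ‖x‖ ≠ 0 := norm_ne_zero_iff.2 hx
    field_simp
    norm_num
  have h5 : HasDerivAt Real.smoothTransition (deriv Real.smoothTransition (‖x‖ - 2))
      (‖x‖ - 2) := (Real.smoothTransition.contDiff (n := 1).differentiable
        (by norm_num) _).hasDerivAt
  have h6 : HasFDerivAt (rst : R4 → ℝ)
      (deriv Real.smoothTransition (‖x‖ - 2) • (‖x‖⁻¹ • innerSL ℝ x)) x :=
    h5.comp_hasFDerivAt x (h1.sub_const 2)
  rw [h6.fderiv, smul_smul]

theorem eval_cut {x : R4} (hx : x ≠ 0) : evalForm (dR rst x * (tauF * tauF.d).val ret x) b4 =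
    2 * (deriv Real.smoothTransition (‖x‖ - 2) * (‖x‖ ^ 3)⁻¹) := by
  have h0 : ‖x‖ ≠ 0 := norm_ne_zero_iff.2 hx
  rw [tauF_d_val hx, extd_lamw, dR_rst hx, mul_smul_comm, mul_smul_comm, mul_smul_comm,
    smul_mul_assoc, radw_lamw, Q.evalForm_smul, Q.evalForm_smul, Q.evalForm_smul,
    Q.evalForm_smul, eval_vol]
  field_simp

theorem integral_dst : ∫ y in Ioi (0 : ℝ), deriv Real.smoothTransition (y - 2) = 1 := by
  let f : ℝ → ℝ := fun y => (Real.smoothTransition (y - 2) - 1) * Real.smoothTransition (y + 1)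
  have hf : ContDiff ℝ 1 f := by
    refine ContDiff.mul (ContDiff.sub ?_ contDiff_const) ?_
    · exact Real.smoothTransition.contDiff.comp (contDiff_id.sub contDiff_const)
    · exact Real.smoothTransition.contDiff.comp (contDiff_id.add contDiff_const)
  have hc : HasCompactSupport f := by
    refine HasCompactSupport.intro (isCompact_Icc (a := (-1 : ℝ)) (b := 3)) fun y hy => ?_
    rw [mem_Icc, not_and_or, not_le, not_le] at hy
    rcases hy with hy | hy
    · simp only [f]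
      rw [Real.smoothTransition.zero_of_nonpos (x := y + 1) (by linarith), mul_zero]
    · simp only [f]
      rw [Real.smoothTransition.one_of_one_le (x := y - 2) (by linarith), sub_self, zero_mul]
  have h1 := hc.integral_Ioi_deriv_eq hf 0
  have h2 : ∀ y ∈ Ioi (0 : ℝ), deriv f y = deriv Real.smoothTransition (y - 2) := by
    intro y hy
    have h3 : f =ᶠ[𝓝 y] fun y => Real.smoothTransition (y - 2) - 1 := by
      filter_upwards [lt_mem_nhds (show (0 : ℝ) < y from hy)] with z hz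
      simp only [f]
      rw [Real.smoothTransition.one_of_one_le (x := z + 1) (by linarith), mul_one]
    rw [h3.deriv_eq, deriv_sub_const]
    exact deriv_comp_sub_const Real.smoothTransition 2 y
  rw [setIntegral_congr_fun measurableSet_Ioi h2] at h1
  rw [h1]
  simp only [f]
  rw [Real.smoothTransition.zero_of_nonpos (by norm_num),
    Real.smoothTransition.one_of_one_le (by norm_num)]
  norm_num

/-- the integral of the standard contact form -/
theorem I3_tauF : I3 (tauF * tauF.d) = 4 * Real.pi ^ 2 := by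
  rw [I3, ISp_apply]
  have h1 : ∫ x : R4, evalForm (dR rst x * (tauF * tauF.d).val ret x) b4 =
      ∫ x : R4, (fun y : ℝ => 2 * (deriv Real.smoothTransition (y - 2) * (y ^ 3)⁻¹)) ‖x‖ := by
    refine integral_congr_ae ?_
    filter_upwards [(measure_eq_zero_iff_ae_notMem.1 (measure_singleton (0 : R4)))] with x hx
    exact eval_cut (by simpa using hx)
  rw [h1]
  refine (integral_fun_norm_addHaar (volume : Measure R4)
    (fun y : ℝ => 2 * (deriv Real.smoothTransition (y - 2) * (y ^ 3)⁻¹))).trans ?_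
  have h2 : finrank ℝ R4 = 4 := by simp
  have h3 : ∫ y in Ioi (0 : ℝ), y ^ (4 - 1) •
      (2 * (deriv Real.smoothTransition (y - 2) * (y ^ 3)⁻¹)) = 2 := by
    have h4 : ∀ y ∈ Ioi (0 : ℝ), y ^ (4 - 1) •
        (2 * (deriv Real.smoothTransition (y - 2) * (y ^ 3)⁻¹)) =
          2 * deriv Real.smoothTransition (y - 2) := fun y hy => by
      have : (y : ℝ) ≠ 0 := ne_of_gt hy
      simp only [smul_eq_mul]
      field_simp
    rw [setIntegral_congr_fun measurableSet_Ioi h4, integral_const_mul, integral_dst, mul_one]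
  have h5 : (volume : Measure R4).real (ball 0 1) = Real.pi ^ 2 / 2 := by
    rw [Measure.real, EuclideanSpace.volume_ball]
    have h6 : Real.Gamma (4 / 2 + 1) = 2 := by
      have h7 : (4 / 2 + 1 : ℝ) = ((2 : ℕ) : ℝ) + 1 := by norm_num
      rw [h7, Real.Gamma_nat_eq_factorial]
      norm_num
    have h8 : Real.sqrt Real.pi ^ 4 = Real.pi ^ 2 := by
      have : Real.sqrt Real.pi ^ 4 = (Real.sqrt Real.pi ^ 2) ^ 2 := by ring
      rw [this, Real.sq_sqrt Real.pi_pos.le]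
    simp [h6, h8]
    positivity
  rw [h2, h3, h5]
  simp only [nsmul_eq_mul, smul_eq_mul]
  push_cast
  ring

theorem tauF_sg : tauF.sg = -tauF := by
  refine form_ext fun x hx => ?_
  rw [Form.sg_val, Form.neg_val, tauF_val hx, map_smul, lamw, inv_dx, smul_neg]

/-- **the integral of `α dα` for a connection form of the circle action** -/
theorem I3_conn {T : ℝ} (hT : T ≠ 0) {α : Form (dPx R4)}
    (hα : Form.pull (ψr T) (isFlow_ψr hT).map α = pr α + dt) (hαo : α.sg = -α) :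
    I3 (α * α.d) = 4 * T ^ 2 := by
  set τ : Form (dPx R4) := (T / Real.pi) • tauF with hτ
  have hτc : Form.pull (ψr T) (isFlow_ψr hT).map τ = pr τ + dt := tauF_conn hT
  have hδ : Basic (ψr T) (isFlow_ψr hT).map (α - τ) := by
    rw [basic_def, pr_sub]
    refine (map_sub (Form.pullA (ψr T) (isFlow_ψr hT).map) α τ).trans ?_
    change Form.pull (ψr T) (isFlow_ψr hT).map α - Form.pull (ψr T) (isFlow_ψr hT).map τ = _
    rw [hα, hτc]
    abel
  have hdc : ∀ {β : Form (dPx R4)}, Form.pull (ψr T) (isFlow_ψr hT).map β = pr β + dt →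
      Basic (ψr T) (isFlow_ψr hT).map β.d := fun {β} hβ => by
    rw [basic_def, Form.pull_d, hβ, Form.d_add, dt_d, add_zero, pr_d]
  have h1 : I3 (τ * τ.d) = 4 * T ^ 2 := by
    rw [hτ, Form.d_smul, smul_mul_smul_comm, map_smul, I3_tauF, smul_eq_mul]
    have := Real.pi_ne_zero
    field_simp
  have h2 : α * α.d = τ * τ.d + τ * (α - τ).d + (α - τ) * α.d := by
    rw [Form.d_sub]
    noncomm_ring
  have h3 : I3 ((α - τ) * α.d) = 0 := I3_basic hT (Basic.mul hδ (hdc hα))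
  have h4 : I3 (τ * (α - τ).d) = 0 := by
    have hτo : τ.sg = -τ := by rw [hτ, Form.sg_smul, tauF_sg, smul_neg]
    have h5 : (τ * (α - τ)).d = τ.d * (α - τ) - τ * (α - τ).d := by
      rw [Form.d_mul, hτo, neg_mul, ← sub_eq_add_neg]
    have h6 := congrArg I3 h5
    rw [I3_d, map_sub, I3_basic hT (Basic.mul (hdc hτc) hδ), zero_sub] at h6
    exact (neg_eq_zero.1 h6.symm)
  rw [h2, map_add, map_add, h3, h4, h1, add_zero, add_zero]

/-- the value on the pull back of `θ e` under an equivariant map -/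
theorem I3_pull_conn {S : Type*} {dS : Dif S} {T : ℝ} (hT : T ≠ 0) {Λ : S × ℝ → S}
    (hΛ : (dS.prod (Dif.lin ℝ)).Map dS Λ) {α : Form dS}
    (hα : Form.pull Λ hΛ α = pr α + dt) (hαo : α.sg = -α) {j : Px R4 → S}
    (hj : (dPx R4).Map dS j) (hjψ : ∀ x t, j (ψr T (x, t)) = Λ (j x, t)) :
    I3 (Form.pull j hj ((T⁻¹ • α) * (T⁻¹ • α.d))) = 4 := by
  have hψ : ((dPx R4).prod (Dif.lin ℝ)).Map (dPx R4) (ψr T) := (isFlow_ψr hT).map
  have hjα : Form.pull (ψr T) hψ (Form.pull j hj α) = pr (Form.pull j hj α) + dt := by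
    have h1 : ((dPx R4).prod (Dif.lin ℝ)).Map dS (fun p => j (ψr T p)) :=
      Dif.Map.comp (f := ψr T) (g := j) hj hψ
    have h0 : ((dPx R4).prod (Dif.lin ℝ)).Map (dS.prod (Dif.lin ℝ))
        (fun p : Px R4 × ℝ => (j p.1, p.2)) := map_cyl hj
    have e1 : Form.pull (ψr T) hψ (Form.pull j hj α) = Form.pull (fun p => j (ψr T p)) h1 α :=
      pull_pull hψ hj h1 (fun _ => rfl) α
    have e2 : Form.pull (fun p => j (ψr T p)) h1 α =
        Form.pull (fun p : Px R4 × ℝ => (j p.1, p.2)) h0 (Form.pull Λ hΛ α) :=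
      (pull_pull h0 hΛ h1 (fun p => (hjψ _ _).symm) α).symm
    have e3 : Form.pull (fun p : Px R4 × ℝ => (j p.1, p.2)) h0 (pr α + dt) =
        Form.pull (fun p : Px R4 × ℝ => (j p.1, p.2)) h0 (pr α) +
        Form.pull (fun p : Px R4 × ℝ => (j p.1, p.2)) h0 dt :=
      map_add (Form.pullA (fun p : Px R4 × ℝ => (j p.1, p.2)) h0) (pr α) dt
    rw [e1, e2, hα, e3, pull_pr hj, pull_dt hj]
  have hjo : (Form.pull j hj α).sg = -Form.pull j hj α := by
    rw [← Form.pull_sg, hαo]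
    exact map_neg (Form.pullA j hj) α
  have h2 := I3_conn hT hjα hjo
  have h3 : Form.pull j hj ((T⁻¹ • α) * (T⁻¹ • α.d)) =
      (T⁻¹ * T⁻¹) • (Form.pull j hj α * (Form.pull j hj α).d) := by
    rw [smul_mul_smul_comm, ← Form.pull_d]
    refine (map_smul (Form.pullA j hj) (T⁻¹ * T⁻¹) (α * α.d)).trans ?_
    congr 1
    exact map_mul (Form.pullA j hj) α α.d
  rw [h3, map_smul, h2, smul_eq_mul]
  field_simp

end Vale.Agent.P231.S2I
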