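import Vale.Agent.P231.S2I.Dec
import Vale.Agent.P231.FE.Std

/-!
# P231, block S2-I (I6): the angular form of an oriented spread of 4-planes
-/

set_option linter.unusedSectionVars false

open Module MeasureTheory Set Metric Filter
open scoped ContDiff Topology RealInnerProductSpace

noncomputable section

namespace Vale.Agent.P231.S2I

open Fm
open Q (dR Cut)
open EN.Std (nsq lam0 beta0 om2)

section

variable {V : Type*} [NormedAddCommGroup V] [InnerProductSpace ℝ V] [FiniteDimensional ℝ V]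
variable (b : OrthonormalBasis (Fin 4) ℝ V)

theorem om2_expl : om2 (xx b) (yy b) =
    dx (cf b 0) * dx (cf b 1) + dx (cf b 2) * dx (cf b 3) := by
  rw [om2, Fin.sum_univ_two]
  rfl

theorem om2_sq : om2 (xx b) (yy b) ^ 2 = (2 : ℝ) • FE.wdg b := by
  have h1 : FE.wdg b = (dx (cf b 0) * dx (cf b 1)) * (dx (cf b 2) * dx (cf b 3)) := by
    rw [FE.wdg]
    simp only [List.ofFn_succ, List.ofFn_zero, List.prod_cons, List.prod_nil, mul_one]
    rw [mul_assoc]
    rfl
  have h2 : ∀ i j : Fin 4, (dx (cf b i) * dx (cf b j)) * (dx (cf b i) * dx (cf b j)) = 0 := by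
    intro i j
    rw [mul_assoc, ← mul_assoc (dx (cf b j)), dx_anticomm (cf b j) (cf b i), neg_mul, mul_assoc,
      dx_mul_self, mul_zero, neg_zero, mul_zero]
  have h3 : (dx (cf b 2) * dx (cf b 3)) * (dx (cf b 0) * dx (cf b 1)) =
      (dx (cf b 0) * dx (cf b 1)) * (dx (cf b 2) * dx (cf b 3)) :=
    mul_comm_of_even (EN.Std.dx_mul_dx_even _ _) _
  rw [om2_expl, pow_two, mul_add, add_mul, add_mul, h2, h2, h3, h1, two_smul]
  abel

theorem iprod_wdg (z : V) : iprod z (FE.wdg b) = lam0 (xx b) (yy b) z * om2 (xx b) (yy b) := by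
  have h1 := EN.Std.iprod_pow_even (EN.Std.om2_even (xx b) (yy b)) z 2
  rw [om2_sq, map_smul, ← EN.Std.lam0_eq] at h1
  have h2 : ((2 : ℕ) : ℝ) = 2 := by norm_num
  rw [h2, show 2 - 1 = 1 from rfl, pow_one] at h1
  exact (smul_right_injective _ (two_ne_zero' ℝ)) h1

theorem vs_eq {z : V} (hz : z ≠ 0) : vs b z = (2 * Real.pi ^ 2)⁻¹ • FE.std b z := by
  have hN := nsq_pos b hz
  set l := lam0 (xx b) (yy b) z with hl
  have hlo : inv l = -l := EN.Std.lam0_odd _ _ z
  have h0 : l * (dx (fderiv ℝ (nsq (xx b) (yy b)) z) * l) = 0 := by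
    have h1 : l * dx (fderiv ℝ (nsq (xx b) (yy b)) z) =
        -(dx (fderiv ℝ (nsq (xx b) (yy b)) z) * l) := by
      rw [dx_mul, hlo, neg_mul, neg_neg]
    rw [← mul_assoc, h1, neg_mul, mul_assoc, mul_self_of_odd hlo, mul_zero, neg_zero]
  have h1 : extd (Ah b) z = (-(2 * Real.pi)⁻¹) • extd (beta0 (xx b) (yy b)) z :=
    extd_const_smul _ ((SM_beta b).diff hz)
  rw [vs, h1, EN.Std.extd_beta0 _ _ hN, Ah, beta0, ← hl, smul_smul, smul_mul_smul_comm, mul_add,
    mul_smul_comm, h0, smul_zero, zero_add, mul_smul_comm, smul_smul, FE.std, iprod_wdg, ← hl,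
    smul_smul, nsq_eq]
  congr 1
  have hz' : ‖z‖ ≠ 0 := norm_ne_zero_iff.2 hz
  have hpi := Real.pi_ne_zero
  field_simp

variable {T : Type*} [NormedAddCommGroup T] [InnerProductSpace ℝ T] [FiniteDimensional ℝ T]

end

/-- the angular form of an oriented spread of 4-planes -/
theorem angF_psi {V : Type} [NormedAddCommGroup V] [InnerProductSpace ℝ V] [FiniteDimensional ℝ V]
    (b : OrthonormalBasis (Fin 4) ℝ V) {T : Type*} [NormedAddCommGroup T]
    [InnerProductSpace ℝ T] [FiniteDimensional ℝ T] {Pi : T → T →L[ℝ] T} {o : T → Lam T}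
    (h : FE.OS 1 Pi o) (a : ℝ) :
    AngF b Pi (FE.psi 1 a Pi o) (12 * Real.pi ^ 2 * a) where
  smooth := SM.of fun _ hx => h.psi_smooth a hx
  rel hf hg hf0 hg0 hfg := h.pb_extd_rel a hf.differentiableAt hg.differentiableAt hf0 hg0 hfg
  fib A0 u hu hA := by
    obtain ⟨s, hs, h1⟩ := h.pb_lin a A0 hu hA b
    refine ⟨s, hs, fun y hy => ?_⟩
    rw [h1 y hy, vs_eq b hy, smul_smul]
    congr 1
    have hpi := Real.pi_ne_zero
    have : ((2 * 1 + 1).factorial : ℝ) = 6 := by norm_num [Nat.factorial]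
    rw [this]
    field_simp
    ring

end Vale.Agent.P231.S2I
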