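import Vale.Agent.P231.S2I.NI
import Vale.Agent.P231.S2I.StdVs
import Vale.Agent.P231.FE.F
import Vale.Agent.P231.S2I.Nint
import Vale.Agent.P231.S2I.Std

/-!
# P231, block S2-I (I6): `∫ Hh^* F` is an integral multiple of the fibre constant
-/

set_option maxSynthPendingDepth 3
set_option linter.unusedSectionVars false

open Bundle Manifold Module MeasureTheory Set Metric Filter
open scoped ContDiff Manifold Topology RealInnerProductSpace

noncomputable section

namespace Vale.Agent.P231.S2I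

open Fm
open Q (dR Cut)
open Vale.Agent.P234 Vale.Agent.P231 Vale.Agent.P231.H775 Vale.Agent.P231.WE

section Ker

variable {V : Type*} [NormedAddCommGroup V] [NormedSpace ℝ V]
  {T : Type*} [NormedAddCommGroup T] [NormedSpace ℝ T]

theorem fderiv_zero_of_const {f : V → T} {γ : ℝ → V} {x v : V} (hf : DifferentiableAt ℝ f x)
    (h0 : γ 0 = x) (hγ : HasDerivAt γ v 0) (hc : ∀ᶠ t in 𝓝 (0 : ℝ), f (γ t) = f x) :
    fderiv ℝ f x v = 0 := by
  subst h0
  have h1 : HasDerivAt (fun t => f (γ t)) (fderiv ℝ f (γ 0) v) 0 :=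
    hf.hasFDerivAt.comp_hasDerivAt (0 : ℝ) hγ
  have h2 : HasDerivAt (fun _ : ℝ => f (γ 0)) (fderiv ℝ f (γ 0) v) 0 :=
    h1.congr_of_eventuallyEq (hc.mono fun t ht => ht.symm)
  exact h2.unique (hasDerivAt_const _ _)

variable [FiniteDimensional ℝ V] [FiniteDimensional ℝ T]

/-- a pull back by a map with a two-dimensional kernel, multiplied by a form of degree one -/
theorem evalForm_dx_pb {f : V → T} {x v : V} (b : Basis (Fin 4) ℝ V)
    (hx : fderiv ℝ f x x = 0) (hv : fderiv ℝ f x v = 0) (hx0 : x ≠ 0)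
    (hxv : ∀ r : ℝ, v ≠ r • x) (w : T → Lam T) (c : ℝ) (a : V →L[ℝ] ℝ) :
    evalForm (dx a * (c • pb f w x)) b = 0 := by
  obtain ⟨z, hz0, haz, hfz⟩ : ∃ z : V, z ≠ 0 ∧ a z = 0 ∧ fderiv ℝ f x z = 0 := by
    by_cases h : a x = 0
    · exact ⟨x, hx0, h, hx⟩
    · refine ⟨v - (a v * (a x)⁻¹) • x, sub_ne_zero.2 (hxv _), ?_, ?_⟩
      · rw [map_sub, map_smul, smul_eq_mul, mul_assoc, inv_mul_cancel₀ h, mul_one, sub_self]
      · rw [map_sub, map_smul, hx, hv, smul_zero, sub_zero]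
  refine Q.evalForm_eq_zero_of_iprod b hz0 ?_
  rw [iprod_dx_mul, haz, zero_smul, zero_sub, map_smul, pb, pull_iprod, hfz, Q.iprod_zero_left,
    map_zero, smul_zero, mul_zero, neg_zero]

end Ker

variable {E : Type*} [NormedAddCommGroup E] [NormedSpace ℝ E] [FiniteDimensional ℝ E]
  {M : Type*} [MetricSpace M] [ChartedSpace E M] [IsManifold 𝓘(ℝ, E) ∞ M]
  [RiemannianBundle (fun x : M => TangentSpace 𝓘(ℝ, E) x)]
  [IsContMDiffRiemannianBundle 𝓘(ℝ, E) ∞ E (fun x : M => TangentSpace 𝓘(ℝ, E) x)]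
  {e : ∀ x : M, TangentSpace 𝓘(ℝ, E) x → M}
  [CompactSpace M] [ConnectedSpace M] [IsRiemannianManifold 𝓘(ℝ, E) M]

variable {D : ℝ} {p : M}
  {Pi : TangentSpace 𝓘(ℝ, E) p → TangentSpace 𝓘(ℝ, E) p →L[ℝ] TangentSpace 𝓘(ℝ, E) p}
  {o : TangentSpace 𝓘(ℝ, E) p → Fm.Lam (TangentSpace 𝓘(ℝ, E) p)}
  {ρ : TangentSpace 𝓘(ℝ, E) p → ℝ} {r₀ : ℝ}

variable {V : Type} [NormedAddCommGroup V] [InnerProductSpace ℝ V] [FiniteDimensional ℝ V]
  [MeasurableSpace V] [BorelSpace V]

/-- **(I6), geometric form** -/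
theorem exists_int_Hh (F : Facts e) (hD : 0 < D) (hB : InjGE e D)
    (hdiam : ∀ p q : M, dist p q ≤ D)
    (hl : ∀ x y : M, dist x y = D → finrank ℝ (Pl e D x y) = 2 * 1 + 2)
    (hJ : FE.LineP e D p 1 Pi o) (hρ : Rho e D p ρ r₀) (a : ℝ)
    (b : OrthonormalBasis (Fin 4) ℝ V) {H : V → M}
    (hH : (Dif.lin V).Map (W.dM E M) H) (hp : ∀ x, H x ≠ p)
    (hfar : ∀ x, 5 ≤ 3 * ‖x‖ → dist p (H x) < D)
    (hrad : ∀ x, 2 ≤ ‖x‖ → ∀ᶠ t in 𝓝 (0 : ℝ), H ((1 + t) • x) = H x)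
    (hrot : ∀ x, 2 ≤ ‖x‖ → ∃ (γ : ℝ → V) (v : V), (∀ r : ℝ, v ≠ r • x) ∧ γ 0 = x ∧
      HasDerivAt γ v 0 ∧ ∀ᶠ t in 𝓝 (0 : ℝ), H (γ t) = H x) :
    ∃ N : ℤ, ∫ x, evalForm ((Form.pull H hH (FE.FF F hD hB hdiam hl hJ hρ a)).val id x) b =
      (12 * Real.pi ^ 2 * a) * N := by
  classical
  have hid : ∀ x : V, (Dif.lin V).At id x := fun x => Sm.of_contDiff contDiff_id x
  have hAt : ∀ x : V, (W.dM E M).At H x := fun x => hH (hid x)
  have hHs : ∀ x : V, ∀ᶠ y in 𝓝 x, ContMDiffAt 𝓘(ℝ, V) 𝓘(ℝ, E) ∞ H y := fun x => hAt x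
  have hHc : Continuous H := continuous_iff_continuousAt.2 fun x =>
    (hHs x).self_of_nhds.continuousAt
  have hdc : Continuous fun x => dist p (H x) := continuous_const.dist hHc
  have hval : ∀ x : V, (Form.pull H hH (FE.FF F hD hB hdiam hl hJ hρ a)).val id x =
      (FE.FF F hD hB hdiam hl hJ hρ a).val H x := fun x => Form.pull_val _ _ (hid x)
  simp only [hval]
  -- the planes
  have hg : ∀ x, ∃ f, Good e D p H f x := fun x =>
    exists_good F hD hB hdiam (l := 2 * 1 + 1) hl (hHs x) (hp x)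
  let R : V → TangentSpace 𝓘(ℝ, E) p →L[ℝ] TangentSpace 𝓘(ℝ, E) p :=
    fun x => Pi ((hg x).choose x)
  have hRg : ∀ x (f : V → TangentSpace 𝓘(ℝ, E) p), Good e D p H f x → R x = Pi (f x) := by
    intro x f hf
    have h1 := (hg x).choose_spec.self_of_nhds
    have h2 := hf.self_of_nhds
    refine hJ.os.sp.rel _ _ (FE.ne_zero_of_unit h2.2.1) (FE.ne_zero_of_unit h1.2.1) ?_
    exact (hJ.cut _ _ h2.2.1 h1.2.1).1 (h2.2.2.trans h1.2.2.symm)
  have hR : ∀ x, ∃ f : V → TangentSpace 𝓘(ℝ, E) p, Sm f x ∧ f x ≠ 0 ∧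
      ∀ᶠ y in 𝓝 x, R y = Pi (f y) := by
    intro x
    obtain ⟨f, hf⟩ := hg x
    exact ⟨f, hf.sm, FE.ne_zero_of_unit hf.self_of_nhds.2.1,
      hf.eventually.mono fun y hy => hRg y f hy⟩
  -- the cut locus
  let Kc : Set V := {x | dist p (H x) = D}
  have hKcl : IsClosed Kc := isClosed_eq hdc continuous_const
  have hK5 : ∀ x ∈ Kc, 3 * ‖x‖ < 5 := by
    intro x hx
    by_contra h
    exact (hfar x (not_lt.1 h)).ne hx
  have hK2 : Kc ⊆ ball 0 2 := fun x hx => by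
    rw [mem_ball_zero_iff]
    linarith [hK5 x hx, norm_nonneg x]
  have hKc : IsCompact Kc := (isCompact_closedBall (0 : V) 2).of_isClosed_subset hKcl
    (hK2.trans ball_subset_closedBall)
  have hltK : ∀ x ∉ Kc, dist p (H x) < D := fun x hx => lt_of_le_of_ne (hdiam _ _) hx
  let Nb : Set V := {x | r₀ < dist p (H x)}
  have hNb : IsOpen Nb := isOpen_lt continuous_const hdc
  have hKN : Kc ⊆ Nb := fun x hx => by
    change r₀ < dist p (H x)
    rw [show dist p (H x) = D from hx]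
    exact hρ.lt
  let u : V → TangentSpace 𝓘(ℝ, E) p := fun x => dirAt e p (H x)
  have hug : ∀ x ∉ Kc, Good e D p H u x := fun x hx => good_dirAt F hB (hHs x) (hltK x hx) (hp x)
  have hu : ∀ x ∉ Kc, ContDiffAt ℝ ∞ u x ∧ u x ≠ 0 ∧ R x (u x) = u x := by
    intro x hx
    have h1 := (hug x hx).self_of_nhds
    have h2 := FE.ne_zero_of_unit h1.2.1
    refine ⟨h1.1, h2, ?_⟩
    rw [hRg x u (hug x hx)]
    exact hJ.os.sp.self _ h2
  let lg : V → TangentSpace 𝓘(ℝ, E) p := fun x => logMap e p (H x)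
  have hlg : ∀ x ∉ Kc, ContDiffAt ℝ ∞ lg x := fun x hx =>
    ((contMDiffAt_logMap_of_dist F hB (hltK x hx)).comp x (hHs x).self_of_nhds).contDiffAt
  have hlgn : ∀ x ∉ Kc, ‖lg x‖ = dist p (H x) := fun x hx => (exp_logMap F hB (hltK x hx)).2
  have hlg0 : ∀ x ∉ Kc, lg x ≠ 0 := fun x hx => by
    rw [← norm_pos_iff, hlgn x hx]
    exact dist_pos.2 (hp x).symm
  let c : V → ℝ := fun x => ρ (lg x)
  have hc : ∀ x ∉ Kc, ContDiffAt ℝ ∞ c x := fun x hx =>
    hρ.smooth.contDiffAt.comp x (hlg x hx)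
  have hc1 : ∀ x ∈ Nb, x ∉ Kc → c x = 1 := fun x hx hxK =>
    hρ.one _ (by rw [hlgn x hxK]; exact hx)
  have hKo : ∀ x ∉ Kc, ∀ᶠ y in 𝓝 x, y ∉ Kc := fun x hx => hKcl.isOpen_compl.mem_nhds hx
  have hfd : ∀ x, 2 ≤ ‖x‖ → ∀ f : V → TangentSpace 𝓘(ℝ, E) p, DifferentiableAt ℝ f x →
      (∀ y z, H y = H z → f y = f z) → fderiv ℝ f x x = 0 := by
    intro x hx f hf hfH
    have h1 : HasDerivAt (fun t : ℝ => (1 + t) • x) x 0 := by
      simpa using ((hasDerivAt_id (0 : ℝ)).const_add (1 : ℝ)).smul_const x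
    exact fderiv_zero_of_const hf (by simp) h1 ((hrad x hx).mono fun t ht => hfH _ _ ht)
  have hfin := exists_int_N (b := b) (Pi := Pi) (ψ := FE.psi 1 a Pi o) (κ := 12 * Real.pi ^ 2 * a)
    hJ.os.sp (angF_psi b hJ.os a) hR hKc hK2 hNb hKN hu hc hc1
    (Ω := fun x => (FE.FF F hD hB hdiam hl hJ hρ a).val H x)
    (by
      intro x hx f hf hf0 hRf
      obtain ⟨g, hgx⟩ := hg x
      rw [FE.FF_good F hD hB hdiam hl hJ hρ a (hAt x) hx hgx]
      have h1 := hgx.self_of_nhds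
      refine hJ.os.pb_extd_rel a (h1.1.differentiableAt (by simp)) hf.differentiableAt
        (FE.ne_zero_of_unit h1.2.1) hf0 ?_
      filter_upwards [hgx.eventually, hRf] with y hy1 hy2
      rw [← hRg y g hy1]
      exact hy2)
    (by
      intro x hx
      rw [FE.FF_lt F hD hB hdiam hl hJ hρ a (hAt x) (hltK x hx)]
      have e1 : DifferentiableAt ℝ (fun v => ρ v • FE.psi 1 a Pi o v) (lg x) :=
        (hρ.smooth.differentiable (by simp) _).smul
          ((hJ.os.psi_smooth a (hlg0 x hx)).differentiableAt (by simp))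
      have e2 : pb lg (FE.GG (FE.psi 1 a Pi o) ρ) x =
          extd (pb lg (fun v => ρ v • FE.psi 1 a Pi o v)) x :=
        (extd_pb ((hlg x hx).of_le two_le_inf) e1).symm
      refine e2.trans (extd_congr ?_)
      filter_upwards [hKo x hx] with y hy
      have h1 := (hug y hy).self_of_nhds
      have h3 : DifferentiableAt ℝ (fun z => dist p (H z)) y :=
        (((contMDiffAt_dist F hB (hltK y hy) (hp y)).comp y
          (hHs y).self_of_nhds).contDiffAt).differentiableAt (by simp)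
      have h4 : lg =ᶠ[𝓝 y] fun z => dist p (H z) • u z := by
        filter_upwards [hKo y hy] with z hz
        exact (smul_dirAt F hB (hltK z hz) (hp z)).symm
      have h5 : pb lg (FE.psi 1 a Pi o) y = pb u (FE.psi 1 a Pi o) y := by
        rw [pb_congr _ h4]
        exact hJ.os.pb_smul a (h1.1.differentiableAt (by simp)) h3
          (FE.ne_zero_of_unit h1.2.1) (dist_pos.2 (hp y).symm)
      rw [← h5, pb, map_smul]
      rfl)
    (by
      intro x hx
      have hxK : x ∉ Kc := fun h => by linarith [hK5 x h]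
      have hx0 : x ≠ 0 := fun h => by
        rw [h, norm_zero] at hx
        norm_num at hx
      change evalForm ((FE.FF F hD hB hdiam hl hJ hρ a).val H x) b = 0
      rw [FE.FF_lt F hD hB hdiam hl hJ hρ a (hAt x) (hltK x hxK)]
      have h1 := hfd x hx lg ((hlg x hxK).differentiableAt (by simp)) fun y z h => by
        change logMap e p (H y) = logMap e p (H z)
        rw [h]
      have h2 : iprod x (pb lg (FE.GG (FE.psi 1 a Pi o) ρ) x) = 0 := by
        rw [pb, pull_iprod, h1, Q.iprod_zero_left, map_zero]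
      have h3 := Q.evalForm_eq_zero_of_iprod b.toBasis hx0 h2
      rwa [b.coe_toBasis] at h3)
    (by
      intro x hx A
      have hxK : x ∉ Kc := fun h => by linarith [hK5 x h]
      have hx0 : x ≠ 0 := fun h => by
        rw [h, norm_zero] at hx
        norm_num at hx
      have hus : DifferentiableAt ℝ u x := (hu x hxK).1.differentiableAt (by simp)
      have h1 := hfd x hx u hus fun y z h => by
        change dirAt e p (H y) = dirAt e p (H z)
        rw [h]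
      obtain ⟨γ, v, hv, hγ0, hγ, hHγ⟩ := hrot x hx
      have h2 : fderiv ℝ u x v = 0 := fderiv_zero_of_const hus hγ0 hγ (by
          filter_upwards [hHγ] with t ht
          change dirAt e p (H (γ t)) = dirAt e p (H x)
          rw [ht])
      have h3 := evalForm_dx_pb b.toBasis h1 h2 hx0 hv (FE.psi 1 a Pi o) (c x) A
      rwa [b.coe_toBasis] at h3)
  exact hfin

/-- **(I6), for the concatenation of two homotopies of `ℝ⁴ \ 0`**, the second one ending in a
homogeneous and rotation invariant map. -/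
theorem exists_int_Hh_R4 (F : Facts e) (hD : 0 < D) (hB : InjGE e D)
    (hdiam : ∀ p q : M, dist p q ≤ D)
    (hl : ∀ x y : M, dist x y = D → finrank ℝ (Pl e D x y) = 2 * 1 + 2)
    (hJ : FE.LineP e D p 1 Pi o) (hρ : Rho e D p ρ r₀) (a : ℝ)
    {G₁ G₂ : R4 × ℝ → M} {p₀ : M} (h0 : ∀ x : R4, x ≠ 0 → G₁ (x, 0) = p₀)
    (h12 : ∀ x : R4, x ≠ 0 → G₁ (x, 1) = G₂ (x, 0))
    (hG₁ : ((dP R4).prod (Dif.lin ℝ)).Map (W.dM E M) G₁)
    (hG₂ : ((dP R4).prod (Dif.lin ℝ)).Map (W.dM E M) G₂)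
    (hhom : ∀ x : R4, x ≠ 0 → ∀ c : ℝ, 0 < c → G₂ (c • x, 1) = G₂ (x, 1))
    {k : ℝ} (hk : k ≠ 0) (hinv : ∀ x : R4, x ≠ 0 → ∀ t : ℝ, G₂ (Rot k (x, t), 1) = G₂ (x, 1))
    (hp : ∀ x, Hh G₁ G₂ p₀ x ≠ p) (hfar : ∀ x : R4, x ≠ 0 → dist p (G₂ (x, 1)) < D) :
    ∃ N : ℤ, ∫ x, evalForm ((Form.pull (Hh G₁ G₂ p₀) (map_Hh h0 h12 hG₁ hG₂)
      (FE.FF F hD hB hdiam hl hJ hρ a)).val id x) b4 = (12 * Real.pi ^ 2 * a) * N := by
  have hne : ∀ x : R4, 2 ≤ ‖x‖ → x ≠ 0 := fun x hx h => by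
    rw [h, norm_zero] at hx
    norm_num at hx
  have h := exists_int_Hh F hD hB hdiam hl hJ hρ a (EuclideanSpace.basisFun (Fin 4) ℝ)
    (map_Hh h0 h12 hG₁ hG₂) hp (fun x hx => by
      rw [Hh_far hx]
      refine hfar x fun h => ?_
      rw [h, norm_zero] at hx
      norm_num at hx) (fun x hx => by
      have h1 : ∀ᶠ t in 𝓝 (0 : ℝ), 0 < 1 + t ∧ 5 ≤ 3 * ‖(1 + t) • x‖ := by
        have h2 : ∀ᶠ t in 𝓝 (0 : ℝ), -1 / 6 < t := lt_mem_nhds (by norm_num)
        filter_upwards [h2] with t ht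
        have h3 : 0 < 1 + t := by linarith
        refine ⟨h3, ?_⟩
        rw [norm_smul, Real.norm_of_nonneg h3.le]
        nlinarith
      filter_upwards [h1] with t ht
      rw [Hh_far ht.2, Hh_far (x := x) (by linarith), hhom x (hne x hx) _ ht.1]) (fun x hx => by
      have hx0 := hne x hx
      refine ⟨fun t => Rot k (x, t), k • Jr x, fun r hr => ?_, Rot_zero _ _, ?_, ?_⟩
      · have h1 : k • inner ℝ (Jr x) (Jr x) = 0 := by
          have h2 := congrArg (fun z => inner ℝ z (Jr x)) hr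
          simp only [inner_smul_left, conj_trivial] at h2
          rw [smul_eq_mul, h2, real_inner_comm, inner_Jr_self, mul_zero]
        rw [smul_eq_mul, mul_eq_zero, inner_self_eq_zero] at h1
        exact h1.elim hk (Jr_ne_zero hx0)
      · have h1 := (hasFDerivAt_Rot k x 0).comp_hasDerivAt (0 : ℝ)
          (f := fun t : ℝ => (x, t)) (f' := ((0 : R4), (1 : ℝ)))
          ((hasDerivAt_const _ _).prodMk (hasDerivAt_id _))
        refine h1.congr_deriv ?_
        simp [Rot_zero]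
      · refine Filter.Eventually.of_forall fun t => ?_
        change Hh G₁ G₂ p₀ (Rot k (x, t)) = _
        rw [Hh_far (x := Rot k (x, t)) (by rw [norm_Rot]; linarith [show (2 : ℝ) ≤ ‖x‖ from hx]),
          Hh_far (x := x) (by linarith), hinv x hx0])
  rw [b4, OrthonormalBasis.coe_toBasis]
  exact h

end Vale.Agent.P231.S2I
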