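import Vale.Agent.P231.S2I.Main
import Vale.Agent.P231.S2I.Far
import Vale.Agent.P231.S2I.Cmp
import Vale.Agent.P231.S2I.NGeo
import Vale.Agent.P231.S2N.LinT
import Vale.Agent.P231.FE.Lin
import Vale.Agent.P231.WQ.Psi
import Vale.Agent.P231.H304.Alpha

/-!
# P231, stage 2: integrality for `l = 3`, final form
-/

set_option maxSynthPendingDepth 3
set_option linter.unusedSectionVars false
set_option linter.unusedVariables false

open Bundle Manifold Set Filter Module MeasureTheory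
open scoped ContDiff Manifold Topology Real

namespace Vale.Agent.P231.S2I

noncomputable section

open Vale.Agent.P234 Vale.Agent.P231 Vale.Agent.P231.Fm Vale.Agent.P231.W Vale.Agent.P231.WR
  Vale.Agent.P231.H766 Vale.Agent.P231.H775 Vale.Agent.P231.S2I3 Vale.Agent.P231.S2N
  Vale.Agent.P231.H584 Vale.Agent.P231.H649

theorem area_four : S2II.area 4 = 2 * π ^ 2 := by
  rw [S2II.area_eq (by norm_num)]
  have h1 : ((4 : ℕ) : ℝ) / 2 = 2 := by norm_num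
  have h2 : √π ^ 4 = π ^ 2 := by
    have := Real.sq_sqrt Real.pi_pos.le
    calc √π ^ 4 = (√π ^ 2) ^ 2 := by ring
      _ = π ^ 2 := by rw [this]
  rw [h1, Real.Gamma_two, h2, div_one]

theorem kappa_one (a : ℝ) : S2II.kappa 1 a = |a| * (12 * π ^ 2) := by
  have h : S2II.kappa 1 a = |a * ((2 * 1 + 1).factorial : ℝ)| * S2II.area 4 := rfl
  rw [h, area_four, abs_mul]
  have h2 : ((2 * 1 + 1).factorial : ℝ) = 6 := by norm_num [Nat.factorial]
  rw [h2, abs_of_pos (by norm_num : (0 : ℝ) < 6)]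
  ring

variable {E : Type*} [NormedAddCommGroup E] [NormedSpace ℝ E]
  {M : Type*} [MetricSpace M] [ChartedSpace E M]
  [RiemannianBundle (fun x : M => TangentSpace 𝓘(ℝ, E) x)]
  {e : ∀ x : M, TangentSpace 𝓘(ℝ, E) x → M}
  [FiniteDimensional ℝ E] [IsManifold 𝓘(ℝ, E) ∞ M]
  [IsContMDiffRiemannianBundle 𝓘(ℝ, E) ∞ E (fun x : M => TangentSpace 𝓘(ℝ, E) x)]
  [CompactSpace M] [ConnectedSpace M] [IsRiemannianManifold 𝓘(ℝ, E) M]

variable (F : Facts e) {D : ℝ} (hD : 0 < D) (hB : InjGE e D) (hdiam : ∀ p q : M, dist p q ≤ D)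

/-- **the integral of the closed form over a four dimensional plane, any base point of the
form** -/
theorem int_N (hdim : 5 < finrank ℝ E)
    (hl : ∀ x y : M, dist x y = D → finrank ℝ (H775.Pl e D x y) = 2 * 1 + 2)
    {p : M}
    {Pi : TangentSpace 𝓘(ℝ, E) p → TangentSpace 𝓘(ℝ, E) p →L[ℝ] TangentSpace 𝓘(ℝ, E) p}
    {o : TangentSpace 𝓘(ℝ, E) p → Fm.Lam (TangentSpace 𝓘(ℝ, E) p)}
    {ρ₀ : TangentSpace 𝓘(ℝ, E) p → ℝ} {r₀ : ℝ}
    (hJ : FE.LineP e D p 1 Pi o) (hρ₀ : WE.Rho e D p ρ₀ r₀) {a : ℝ} (ha : a ≠ 0)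
    (Hm : R4 → M) (hH : (Dif.lin R4).Map (dM E M) Hm) (q : M)
    (hq : ∀ x, Hm x ≠ q) (hqD : ∀ x, 5 ≤ 3 * ‖x‖ → dist (Hm x) q < D)
    (hfar : ∀ x, 5 ≤ 3 * ‖x‖ → (∀ c : ℝ, 1 ≤ c → Hm (c • x) = Hm x) ∧
        ∀ t : ℝ, Hm (Rot (π / (2 * D)) (x, t)) = Hm x) :
    ∃ N : ℤ, ∫ x, evalForm ((Form.pull Hm hH (FE.FF F hD hB hdiam hl hJ hρ₀ a)).val id x)
      (EuclideanSpace.basisFun (Fin 4) ℝ) = S2II.kappa 1 a * N := by
  have hk : π / (2 * D) ≠ 0 := div_ne_zero Real.pi_ne_zero (mul_ne_zero two_ne_zero hD.ne')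
  obtain ⟨o', hJ'⟩ := FE.exists_line F hD hB hdiam hl (by omega) q
  obtain ⟨ρ', r', hρ'⟩ := WQ.exists_rho (E := E) (p := q) (e := e) hD
  obtain ⟨s, Γ, hs, hΓ⟩ := exists_cmp F hD hB hdiam hdim hl hJ hρ₀ hJ' hρ' ha
  have hrad : ∀ x : R4, 2 ≤ ‖x‖ → ∀ᶠ t in 𝓝 (0 : ℝ), Hm ((1 + t) • x) = Hm x := by
    intro x hx
    have h2 : ∀ᶠ t in 𝓝 (0 : ℝ), -1 / 6 < t := lt_mem_nhds (by norm_num)
    filter_upwards [h2] with t ht
    have h3 : 0 < 1 + t := by linarith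
    have h4 : 5 ≤ 3 * ‖(1 + t) • x‖ := by
      rw [norm_smul, Real.norm_of_nonneg h3.le]
      nlinarith
    rcases le_total 0 t with h | h
    · exact (hfar x (by linarith)).1 (1 + t) (by linarith)
    · have h5 := (hfar ((1 + t) • x) h4).1 (1 + t)⁻¹ ((one_le_inv₀ h3).2 (by linarith))
      rw [smul_smul, inv_mul_cancel₀ h3.ne', one_smul] at h5
      exact h5.symm
  have hrot : ∀ x : R4, 2 ≤ ‖x‖ → ∃ (c : ℝ → R4) (v : R4),
      (∀ r : ℝ, v ≠ r • x) ∧ c 0 = x ∧ HasDerivAt c v 0 ∧ ∀ᶠ t in 𝓝 (0 : ℝ), Hm (c t) = Hm x := by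
    intro x hx
    have hx0 : x ≠ 0 := fun h => by
      rw [h, norm_zero] at hx
      norm_num at hx
    refine ⟨fun t => Rot (π / (2 * D)) (x, t), (π / (2 * D)) • Jr x, fun r hr => ?_,
      Rot_zero _ _, ?_, ?_⟩
    · have h1 : (π / (2 * D)) • inner ℝ (Jr x) (Jr x) = 0 := by
        have h2 := congrArg (fun z => inner ℝ z (Jr x)) hr
        simp only [inner_smul_left, conj_trivial] at h2
        rw [smul_eq_mul, h2, real_inner_comm, inner_Jr_self, mul_zero]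
      rw [smul_eq_mul, mul_eq_zero, inner_self_eq_zero] at h1
      exact h1.elim hk (Jr_ne_zero hx0)
    · have h1 := (hasFDerivAt_Rot (π / (2 * D)) x 0).comp_hasDerivAt (0 : ℝ)
        (f := fun t : ℝ => (x, t)) (f' := ((0 : R4), (1 : ℝ)))
        ((hasDerivAt_const _ _).prodMk (hasDerivAt_id _))
      refine h1.congr_deriv ?_
      simp [Rot_zero]
    · exact Filter.Eventually.of_forall fun t => (hfar x (by linarith)).2 t
  obtain ⟨N, hN⟩ := exists_int_Hh F hD hB hdiam hl hJ' hρ' a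
    (EuclideanSpace.basisFun (Fin 4) ℝ) hH hq (fun x hx => by
      rw [dist_comm]
      exact hqD x hx) hrad hrot
  -- comparison
  have h5 : ∀ x : R4, evalForm ((Form.pull Hm hH (FE.FF F hD hB hdiam hl hJ hρ₀ a)).val id x)
      (EuclideanSpace.basisFun (Fin 4) ℝ) =
      s * evalForm ((Form.pull Hm hH (FE.FF F hD hB hdiam hl hJ' hρ' a)).val id x)
        (EuclideanSpace.basisFun (Fin 4) ℝ) +
      evalForm ((Form.pull Hm hH Γ.d).val id x) (EuclideanSpace.basisFun (Fin 4) ℝ) := by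
    intro x
    rw [hΓ, pull_add', pull_smul', Form.add_val, Form.smul_val, Q.evalForm_add, Q.evalForm_smul]
  have hid : ∀ x : R4, (Dif.lin R4).At (id : R4 → R4) x := fun x => Sm.of_contDiff contDiff_id x
  have hint : ∀ w : Form (dM E M), Integrable (fun x : R4 =>
      evalForm ((Form.pull Hm hH w).val id x) (EuclideanSpace.basisFun (Fin 4) ℝ)) volume := by
    intro w
    have hws : ContDiff ℝ ∞ ((Form.pull Hm hH w).val (id : R4 → R4)) :=
      contDiff_iff_contDiffAt.2 fun x => (Form.pull Hm hH w).smooth (hid x)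
    refine Continuous.integrable_of_hasCompactSupport
      ((evalL (EuclideanSpace.basisFun (Fin 4) ℝ)).continuous.comp hws.continuous) ?_
    refine HasCompactSupport.intro (isCompact_closedBall (0 : R4) 2) fun x hx => ?_
    rw [mem_closedBall_zero_iff, not_le] at hx
    have hx0 : x ≠ 0 := fun h => by
      rw [h, norm_zero] at hx
      norm_num at hx
    have h6 := eval_far (EuclideanSpace.basisFun (Fin 4) ℝ).toBasis hx0
      (iprod_far hH hk hfar w (by linarith)).1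
    rwa [OrthonormalBasis.coe_toBasis] at h6
  have h7 : ∫ x, evalForm ((Form.pull Hm hH (FE.FF F hD hB hdiam hl hJ hρ₀ a)).val id x)
      (EuclideanSpace.basisFun (Fin 4) ℝ) = s * ((12 * π ^ 2 * a) * N) := by
    rw [integral_congr_ae (Eventually.of_forall h5), integral_add ((hint _).const_mul s) (hint _),
      integral_const_mul, hN, integral_far hH hk hfar, add_zero]
  rw [h7, kappa_one]
  have h8 : s = 1 ∨ s = -1 := by
    have h9 : (s - 1) * (s + 1) = 0 := by linear_combination hs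
    rcases mul_eq_zero.1 h9 with h | h
    · exact Or.inl (by linarith)
    · exact Or.inr (by linarith)
  rcases h8 with rfl | rfl <;> rcases abs_choice a with h9 | h9
  · exact ⟨N, by rw [h9]; ring⟩
  · exact ⟨-N, by rw [h9]; push_cast; ring⟩
  · exact ⟨-N, by rw [h9]; push_cast; ring⟩
  · exact ⟨N, by rw [h9]; ring⟩

/-- the connection form of the lifted flow -/
theorem pull_Lam_alpha {Lm : Pr e D × ℝ → Pr e D} (hLm : ((dPr e D).prod (Dif.lin ℝ)).Map (dPr e D) Lm)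
    (hv : ∀ b t, (Lm (b, t)).v = phi F (b.v, t)) :
    Form.pull Lm hLm (Form.pull Pr.v map_v (CV.alpha E M)) =
      pr (Form.pull Pr.v map_v (CV.alpha E M)) + dt := by
  have h1 : ((dPr e D).prod (Dif.lin ℝ)).Map (dUT E M) (fun p => (Lm p).v) := fun h => map_v (hLm h)
  have e1 : Form.pull Lm hLm (Form.pull Pr.v map_v (CV.alpha E M)) =
      Form.pull (fun p => (Lm p).v) h1 (CV.alpha E M) :=
    H584.pull_pull hLm map_v h1 (fun _ => rfl) _
  have e2 : Form.pull (fun p => (Lm p).v) h1 (CV.alpha E M) =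
      Form.pull (fun p : Pr e D × ℝ => (p.1.v, p.2)) (map_cyl map_v)
        (Form.pull (phi F) (map_phi F) (CV.alpha E M)) :=
    (H584.pull_pull (map_cyl map_v) (map_phi F) h1 (fun p => (hv p.1 p.2).symm) _).symm
  rw [e1, e2, CV.pull_phi_alpha F, pull_add', pull_pr map_v, pull_dt map_v]

/-- **INTEGRALITY FOR `l = 3`** -/
theorem int_a (hdim : 5 < finrank ℝ E)
    (hl : ∀ x y : M, dist x y = D → finrank ℝ (H775.Pl e D x y) = 2 * 1 + 2)
    {p : M}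
    {Pi : TangentSpace 𝓘(ℝ, E) p → TangentSpace 𝓘(ℝ, E) p →L[ℝ] TangentSpace 𝓘(ℝ, E) p}
    {o : TangentSpace 𝓘(ℝ, E) p → Fm.Lam (TangentSpace 𝓘(ℝ, E) p)}
    {ρ₀ : TangentSpace 𝓘(ℝ, E) p → ℝ} {r₀ : ℝ}
    (hJ : FE.LineP e D p 1 Pi o) (hρ₀ : WE.Rho e D p ρ₀ r₀) {a' : ℝ} (ha' : a' ≠ 0)
    {T : UT E M → ℝ → E →ₗ[ℝ] E} {Lm : Pr e D × ℝ → Pr e D} {Y : Pr e D → E} {ε₀ : ℝ}
    (hT : S2I3.LT F hD hB hdiam T)
    (hTl : ∀ b t, vec' (Lm (b, t)).w = (nm (gm e (b.v, t)) (T b.v t (vec' b.w)))⁻¹ •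
      T b.v t (vec' b.w))
    (hL : PushL F hD hB hdiam Lm Y ε₀)
    (hrev : ∀ b t, Lm (rev F hD hB hdiam b, t) = rev F hD hB hdiam (Lm (b, -t)))
    {g : Pr e D × ℝ → M} (hg : ((dPr e D).prod (Dif.lin ℝ)).Map (dM E M) g)
    (hg0 : ∀ b, g (b, 0) = foot b.v) (hg1 : ∀ b t, g (Lm (b, t), 1) = g (b, 1))
    {b1 lf : Form (dPr e D)}
    (hb1 : b1 = J Lm hL.flow.map (2 * D)
      (Form.K (Form.pull g hg (FE.FF F hD hB hdiam hl hJ hρ₀ a')) -
        Form.pull (WR.Th F hD hB hdiam) (map_Th F hD hB hdiam)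
          (Form.K (Form.pull g hg (FE.FF F hD hB hdiam hl hJ hρ₀ a')))))
    (hlf : b1 = (-1 : ℝ) • L3.b0P F hD hB hdiam (FE.FF F hD hB hdiam hl hJ hρ₀ a') + lf.d)
    {a μ : ℝ} {ρ : Form (dPr e D)} (hρ : Basic Lm hL.flow.map ρ)
    (hrel : b1 ^ 2 = a • ((2 * D)⁻¹ • Form.pull Pr.v map_v (CV.alpha E M).d) ^ 2 +
      μ • (Form.pull (fun b => g (b, 1)) (map_at hg 1) (FE.FF F hD hB hdiam hl hJ hρ₀ a') +
          Form.pull (WR.Th F hD hB hdiam) (map_Th F hD hB hdiam)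
            (Form.pull (fun b => g (b, 1)) (map_at hg 1)
              (FE.FF F hD hB hdiam hl hJ hρ₀ a'))) + ρ.d)
    (c : ℤ) (hμ : μ = 2 * S2II.kappa 1 a' * c) :
    ∃ H : ℤ, a = S2II.kappa 1 a' ^ 2 * H := by
  have hk2 := S2II.b0P_isDeg F hD hB hdiam (l := 3) (by omega)
    (S2II.isDeg_FF F hD hB hdiam hl hJ hρ₀ a')
  obtain ⟨H, N, h⟩ := main_int F hD hB hdiam (hP := hl) (by omega) hL hrev hT hTl hg hg0 hg1
    (FE.FF_d F hD hB hdiam hl hJ hρ₀ a') (S2II.isDeg_FF F hD hB hdiam hl hJ hρ₀ a')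
    (α := Form.pull Pr.v map_v (CV.alpha E M)) (pull_Lam_alpha F hL.flow.map hL.v)
    (by
      rw [← Form.pull_sg, CV.isDeg_alpha.sg_of_odd (by norm_num)]
      exact map_neg (Form.pullA Pr.v map_v) (CV.alpha E M)) hb1 (a := a) (μ := μ) hρ
    (by rw [← Form.pull_d]; exact hrel) (ε := -1) (k := 2 * S2II.kappa 1 a') (by norm_num) hlf
    (S2II.b0P_d F hD hB hdiam (FE.FF_d F hD hB hdiam hl hJ hρ₀ a')) hk2
    (fun p => ⟨_, _, S2II.cut_rct 3, by
      rw [IS_eq_kf, ← sq_abs, S2II.abs_kf_b0P F hD hB hdiam (by omega) hl hJ hρ₀ a']⟩)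
    (κ := S2II.kappa 1 a') (int_N F hD hB hdiam hdim hl hJ hρ₀ ha')
  refine ⟨-(H + c * N), ?_⟩
  rw [hμ] at h
  push_cast
  linear_combination h / 4

end

end Vale.Agent.P231.S2I
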