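import Vale.Agent.P231.S2I.Eval2

/-!
# P231, stage 2: integrality, part (I4) with an arbitrary primitive at time `0`
-/

set_option linter.unusedSectionVars false
set_option linter.unusedVariables false

open MeasureTheory Set Module Filter Topology
open scoped ContDiff

namespace Vale.Agent.P231.S2I

open Fm W H584

variable {X S M : Type*} {dX : Dif X} {dS : Dif S} {dM : Dif M}

/-- **(I4), formal evaluation**, with an arbitrary primitive of `b` at time `0` -/
theorem eval_prim {T : ℝ} (hT : T ≠ 0) {Λ : S × ℝ → S} (hΛ : IsFlow dS T Λ)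
    {foot : S → M} (hfoot : dS.Map dM foot)
    {A : S → S} (hA : dS.Map dS A) (hAf : ∀ s, foot (A s) = foot s)
    (hAΛ : ∀ s t, A (Λ (s, t)) = Λ (A s, t))
    {g : S × ℝ → M} (hg : (dS.prod (Dif.lin ℝ)).Map dM g) (hg0 : ∀ s, g (s, 0) = foot s)
    (hg1 : ∀ s t, g (Λ (s, t), 1) = g (s, 1))
    {F : Form dM} (hF : F.d = 0) (hF4 : WF.IsDeg F 4)
    {α : Form dS} (hα : Form.pull Λ hΛ.map α = pr α + dt) (hαo : α.sg = -α)
    {b : Form dS} (hb : b = J Λ hΛ.map T (Form.K (Form.pull g hg F) -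
      Form.pull A hA (Form.K (Form.pull g hg F))))
    {a μ : ℝ} {ρ : Form dS} (hρ : Basic Λ hΛ.map ρ)
    (hrel : b * b = a • ((T⁻¹ • α.d) * (T⁻¹ • α.d)) +
      μ • (Form.pull (fun s => g (s, 1)) (map_at hg 1) F +
          Form.pull A hA (Form.pull (fun s => g (s, 1)) (map_at hg 1) F)) + ρ.d)
    {T' : ℝ} (hT' : T' ≠ 0) {ψ : X × ℝ → X} (hψ : IsFlow dX T' ψ)
    {C : X × ℝ → S} (hC : (dX.prod (Dif.lin ℝ)).Map dS C)
    (hCψ : ∀ x t, C (ψ (x, t), 1) = Λ (C (x, 1), t))
    {I : Form dX →ₗ[ℝ] ℝ} (hI : ∀ w : Form dX, I w.d = 0)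
    (hIψ : ∀ w : Form dX, Basic ψ hψ.map w → I w = 0)
    (hI0 : ∀ w : Form dS, I (Form.pull (fun x => C (x, 0)) (map_at hC 0) w) = 0)
    (hIb : I (Form.pull (fun x => C (x, 1)) (map_at hC 1) (α * b)) = 0)
    {τ0 : Form dX} (hτ01 : WF.IsDeg τ0 1)
    (hτ0 : τ0.d = Form.pull (fun x => C (x, 0)) (map_at hC 0) b)
    (hc : WF.SConn dX) (x₀ : X) :
    a * I (Form.pull (fun x => C (x, 1)) (map_at hC 1) ((T⁻¹ • α) * (T⁻¹ • α.d))) =
      -I (τ0 * τ0.d) - 2 * μ *
        (I (Form.K (Form.pull (fun p => foot (C p))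
          (Dif.Map.comp (f := C) (g := foot) hfoot hC) F)) +
        I (Form.pull (fun x => C (x, 1)) (map_at hC 1) (Form.K (Form.pull g hg F)))) := by
  have hFe : F.sg = F := hF4.sg_even (k := 2)
  set Kg := Form.K (Form.pull g hg F) with hKg
  set Fp := Form.pull (fun s => g (s, 1)) (map_at hg 1) F with hFp
  set Fm := Form.pull A hA Fp with hFm
  set δ := Kg - Form.pull A hA Kg with hδ
  set j : X → S := fun x => C (x, 1) with hjdef
  have hj : dX.Map dS j := map_at hC 1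
  have hj0 : dX.Map dS (fun x => C (x, 0)) := map_at hC 0
  -- degrees
  have hKg3 : WF.IsDeg Kg 3 := WF.IsDeg.K (WF.IsDeg.pull hg hF4)
  have hδ3 : WF.IsDeg δ 3 := WF.IsDeg.sub hKg3 (WF.IsDeg.pull hA hKg3)
  have hb2 : WF.IsDeg b 2 := by
    rw [hb]
    have h1 : WF.IsDeg (Form.pull Λ hΛ.map δ) 3 := WF.IsDeg.pull hΛ.map hδ3
    have h2 : WF.IsDeg (Form.pull (fun p : S × ℝ => (p.1, T * p.2)) (map_scale T)
      (Form.pull Λ hΛ.map δ)) 3 := WF.IsDeg.pull (map_scale T) h1
    have h3 : WF.IsDeg (Form.K (Form.pull (fun p : S × ℝ => (p.1, T * p.2)) (map_scale T)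
      (Form.pull Λ hΛ.map δ))) 2 := WF.IsDeg.K h2
    exact @h3
  have hbe : b.sg = b := hb2.sg_even (k := 1)
  -- differentials
  have hKgd : Kg.d = Fp - Form.pull foot hfoot F := by
    have h := homotopy' (Form.pull g hg F)
    rw [← Form.pull_d, hF, pull_zero', K_zero, zero_add, at_pull_of hg] at h
    have h0 : at_ 0 (Form.pull g hg F) = Form.pull foot hfoot F :=
      pull_pull (Form.map_slice 0) hg hfoot hg0 F
    rw [h0] at h
    exact h.symm
  have hAfoot : Form.pull A hA (Form.pull foot hfoot F) = Form.pull foot hfoot F :=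
    pull_pull hA hfoot hfoot hAf F
  have hδd : δ.d = Fp - Fm := by
    rw [hδ, Form.d_sub, ← Form.pull_d, hKgd, pull_sub', hAfoot]
    abel
  have hFpb : Basic Λ hΛ.map Fp := basic_pull (map_at hg 1) hg1 F
  have hFmb : Basic Λ hΛ.map Fm := by
    have h1 : dS.Map dM (fun s => g (A s, 1)) := fun h => map_at hg 1 (hA h)
    have h2 : Fm = Form.pull (fun s => g (A s, 1)) h1 F :=
      pull_pull hA (map_at hg 1) h1 (fun s => rfl) F
    rw [h2]
    exact basic_pull h1 (fun s t => by rw [hAΛ, hg1]) F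
  have hδb : Basic Λ hΛ.map δ.d := by
    rw [hδd]
    exact Basic.sub hFpb hFmb
  have hbd : b.d = 0 := by
    have h3 := J_d hΛ δ
    rw [J_of_basic T hδb, ← hb] at h3
    exact neg_eq_zero.1 h3.symm
  have hbb : Basic Λ hΛ.map b := by
    rw [hb]
    exact J_basic hΛ δ
  -- pull back by `j`
  have hIΛ : ∀ w, Basic Λ hΛ.map w → I (Form.pull j hj w) = 0 := fun w hw => by
    refine hIψ _ ?_
    rw [basic_def]
    have h1 : (dX.prod (Dif.lin ℝ)).Map dS (fun p => j (ψ p)) :=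
      Dif.Map.comp (f := ψ) (g := j) hj hψ.map
    have h2 : (dX.prod (Dif.lin ℝ)).Map dS (fun p => Λ (j p.1, p.2)) :=
      Dif.Map.comp (f := fun p : X × ℝ => (j p.1, p.2)) (g := Λ) hΛ.map (map_cyl hj)
    have e1 : Form.pull ψ hψ.map (Form.pull j hj w) = Form.pull (fun p => j (ψ p)) h1 w :=
      pull_pull hψ.map hj h1 (fun _ => rfl) w
    have e2 : Form.pull (fun p => j (ψ p)) h1 w =
        Form.pull (fun p : X × ℝ => (j p.1, p.2)) (map_cyl hj) (Form.pull Λ hΛ.map w) :=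
      (pull_pull (map_cyl hj) hΛ.map h1 (fun p => (hCψ _ _).symm) w).symm
    rw [e1, e2, hw, pull_pr]
  have hjα : Form.pull ψ hψ.map (Form.pull j hj α) = pr (Form.pull j hj α) + dt := by
    have h1 : (dX.prod (Dif.lin ℝ)).Map dS (fun p => j (ψ p)) :=
      Dif.Map.comp (f := ψ) (g := j) hj hψ.map
    have e1 : Form.pull ψ hψ.map (Form.pull j hj α) = Form.pull (fun p => j (ψ p)) h1 α :=
      pull_pull hψ.map hj h1 (fun _ => rfl) α
    have e2 : Form.pull (fun p => j (ψ p)) h1 α =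
        Form.pull (fun p : X × ℝ => (j p.1, p.2)) (map_cyl hj) (Form.pull Λ hΛ.map α) :=
      (pull_pull (map_cyl hj) hΛ.map h1 (fun p => (hCψ _ _).symm) α).symm
    rw [e1, e2, hα, pull_add', pull_pr hj, pull_dt hj]
  have hjbb : Basic ψ hψ.map (Form.pull j hj b) := by
    rw [basic_def]
    have h1 : (dX.prod (Dif.lin ℝ)).Map dS (fun p => j (ψ p)) :=
      Dif.Map.comp (f := ψ) (g := j) hj hψ.map
    have e1 : Form.pull ψ hψ.map (Form.pull j hj b) = Form.pull (fun p => j (ψ p)) h1 b :=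
      pull_pull hψ.map hj h1 (fun _ => rfl) b
    have e2 : Form.pull (fun p => j (ψ p)) h1 b =
        Form.pull (fun p : X × ℝ => (j p.1, p.2)) (map_cyl hj) (Form.pull Λ hΛ.map b) :=
      (pull_pull (map_cyl hj) hΛ.map h1 (fun p => (hCψ _ _).symm) b).symm
    rw [e1, e2, hbb, pull_pr]
  -- the integral of `δ`
  have hIδ : I (Form.pull j hj δ) = 0 := by
    have h := I_of_gysin hT hΛ hα hαo hI hj hIΛ hδb
    rw [← hb] at h
    have h' : I (Form.pull j hj (α * b)) = 0 := hIb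
    rw [h'] at h
    exact (mul_eq_zero.1 h).resolve_left hT
  -- the forms on the cylinder
  have hI0' : ∀ w : Form dS, I (at_ 0 (Form.pull C hC w)) = 0 := fun w => by
    rw [at_pull_of hC 0 w]
    exact hI0 _
  have hI1' : ∀ w : Form dS, at_ 1 (Form.pull C hC w) = Form.pull j hj w := fun w =>
    at_pull_of hC 1 w
  have hKd : ∀ w : Form dS, I (Form.K (Form.pull C hC w.d)) = I (Form.pull j hj w) := fun w => by
    rw [Form.pull_d, I_K_d hI, hI0', sub_zero, hI1']
  -- the right hand side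
  set N := I (Form.K (Form.pull (fun p => foot (C p))
          (Dif.Map.comp (f := C) (g := foot) hfoot hC) F)) + I (Form.pull j hj Kg) with hN
  have hNp : I (Form.K (Form.pull C hC Fp)) = N := by
    have h1 : Fp = Form.pull foot hfoot F + Kg.d := by rw [hKgd]; abel
    rw [h1, pull_add', Form.K_add, map_add, hKd, hN]
    congr 2
    exact congrArg _ (pull_pull hC hfoot _ (fun _ => rfl) F)
  have hNm : I (Form.K (Form.pull C hC Fm)) = N := by
    have h1 : Fm = Fp - δ.d := by rw [hδd]; abel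
    rw [h1, pull_sub', K_sub, map_sub, hKd, hIδ, sub_zero, hNp]
  -- the left hand side
  set B := Form.pull C hC b with hB
  have hBd : B.d = 0 := by rw [hB, ← Form.pull_d, hbd, pull_zero']
  have hBe : B.sg = B := by rw [hB, ← Form.pull_sg, hbe]
  have hτ0d : τ0.d = at_ 0 B := by
    rw [hτ0, hB, at_pull_of hC 0 b]
  have hsq := I_K_sq hI hBd hBe hτ0d
  have hB1 : at_ 1 B = Form.pull j hj b := hI1' b
  set lam := τ0 + Form.K B with hlam
  have hlam1 : WF.IsDeg lam 1 := WF.IsDeg.add hτ01 (WF.IsDeg.K (WF.IsDeg.pull hC hb2))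
  have hlamd : lam.d = Form.pull j hj b := by
    have h3 : at_ 1 B - at_ 0 B = (Form.K B).d := by
      rw [homotopy', hBd, K_zero, zero_add]
    rw [hlam, Form.d_add, hτ0d, ← h3, ← hB1]
    abel
  -- `I (λ dλ) = 0`
  have hJlam : J ψ hψ.map T' lam = WF.ptv (J ψ hψ.map T' lam) x₀ • 1 := by
    have h0 : WF.IsDeg (J ψ hψ.map T' lam) 0 := by
      have h1 : WF.IsDeg (Form.pull ψ hψ.map lam) 1 := WF.IsDeg.pull hψ.map hlam1
      have h2 : WF.IsDeg (Form.pull (fun p : X × ℝ => (p.1, T' * p.2)) (map_scale T')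
        (Form.pull ψ hψ.map lam)) 1 := WF.IsDeg.pull (map_scale T') h1
      have h3 : WF.IsDeg (Form.K (Form.pull (fun p : X × ℝ => (p.1, T' * p.2)) (map_scale T')
        (Form.pull ψ hψ.map lam))) 0 := WF.IsDeg.K h2
      exact @h3
    have h1 : (J ψ hψ.map T' lam).d = 0 := by
      have h3 := J_d hψ lam
      rw [hlamd, J_of_basic T' hjbb] at h3
      exact neg_eq_zero.1 h3.symm
    have h2 := WF.const_of_closed hc h0 h1 x₀
    rw [Algebra.algebraMap_eq_smul_one] at h2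
    exact h2
  have hjbd : (Form.pull j hj b).d = 0 := by rw [← Form.pull_d, hbd, pull_zero']
  have hjαo : (Form.pull j hj α).sg = -Form.pull j hj α := by
    rw [← Form.pull_sg, hαo]
    exact map_neg (Form.pullA j hj) α
  have hll : I (lam * Form.pull j hj b) = 0 := by
    have hbas : Basic ψ hψ.map (lam * Form.pull j hj b).d := by
      rw [d_mul_closed _ hjbd, hlamd]
      exact Basic.mul hjbb hjbb
    have h := avg hψ hjα hjαo hI hIψ hbas
    rw [J_mul_basic _ _ hjbb, hJlam, smul_mul_assoc, one_mul, mul_smul_comm, map_smul,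
      ← pull_mul'] at h
    have h' : I (Form.pull j hj (α * b)) = 0 := hIb
    rw [h', smul_zero] at h
    exact (mul_eq_zero.1 h).resolve_left hT'
  have hKbb : I (Form.K (Form.pull C hC (b * b))) = -I (τ0 * τ0.d) := by
    rw [pull_mul', ← hB, hsq, hB1, hll, ← hτ0d, zero_sub]
  -- the form `Ξ`
  set e := T⁻¹ • α.d with he
  have hed : e.d = 0 := by rw [he, Form.d_smul, Form.d_d, smul_zero]
  set Xi := a • ((T⁻¹ • α) * e) + ρ with hXi
  have hXid : Xi.d = b * b - μ • (Fp + Fm) := by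
    rw [hXi, Form.d_add, Form.d_smul, d_mul_closed _ hed, Form.d_smul, hrel, ← he]
    abel
  have hfin := hKd Xi
  rw [hXid, pull_sub', pull_smul', pull_add', K_sub, Form.K_smul, Form.K_add, map_sub, map_smul,
    map_add, hKbb, hNp, hNm, hXi, pull_add', map_add, hIΛ _ hρ, add_zero, pull_smul', map_smul,
    smul_eq_mul, smul_eq_mul] at hfin
  change a * I (Form.pull j hj ((T⁻¹ • α) * e)) = _
  rw [← hfin]
  ring

/-- **(I4), formal evaluation, in the shape of the quadratic relation `A3.rel4`**: `σ = Λ_c ∘ A`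
is the deck transformation, `C (·, 1) = E (·, 0)` the sphere, `E` the homotopy from the sphere
through `b₀` to the sphere through `A b₀`, `C` the homotopy into one fibre. -/
theorem eval_sigma_prim {T : ℝ} (hT : T ≠ 0) {Λ : S × ℝ → S} (hΛ : IsFlow dS T Λ)
    {foot : S → M} (hfoot : dS.Map dM foot)
    {A σ : S → S} {c : ℝ} (hA : dS.Map dS A) (hσ : dS.Map dS σ) (hσA : ∀ s, σ s = Λ (A s, c))
    (hAf : ∀ s, foot (A s) = foot s) (hAA : ∀ s, A (A s) = s)
    (hAΛ : ∀ s t, A (Λ (s, t)) = Λ (A s, t))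
    {g : S × ℝ → M} (hg : (dS.prod (Dif.lin ℝ)).Map dM g) (hg0 : ∀ s, g (s, 0) = foot s)
    (hg1 : ∀ s t, g (Λ (s, t), 1) = g (s, 1))
    {F : Form dM} (hF : F.d = 0) (hF4 : WF.IsDeg F 4)
    {α : Form dS} (hα : Form.pull Λ hΛ.map α = pr α + dt) (hαo : α.sg = -α)
    {b : Form dS} (hb : b = J Λ hΛ.map T (Form.K (Form.pull g hg F) -
      Form.pull σ hσ (Form.K (Form.pull g hg F))))
    {a μ : ℝ} {ρ : Form dS} (hρ : Basic Λ hΛ.map ρ)
    (hrel : b ^ 2 = a • (T⁻¹ • α.d) ^ 2 +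
      μ • (Form.pull (fun s => g (s, 1)) (map_at hg 1) F +
          Form.pull σ hσ (Form.pull (fun s => g (s, 1)) (map_at hg 1) F)) + ρ.d)
    {T' : ℝ} (hT' : T' ≠ 0) {ψ : X × ℝ → X} (hψ : IsFlow dX T' ψ)
    {C : X × ℝ → S} (hC : (dX.prod (Dif.lin ℝ)).Map dS C)
    {E : X × ℝ → S} (hE : (dX.prod (Dif.lin ℝ)).Map dS E)
    (hEψ : ∀ x t s, E (ψ (x, t), s) = Λ (E (x, s), t)) (hCE : ∀ x, C (x, 1) = E (x, 0))
    {r : X → X} (hr : dX.Map dX r) (hAE : ∀ x, A (E (x, 0)) = E (r x, 1))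
    {I : Form dX →ₗ[ℝ] ℝ} (hI : ∀ w : Form dX, I w.d = 0)
    (hIψ : ∀ w : Form dX, Basic ψ hψ.map w → I w = 0)
    (hIr : ∀ w : Form dX, I (Form.pull r hr w) = I w)
    (hI0 : ∀ w : Form dS, I (Form.pull (fun x => C (x, 0)) (map_at hC 0) w) = 0)
    {τ0 : Form dX} (hτ01 : WF.IsDeg τ0 1)
    (hτ0 : τ0.d = Form.pull (fun x => C (x, 0)) (map_at hC 0) b)
    (hc : WF.SConn dX) (x₀ : X) :
    a * I (Form.pull (fun x => C (x, 1)) (map_at hC 1) ((T⁻¹ • α) * (T⁻¹ • α.d))) =
      -I (τ0 * τ0.d) - 2 * μ *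
        (I (Form.K (Form.pull (fun p => foot (C p))
          (Dif.Map.comp (f := C) (g := foot) hfoot hC) F)) +
        I (Form.pull (fun x => C (x, 1)) (map_at hC 1) (Form.K (Form.pull g hg F)))) := by
  have hb' : b = J Λ hΛ.map T (Form.K (Form.pull g hg F) -
      Form.pull A hA (Form.K (Form.pull g hg F))) := by
    rw [hb, b_sigma hΛ hA hσ hσA hAΛ]
  have hFpb : Basic Λ hΛ.map (Form.pull (fun s => g (s, 1)) (map_at hg 1) F) :=
    basic_pull (map_at hg 1) hg1 F
  have hAb : Form.pull A hA b = -b := by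
    rw [hb']
    exact pull_A_b hΛ hA hAA hAΛ _
  have hbb : Basic Λ hΛ.map b := by
    rw [hb]
    exact J_basic hΛ _
  have hbd : b.d = 0 := by
    have hKgd : (Form.K (Form.pull g hg F)).d = Form.pull (fun s => g (s, 1)) (map_at hg 1) F -
        Form.pull foot hfoot F := by
      have h := homotopy' (Form.pull g hg F)
      rw [← Form.pull_d, hF, pull_zero', K_zero, zero_add, at_pull_of hg] at h
      have h0 : at_ 0 (Form.pull g hg F) = Form.pull foot hfoot F :=
        pull_pull (Form.map_slice 0) hg hfoot hg0 F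
      rw [h0] at h
      exact h.symm
    have hAfoot : Form.pull A hA (Form.pull foot hfoot F) = Form.pull foot hfoot F :=
      pull_pull hA hfoot hfoot hAf F
    have h3 := J_d hΛ (Form.K (Form.pull g hg F) - Form.pull A hA (Form.K (Form.pull g hg F)))
    have h4 : Form.pull A hA (Form.pull (fun s => g (s, 1)) (map_at hg 1) F) =
        Form.pull (fun s => g (A s, 1)) (fun h => map_at hg 1 (hA h)) F :=
      pull_pull hA (map_at hg 1) _ (fun s => rfl) F
    have h5 : Basic Λ hΛ.map (Form.pull (fun s => g (A s, 1)) (fun h => map_at hg 1 (hA h)) F) :=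
      basic_pull _ (fun s t => by rw [hAΛ, hg1]) F
    rw [Form.d_sub, ← Form.pull_d, hKgd, pull_sub', hAfoot, sub_sub_sub_cancel_right, h4, J_sub,
      J_of_basic T hFpb, J_of_basic T h5, sub_zero, ← hb'] at h3
    exact neg_eq_zero.1 h3.symm
  have hj : Form.pull (fun x => C (x, 1)) (map_at hC 1) (α * b) =
      Form.pull (fun x => E (x, 0)) (map_at hE 0) (α * b) :=
    Form.pull_congr _ _ (funext hCE) _
  have hIb : I (Form.pull (fun x => C (x, 1)) (map_at hC 1) (α * b)) = 0 := by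
    rw [hj]
    exact sym_zero hΛ hψ hα hA hAΛ hbb hbd hAb hI hIψ hE hEψ hr hIr hAE
  refine eval_prim hT hΛ hfoot hA hAf hAΛ hg hg0 hg1 hF hF4 hα hαo hb' hρ ?_ hT' hψ hC
    (fun x t => by rw [hCE, hCE, hEψ]) hI hIψ hI0 hIb hτ01 hτ0 hc x₀
  rw [← pow_two, ← pow_two, hrel, pull_sigma_of_basic hΛ hA hσ hσA hFpb]

end Vale.Agent.P231.S2I
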