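import Vale.Agent.P231.S2I.HPart
import Vale.Agent.P231.S2I.Eval3
import Vale.Agent.P231.S2I.DegC

/-!
# P231, stage 2: integrality, abstract assembly
-/

set_option linter.unusedSectionVars false
set_option linter.unusedVariables false

open MeasureTheory Set Module Filter Topology Metric
open scoped ContDiff

namespace Vale.Agent.P231.S2I

open Fm W H584
open Q (dR Cut)

variable {S M : Type*} {dS : Dif S} {dM : Dif M}

section Closed

variable {T : ℝ} {Λ : S × ℝ → S} (hΛ : IsFlow dS T Λ) {foot : S → M} (hfoot : dS.Map dM foot)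
    {A σ : S → S} {c : ℝ} (hA : dS.Map dS A) (hσ : dS.Map dS σ) (hσA : ∀ s, σ s = Λ (A s, c))
    (hAf : ∀ s, foot (A s) = foot s) (hAΛ : ∀ s t, A (Λ (s, t)) = Λ (A s, t))
    {g : S × ℝ → M} (hg : (dS.prod (Dif.lin ℝ)).Map dM g) (hg0 : ∀ s, g (s, 0) = foot s)
    (hg1 : ∀ s t, g (Λ (s, t), 1) = g (s, 1)) {F : Form dM} (hF : F.d = 0)

include hfoot hA hσA hAf hAΛ hg0 hg1 hF in
theorem b_closed {b : Form dS} (hb : b = J Λ hΛ.map T (Form.K (Form.pull g hg F) -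
      Form.pull σ hσ (Form.K (Form.pull g hg F)))) : b.d = 0 := by
  have hb' : b = J Λ hΛ.map T (Form.K (Form.pull g hg F) -
      Form.pull A hA (Form.K (Form.pull g hg F))) := by
    rw [hb, b_sigma hΛ hA hσ hσA hAΛ]
  have hFpb : Basic Λ hΛ.map (Form.pull (fun s => g (s, 1)) (map_at hg 1) F) :=
    basic_pull (map_at hg 1) hg1 F
  have hKgd : (Form.K (Form.pull g hg F)).d = Form.pull (fun s => g (s, 1)) (map_at hg 1) F -
      Form.pull foot hfoot F := by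
    have h := homotopy' (Form.pull g hg F)
    rw [← Form.pull_d, hF, pull_zero', K_zero, zero_add, at_pull_of hg] at h
    have h0 : at_ 0 (Form.pull g hg F) = Form.pull foot hfoot F :=
      pull_pull (Form.map_slice 0) hg hfoot hg0 F
    rw [h0] at h
    exact h.symm
  have hAfoot : Form.pull A hA (Form.pull foot hfoot F) = Form.pull foot hfoot F :=
    pull_pull hA hfoot hfoot hAf F
  have h3 := J_d hΛ (Form.K (Form.pull g hg F) - Form.pull A hA (Form.K (Form.pull g hg F)))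
  have h4 : Form.pull A hA (Form.pull (fun s => g (s, 1)) (map_at hg 1) F) =
      Form.pull (fun s => g (A s, 1)) (fun h => map_at hg 1 (hA h)) F :=
    pull_pull hA (map_at hg 1) _ (fun s => rfl) F
  have h5 : Basic Λ hΛ.map (Form.pull (fun s => g (A s, 1)) (fun h => map_at hg 1 (hA h)) F) :=
    basic_pull _ (fun s t => by rw [hAΛ, hg1]) F
  rw [Form.d_sub, ← Form.pull_d, hKgd, pull_sub', hAfoot, sub_sub_sub_cancel_right, h4, J_sub,
    J_of_basic T hFpb, J_of_basic T h5, sub_zero, ← hb'] at h3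
  exact neg_eq_zero.1 h3.symm

end Closed

theorem J_deg {T : ℝ} {Λ : S × ℝ → S} (hΛ : (dS.prod (Dif.lin ℝ)).Map dS Λ) {w : Form dS} {k : ℕ}
    (hw : WF.IsDeg w (k + 1)) : WF.IsDeg (J Λ hΛ T w) k := by
  have h1 : WF.IsDeg (Form.pull Λ hΛ w) (k + 1) := WF.IsDeg.pull hΛ hw
  have h2 : WF.IsDeg (Form.pull (fun p : S × ℝ => (p.1, T * p.2)) (map_scale T)
    (Form.pull Λ hΛ w)) (k + 1) := WF.IsDeg.pull (map_scale T) h1
  have h3 : WF.IsDeg (Form.K (Form.pull (fun p : S × ℝ => (p.1, T * p.2)) (map_scale T)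
    (Form.pull Λ hΛ w))) k := WF.IsDeg.K h2
  exact @h3

/-- **integrality, abstract assembly**: `C` is the homotopy from the sphere `j = C (·, 1)` to the
sphere `C (·, 0) = ι ∘ (first column of G)` in one fibre, `E` the homotopy from `j` to the
sphere through the antipode. -/
theorem asm {D : ℝ} (hD : D ≠ 0) {Λ : S × ℝ → S} (hΛ : IsFlow dS (2 * D) Λ)
    {foot : S → M} (hfoot : dS.Map dM foot)
    {A σ : S → S} (hA : dS.Map dS A) (hσ : dS.Map dS σ) (hσA : ∀ s, σ s = Λ (A s, D))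
    (hAf : ∀ s, foot (A s) = foot s) (hAA : ∀ s, A (A s) = s)
    (hAΛ : ∀ s t, A (Λ (s, t)) = Λ (A s, t))
    {g : S × ℝ → M} (hg : (dS.prod (Dif.lin ℝ)).Map dM g) (hg0 : ∀ s, g (s, 0) = foot s)
    (hg1 : ∀ s t, g (Λ (s, t), 1) = g (s, 1))
    {F : Form dM} (hF : F.d = 0) (hF4 : Form.IsDeg 4 F)
    {α : Form dS} (hα : Form.pull Λ hΛ.map α = pr α + dt) (hαo : α.sg = -α)
    {b1 : Form dS} (hb1 : b1 = J Λ hΛ.map (2 * D) (Form.K (Form.pull g hg F) -
      Form.pull σ hσ (Form.K (Form.pull g hg F))))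
    {a μ : ℝ} {ρ : Form dS} (hρ : Basic Λ hΛ.map ρ)
    (hrel : b1 ^ 2 = a • ((2 * D)⁻¹ • α.d) ^ 2 +
      μ • (Form.pull (fun s => g (s, 1)) (map_at hg 1) F +
          Form.pull σ hσ (Form.pull (fun s => g (s, 1)) (map_at hg 1) F)) + ρ.d)
    {C : Px R4 × ℝ → S} (hC : ((dPx R4).prod (Dif.lin ℝ)).Map dS C)
    {E : Px R4 × ℝ → S} (hE : ((dPx R4).prod (Dif.lin ℝ)).Map dS E)
    (hEψ : ∀ x t s, E (ψr (2 * D) (x, t), s) = Λ (E (x, s), t))
    (hCE : ∀ x, C (x, 1) = E (x, 0))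
    {r : Px R4 → Px R4} (hr : (dPx R4).Map (dPx R4) r) (hAE : ∀ x, A (E (x, 0)) = E (r x, 1))
    (hIr : ∀ w : Form (dPx R4), I3 (Form.pull r hr w) = I3 w)
    {G : R4 → M3} (hG : RotMap G) {ι : Px R3 → S} (hι : (dPx R3).Map dS ι)
    (hC0 : ∀ x, C (x, 0) = ι (gcol hG x)) {b0 l : Form dS} {ε k : ℝ} (hε : ε ^ 2 = 1)
    (hl : b1 = ε • b0 + l.d)
    (hb0 : ∃ ζ : R3 → Lam R3, SM ζ ∧ ∀ y : R3, y ≠ 0 →
      (Form.pull ι hι b0).val ret y = k • omE y + extd ζ y) :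
    ∃ H : ℤ, 4 * a = -(k ^ 2 * H) - 2 * μ * I3 (Form.K (Form.pull (fun p => foot (C p))
        (Dif.Map.comp (f := C) (g := foot) hfoot hC) F) +
      Form.pull (fun x => C (x, 1)) (map_at hC 1) (Form.K (Form.pull g hg F))) := by
  have h2D : 2 * D ≠ 0 := mul_ne_zero two_ne_zero hD
  have hC0m : (dPx R4).Map dS (fun x => C (x, 0)) := map_at hC 0
  obtain ⟨H, hH⟩ := exists_H hG hι hC0m hC0 hε hl hb0
  refine ⟨H, ?_⟩
  have hb1d : b1.d = 0 := b_closed hΛ hfoot hA hσ hσA hAf hAΛ hg hg0 hg1 hF hb1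
  have hF4' : WF.IsDeg F 4 := DegC.toWF hF4
  have hb2 : WF.IsDeg b1 2 := by
    rw [hb1]
    have h1 : WF.IsDeg (Form.K (Form.pull g hg F)) 3 := WF.IsDeg.K (WF.IsDeg.pull hg hF4')
    have h2 : WF.IsDeg (Form.K (Form.pull g hg F) - Form.pull σ hσ (Form.K (Form.pull g hg F))) 3 :=
      WF.IsDeg.sub h1 (WF.IsDeg.pull hσ h1)
    have h3 : WF.IsDeg (J Λ hΛ.map (2 * D) (Form.K (Form.pull g hg F) -
      Form.pull σ hσ (Form.K (Form.pull g hg F)))) 2 := J_deg hΛ.map h2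
    exact @h3
  have hc1 : (Form.pull (fun x => C (x, 0)) hC0m b1).d = 0 := by
    rw [← Form.pull_d, hb1d, pull_zero']
  have hc2 : Form.IsDeg 2 (Form.pull (fun x => C (x, 0)) hC0m b1) :=
    DegC.ofWF (WF.IsDeg.pull hC0m hb2)
  obtain ⟨τ0, hτ1, hτ0⟩ := px_low (EuclideanSpace.basisFun (Fin 4) ℝ) (j := 1) (by norm_num)
    hc1 hc2
  have hconn : ∀ x t, C (ψr (2 * D) (x, t), 1) = Λ (C (x, 1), t) := fun x t => by
    rw [hCE, hCE, hEψ]
  have h4 := eval_sigma_prim (T := 2 * D) h2D hΛ hfoot hA hσ hσA hAf hAA hAΛ hg hg0 hg1 hF hF4'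
    hα hαo hb1 hρ hrel (T' := 2 * (2 * D)) (mul_ne_zero two_ne_zero h2D) (isFlow_ψr h2D) hC hE
    hEψ hCE hr hAE (I := I3) I3_d (fun w hw => I3_basic h2D hw) hIr (fun w => by
      have e1 : Form.pull (fun x => C (x, 0)) hC0m w =
          Form.pull (gcol hG) (map_gcol hG) (Form.pull ι hι w) :=
        (pull_pull (map_gcol hG) hι hC0m (fun x => (hC0 x).symm) w).symm
      change I3 (Form.pull (fun x => C (x, 0)) hC0m w) = 0
      rw [e1]
      exact I3_gcol hG _) (DegC.toWF hτ1) hτ0.symm sConn_R4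
    (ret (EuclideanSpace.basisFun (Fin 4) ℝ 0))
  have h5 := I3_pull_conn h2D hΛ.map hα hαo (map_at hC 1) hconn
  rw [h5, hH τ0 hτ0.symm] at h4
  rw [map_add]
  linarith

end Vale.Agent.P231.S2I
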