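import Vale.Agent.P231.S2I.Sph
import Vale.Agent.P231.S2I.Lift
import Vale.Agent.P231.EN.Std

/-!
# P231, block S2-I (I5): the Hopf invariant of a sphere of rotations is an integer
-/

set_option linter.unusedSectionVars false

open Module MeasureTheory Set Metric Filter
open scoped ContDiff Topology Quaternion RealInnerProductSpace

noncomputable section

namespace Vale.Agent.P231.S2I

open Fm
open Q (dR Cut)
open EN.Std (nsq lam0 beta0 om2 chr)

section Alg

variable {E : Type*} [NormedAddCommGroup E] [NormedSpace ℝ E] [FiniteDimensional ℝ E]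

theorem alg2 (a0 a1 a2 a3 : E →L[ℝ] ℝ) (y0 y1 y2 y3 : ℝ) :
    (y0 ^ 2 + y1 ^ 2 - y2 ^ 2 - y3 ^ 2) •
      (((2 * y3) • dx a1 + (2 * y1) • dx a3 + (2 * y2) • dx a0 + (2 * y0) • dx a2) *
        ((2 * y2) • dx a1 + (2 * y1) • dx a2 - (2 * y3) • dx a0 - (2 * y0) • dx a3)) +
    (2 * (y1 * y3 + y0 * y2)) •
      (((2 * y2) • dx a1 + (2 * y1) • dx a2 - (2 * y3) • dx a0 - (2 * y0) • dx a3) *
        ((2 * y0) • dx a0 + (2 * y1) • dx a1 - (2 * y2) • dx a2 - (2 * y3) • dx a3)) +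
    (2 * (y1 * y2 - y0 * y3)) •
      (((2 * y0) • dx a0 + (2 * y1) • dx a1 - (2 * y2) • dx a2 - (2 * y3) • dx a3) *
        ((2 * y3) • dx a1 + (2 * y1) • dx a3 + (2 * y2) • dx a0 + (2 * y0) • dx a2)) =
    (2 * (y0 ^ 2 + y1 ^ 2 + y2 ^ 2 + y3 ^ 2)) •
      (((2 * y0) • dx a0 + (2 * y1) • dx a1 + (2 * y2) • dx a2 + (2 * y3) • dx a3) *
        (y0 • dx a1 - y1 • dx a0 + (y2 • dx a3 - y3 • dx a2))) -
      (4 * (y0 ^ 2 + y1 ^ 2 + y2 ^ 2 + y3 ^ 2) ^ 2) • (dx a0 * dx a1 + dx a2 * dx a3) := by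
  have h10 := dx_anticomm a1 a0
  have h20 := dx_anticomm a2 a0
  have h30 := dx_anticomm a3 a0
  have h21 := dx_anticomm a2 a1
  have h31 := dx_anticomm a3 a1
  have h32 := dx_anticomm a3 a2
  simp only [mul_add, add_mul, mul_sub, sub_mul, smul_mul_assoc, mul_smul_comm, dx_mul_self,
    smul_zero, h10, h20, h30, h21, h31, h32]
  module

end Alg

/-! ### the standard form on `ℝ³ \ 0` -/

/-- the coordinates of `ℝ³` -/
def pj (i : Fin 3) : (Fin 3 → ℝ) →L[ℝ] ℝ := ContinuousLinearMap.proj i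

/-- the square of the euclidean norm of `ℝ³` -/
def n3 (y : Fin 3 → ℝ) : ℝ := y 0 ^ 2 + y 1 ^ 2 + y 2 ^ 2

/-- the contraction of the volume form with the position vector -/
def vol2 (y : Fin 3 → ℝ) : Lam (Fin 3 → ℝ) :=
  y 0 • (dx (pj 1) * dx (pj 2)) + y 1 • (dx (pj 2) * dx (pj 0)) + y 2 • (dx (pj 0) * dx (pj 1))

/-- the closed 2-form on `ℝ³ \ 0` whose integral over the unit sphere is `1` -/
def om (y : Fin 3 → ℝ) : Lam (Fin 3 → ℝ) := ((4 * Real.pi)⁻¹ * (√(n3 y) ^ 3)⁻¹) • vol2 y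

theorem n3_pos {y : Fin 3 → ℝ} (hy : y ≠ 0) : 0 < n3 y := by
  by_contra h
  apply hy
  have h0 : y 0 ^ 2 + y 1 ^ 2 + y 2 ^ 2 ≤ 0 := not_lt.1 h
  funext i
  fin_cases i
  · change y 0 = 0
    nlinarith [sq_nonneg (y 0), sq_nonneg (y 1), sq_nonneg (y 2)]
  · change y 1 = 0
    nlinarith [sq_nonneg (y 0), sq_nonneg (y 1), sq_nonneg (y 2)]
  · change y 2 = 0
    nlinarith [sq_nonneg (y 0), sq_nonneg (y 1), sq_nonneg (y 2)]

theorem SM_om : SM om := by
  refine SM.of fun y hy => ?_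
  have h1 : ContDiffAt ℝ ∞ n3 y := by
    unfold n3
    fun_prop
  have h2 : ContDiffAt ℝ ∞ (fun y => √(n3 y)) y := h1.sqrt (n3_pos hy).ne'
  have h3 : ContDiffAt ℝ ∞ (fun y => (√(n3 y) ^ 3)⁻¹) y :=
    (h2.pow 3).inv (pow_ne_zero 3 (Real.sqrt_pos.2 (n3_pos hy)).ne')
  have h4 : ContDiffAt ℝ ∞ vol2 y := by
    unfold vol2
    fun_prop
  exact (contDiffAt_const.mul h3).smul h4

/-! ### the Hopf map in an orthonormal basis -/

section Coord

variable {E : Type*} [NormedAddCommGroup E] [InnerProductSpace ℝ E] [FiniteDimensional ℝ E]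
variable (b : OrthonormalBasis (Fin 4) ℝ E)

/-- coordinates -/
def cf (i : Fin 4) : E →L[ℝ] ℝ := innerSL ℝ (b i)

theorem cf_apply (i : Fin 4) (x : E) : cf b i x = ⟪b i, x⟫ := rfl

theorem cf_b (k i : Fin 4) : cf b k (b i) = if k = i then 1 else 0 := by
  rw [cf_apply]
  exact orthonormal_iff_ite.1 b.orthonormal k i

/-- even coordinates -/
def xx : Fin 2 → (E →L[ℝ] ℝ) := ![cf b 0, cf b 2]

/-- odd coordinates -/
def yy : Fin 2 → (E →L[ℝ] ℝ) := ![cf b 1, cf b 3]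

theorem nsq_expl (z : E) : nsq (xx b) (yy b) z =
    cf b 0 z ^ 2 + cf b 1 z ^ 2 + cf b 2 z ^ 2 + cf b 3 z ^ 2 := by
  rw [nsq, Fin.sum_univ_two]
  simp only [xx, yy, Matrix.cons_val_zero, Matrix.cons_val_one]
  ring

theorem nsq_eq (z : E) : nsq (xx b) (yy b) z = ‖z‖ ^ 2 := by
  rw [nsq_expl, ← b.sum_sq_norm_inner_right z, Fin.sum_univ_four]
  simp only [cf_apply, Real.norm_eq_abs, sq_abs]

theorem nsq_pos {z : E} (hz : z ≠ 0) : 0 < nsq (xx b) (yy b) z := by
  rw [nsq_eq]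
  have := norm_pos_iff.2 hz
  positivity

/-- the Hopf map -/
def hq (z : E) : Fin 3 → ℝ := ![cf b 0 z ^ 2 + cf b 1 z ^ 2 - cf b 2 z ^ 2 - cf b 3 z ^ 2,
  2 * (cf b 1 z * cf b 3 z + cf b 0 z * cf b 2 z),
  2 * (cf b 1 z * cf b 2 z - cf b 0 z * cf b 3 z)]

theorem n3_hq (z : E) : n3 (hq b z) = nsq (xx b) (yy b) z ^ 2 := by
  rw [nsq_expl]
  simp only [n3, hq, Matrix.cons_val_zero, Matrix.cons_val_one, Matrix.cons_val]
  ring

/-- the derivative of the Hopf map -/
def dhq (z : E) : Fin 3 → (E →L[ℝ] ℝ) :=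
  ![(2 * cf b 0 z) • cf b 0 + (2 * cf b 1 z) • cf b 1 - (2 * cf b 2 z) • cf b 2 -
      (2 * cf b 3 z) • cf b 3,
    (2 * cf b 3 z) • cf b 1 + (2 * cf b 1 z) • cf b 3 + (2 * cf b 2 z) • cf b 0 +
      (2 * cf b 0 z) • cf b 2,
    (2 * cf b 2 z) • cf b 1 + (2 * cf b 1 z) • cf b 2 - (2 * cf b 3 z) • cf b 0 -
      (2 * cf b 0 z) • cf b 3]

theorem hasFDerivAt_hq (z : E) : HasFDerivAt (hq b) (ContinuousLinearMap.pi (dhq b z)) z := by
  have h : ∀ i, HasFDerivAt (fun z => cf b i z) (cf b i) z := fun i => (cf b i).hasFDerivAt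
  rw [hasFDerivAt_pi']
  intro i
  fin_cases i
  · change HasFDerivAt (fun z => cf b 0 z ^ 2 + cf b 1 z ^ 2 - cf b 2 z ^ 2 - cf b 3 z ^ 2) _ z
    refine (((((h 0).pow 2).add ((h 1).pow 2)).sub ((h 2).pow 2)).sub ((h 3).pow 2)).congr_fderiv
      ?_
    ext v
    simp [dhq]
  · change HasFDerivAt (fun z => 2 * (cf b 1 z * cf b 3 z + cf b 0 z * cf b 2 z)) _ z
    refine ((((h 1).mul (h 3)).add ((h 0).mul (h 2))).const_mul 2).congr_fderiv ?_
    ext v
    simp [dhq]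
    ring
  · change HasFDerivAt (fun z => 2 * (cf b 1 z * cf b 2 z - cf b 0 z * cf b 3 z)) _ z
    refine ((((h 1).mul (h 2)).sub ((h 0).mul (h 3))).const_mul 2).congr_fderiv ?_
    ext v
    simp [dhq]
    ring

theorem contDiff_hq : ContDiff ℝ ∞ (hq b) := by
  rw [contDiff_pi]
  intro i
  fin_cases i
  · change ContDiff ℝ ∞ (fun z => cf b 0 z ^ 2 + cf b 1 z ^ 2 - cf b 2 z ^ 2 - cf b 3 z ^ 2)
    fun_prop
  · change ContDiff ℝ ∞ (fun z => 2 * (cf b 1 z * cf b 3 z + cf b 0 z * cf b 2 z))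
    fun_prop
  · change ContDiff ℝ ∞ (fun z => 2 * (cf b 1 z * cf b 2 z - cf b 0 z * cf b 3 z))
    fun_prop

theorem pull_pj (z : E) (i : Fin 3) :
    pull (fderiv ℝ (hq b) z) (dx (pj i)) = dx (dhq b z i) := by
  rw [pull_dx, (hasFDerivAt_hq b z).fderiv]
  rfl

/-- the primitive -/
def Ah (z : E) : Lam E := (-(2 * Real.pi)⁻¹) • beta0 (xx b) (yy b) z

theorem SM_beta : SM (beta0 (xx b) (yy b)) := by
  refine SM.of fun z hz => ?_
  exact ((EN.Std.contDiff_nsq _ _).contDiffAt.inv (nsq_pos b hz).ne').smul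
    (EN.Std.contDiff_lam0 _ _).contDiffAt

theorem SM_Ah : SM (Ah b) := (SM_beta b).smul _

theorem hopf_prim {z : E} (hz : z ≠ 0) : pb (hq b) om z = extd (Ah b) z := by
  have hN := nsq_pos b hz
  have hn3 : √(n3 (hq b z)) = nsq (xx b) (yy b) z := by
    rw [n3_hq, Real.sqrt_sq hN.le]
  unfold Ah
  rw [extd_const_smul _ ((SM_beta b).diff hz), EN.Std.extd_beta0 _ _ hN, pb, om, hn3, map_smul,
    vol2]
  simp only [map_add, map_smul, map_mul, pull_pj]
  have h := alg2 (cf b 0) (cf b 1) (cf b 2) (cf b 3) (cf b 0 z) (cf b 1 z) (cf b 2 z) (cf b 3 z)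
  have e0 : hq b z 0 = cf b 0 z ^ 2 + cf b 1 z ^ 2 - cf b 2 z ^ 2 - cf b 3 z ^ 2 := rfl
  have e1 : hq b z 1 = 2 * (cf b 1 z * cf b 3 z + cf b 0 z * cf b 2 z) := rfl
  have e2 : hq b z 2 = 2 * (cf b 1 z * cf b 2 z - cf b 0 z * cf b 3 z) := rfl
  have d0 : dx (dhq b z 0) = (2 * cf b 0 z) • dx (cf b 0) + (2 * cf b 1 z) • dx (cf b 1) -
      (2 * cf b 2 z) • dx (cf b 2) - (2 * cf b 3 z) • dx (cf b 3) := by
    simp only [dhq, Matrix.cons_val_zero, map_add, map_sub, map_smul]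
  have d1 : dx (dhq b z 1) = (2 * cf b 3 z) • dx (cf b 1) + (2 * cf b 1 z) • dx (cf b 3) +
      (2 * cf b 2 z) • dx (cf b 0) + (2 * cf b 0 z) • dx (cf b 2) := by
    simp only [dhq, Matrix.cons_val_one, Matrix.cons_val_zero, map_add, map_smul]
  have d2 : dx (dhq b z 2) = (2 * cf b 2 z) • dx (cf b 1) + (2 * cf b 1 z) • dx (cf b 2) -
      (2 * cf b 3 z) • dx (cf b 0) - (2 * cf b 0 z) • dx (cf b 3) := by
    simp only [dhq, Matrix.cons_val, map_add, map_sub, map_smul]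
  have dn : dx (fderiv ℝ (nsq (xx b) (yy b)) z) = (2 * cf b 0 z) • dx (cf b 0) +
      (2 * cf b 1 z) • dx (cf b 1) + (2 * cf b 2 z) • dx (cf b 2) +
      (2 * cf b 3 z) • dx (cf b 3) := by
    rw [(EN.Std.hasFDerivAt_nsq _ _ z).fderiv, Fin.sum_univ_two]
    simp only [xx, yy, Matrix.cons_val_zero, Matrix.cons_val_one, map_add, map_smul]
    abel
  have dl : lam0 (xx b) (yy b) z = cf b 0 z • dx (cf b 1) - cf b 1 z • dx (cf b 0) +
      (cf b 2 z • dx (cf b 3) - cf b 3 z • dx (cf b 2)) := by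
    rw [lam0, Fin.sum_univ_two]
    rfl
  have dm : om2 (xx b) (yy b) = dx (cf b 0) * dx (cf b 1) + dx (cf b 2) * dx (cf b 3) := by
    rw [om2, Fin.sum_univ_two]
    rfl
  rw [e0, e1, e2, d0, d1, d2, h, dn, dl, dm, ← nsq_expl]
  have hpi : Real.pi ≠ 0 := Real.pi_ne_zero
  have hN0 := hN.ne'
  match_scalars <;> (field_simp; try ring)

/-! ### radial invariance -/

theorem rad_fderiv {z : E} (hz : z ≠ 0) : ∃ D : E →L[ℝ] ℝ, ∀ a : E →L[ℝ] ℝ,
    a.comp (fderiv ℝ rad z) = ‖z‖⁻¹ • a + a z • D := by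
  have h1 : DifferentiableAt ℝ (fun z : E => ‖z‖⁻¹) z :=
    ((contDiffAt_norm ℝ hz (n := ∞)).inv (norm_ne_zero_iff.2 hz)).differentiableAt (by simp)
  refine ⟨fderiv ℝ (fun z : E => ‖z‖⁻¹) z, fun a => ?_⟩
  have h2 : HasFDerivAt (rad : E → E) (‖z‖⁻¹ • ContinuousLinearMap.id ℝ E +
      (fderiv ℝ (fun z : E => ‖z‖⁻¹) z).smulRight z) z := h1.hasFDerivAt.smul (hasFDerivAt_id z)
  rw [h2.fderiv]
  ext v
  simp
  ring

theorem pb_rad_beta {z : E} (hz : z ≠ 0) :
    pb rad (beta0 (xx b) (yy b)) z = beta0 (xx b) (yy b) z := by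
  obtain ⟨D, hD⟩ := rad_fderiv hz
  have hn : ‖z‖ ≠ 0 := norm_ne_zero_iff.2 hz
  rw [pb, beta0, nsq_eq, norm_rad hz, lam0, beta0, nsq_eq, lam0]
  simp only [map_smul, map_sub, pull_dx, hD, map_add, Fin.sum_univ_two]
  have hr : ∀ a : E →L[ℝ] ℝ, a (rad z) = ‖z‖⁻¹ * a z := fun a => by
    rw [rad, map_smul, smul_eq_mul]
  simp only [hr]
  match_scalars <;> (field_simp; try ring)

theorem pb_rad_Ah {z : E} (hz : z ≠ 0) : pb rad (Ah b) z = Ah b z := by
  unfold Ah
  rw [pb_const_smul, pb_rad_beta b hz]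

theorem pb_rad_extd {z : E} (hz : z ≠ 0) : pb rad (extd (Ah b)) z = extd (Ah b) z := by
  have h0 : rad z ≠ 0 := fun h => by
    have := norm_rad hz
    rw [h, norm_zero] at this
    exact zero_ne_one this
  rw [← extd_pb ((contDiffAt_rad hz).of_le two_le_inf) ((SM_Ah b).diff h0)]
  refine extd_congr ?_
  filter_upwards [isOpen_compl_singleton.mem_nhds hz] with y hy
  exact pb_rad_Ah b hy

end Coord

/-! ### the standard value -/

section Value

variable {E : Type*} [NormedAddCommGroup E] [InnerProductSpace ℝ E] [FiniteDimensional ℝ E]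
  [MeasurableSpace E] [BorelSpace E]
variable (b : OrthonormalBasis (Fin 4) ℝ E)

/-- the cutoff -/
def ru (z : E) : ℝ := chr (nsq (xx b) (yy b) z)

theorem cut_ru : Cut (ru b) (closedBall 0 1) where
  smooth := EN.Std.contDiff_chr.comp (EN.Std.contDiff_nsq _ _)
  compact := isCompact_closedBall _ _
  one z hz := by
    rw [mem_closedBall_zero_iff, not_le] at hz
    refine EN.Std.chr_one ?_
    rw [nsq_eq]
    nlinarith
  zero := by
    filter_upwards [ball_mem_nhds (0 : E) (half_pos one_pos)] with z hz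
    rw [mem_ball_zero_iff] at hz
    refine EN.Std.chr_zero ?_
    rw [nsq_eq]
    nlinarith [norm_nonneg z]

include b in
theorem integral_radial (g : ℝ → ℝ) :
    ∫ z : E, g (‖z‖ ^ 2) = ∫ y : Fin 4 → ℝ, g (∑ i, y i ^ 2) := by
  have h1 : ∫ y : Fin 4 → ℝ, g (∑ i, y i ^ 2) =
      ∫ x : EuclideanSpace ℝ (Fin 4), g (‖x‖ ^ 2) := by
    rw [← (PiLp.volume_preserving_toLp (Fin 4)).integral_comp
      (MeasurableEquiv.toLp 2 _).measurableEmbedding]
    refine integral_congr_ae (Filter.Eventually.of_forall fun y => ?_)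
    simp only [EuclideanSpace.norm_sq_eq, Real.norm_eq_abs, sq_abs]
  rw [h1, ← b.measurePreserving_repr.integral_comp b.measurableEquiv.measurableEmbedding]
  refine integral_congr_ae (Filter.Eventually.of_forall fun y => ?_)
  simp only [LinearIsometryEquiv.norm_map]

theorem std_value : IS volume b (ru b) (fun z => beta0 (xx b) (yy b) z *
    extd (beta0 (xx b) (yy b)) z) = (2 * Real.pi) ^ 2 := by
  have h1 := EN.Std.density_integral 1
  rw [← h1]
  have h2 := integral_radial b (fun t => deriv chr t * (2 ^ (1 + 1) * (Nat.factorial 1 : ℝ) *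
    (t ^ 1)⁻¹))
  refine Eq.trans ?_ h2
  refine integral_congr_ae (Filter.Eventually.of_forall fun z => ?_)
  rcases eq_or_ne z 0 with rfl | hz
  · simp only [(cut_ru b).dR_near.self_of_nhds, zero_mul, Q.evalForm_zero, norm_zero]
    rw [EN.Std.deriv_chr_le (by norm_num), zero_mul]
  · have key := EN.Std.integrand_eq (xx b) (yy b) (χ := chr) (n := 2) (by norm_num) (nsq_pos b hz)
      (EN.Std.contDiff_chr.differentiable (by simp) _) b.toBasis
      (fun j i => by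
        rw [b.coe_toBasis]
        fin_cases j <;> fin_cases i <;> simp [xx, cf_b])
      (fun j i => by
        rw [b.coe_toBasis]
        fin_cases j <;> fin_cases i <;> simp [yy, cf_b])
    rw [nsq_eq] at key
    simp only [pow_one, Nat.add_one_sub_one] at key
    rw [b.coe_toBasis] at key
    refine Eq.trans key ?_
    simp only [pow_one]

end Value

/-! ### the Hopf invariant -/

theorem IsRot.col {a : ℍ[ℝ]} {Q : M3} (h : IsRot a Q) :
    Q 0 0 = a.re ^ 2 + a.imI ^ 2 - a.imJ ^ 2 - a.imK ^ 2 ∧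
    Q 1 0 = 2 * (a.imI * a.imJ + a.re * a.imK) ∧
    Q 2 0 = 2 * (a.imI * a.imK - a.re * a.imJ) := by
  have hn : a.re ^ 2 + a.imI ^ 2 + a.imJ ^ 2 + a.imK ^ 2 = 1 := by
    rw [← Quaternion.normSq_def', Quaternion.normSq_eq_norm_mul_self, h.1, one_mul]
  have h1 := h.2 ![1, 0, 0]
  have hv : mv Q ![1, 0, 0] = fun i => Q i 0 := by
    funext i
    simp [mv, Fin.sum_univ_three]
  rw [hv, Quaternion.ext_iff] at h1
  simp only [qv, Quaternion.re_mul, Quaternion.imI_mul, Quaternion.imJ_mul, Quaternion.imK_mul,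
    mkq_re, mkq_imI, mkq_imJ, mkq_imK, Matrix.cons_val_zero, Matrix.cons_val_one,
    Matrix.cons_val] at h1
  obtain ⟨e0, e1, e2, e3⟩ := h1
  refine ⟨?_, ?_, ?_⟩
  · linear_combination (-Q 0 0) * hn - a.re * e1 + a.imI * e0 - a.imJ * e3 + a.imK * e2
  · linear_combination (-Q 1 0) * hn - a.imK * e1 - a.re * e2 + a.imJ * e0 + a.imI * e3
  · linear_combination (-Q 2 0) * hn + a.imJ * e1 - a.imI * e2 + a.imK * e0 - a.re * e3

section Rank

variable {E : Type*} [NormedAddCommGroup E] [NormedSpace ℝ E] [FiniteDimensional ℝ E]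

/-- forms of degree three pulled back by a map to the 2-sphere vanish -/
theorem rank_zero {g : E → Fin 3 → ℝ} {x : E} (hg : DifferentiableAt ℝ g x)
    (hn : ∀ᶠ y in 𝓝 x, n3 (g y) = 1) (b : Basis (Fin 4) ℝ E) (a : E →L[ℝ] ℝ)
    (W : (Fin 3 → ℝ) → Lam (Fin 3 → ℝ)) : evalForm (dx a * pb g W x) b = 0 := by
  set L := fderiv ℝ g x with hL
  have hgi : ∀ i, HasFDerivAt (fun y => g y i) ((pj i).comp L) x := fun i => by
    have := hasFDerivAt_pi'.1 hg.hasFDerivAt i
    exact this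
  have hker : ∀ v, g x 0 * L v 0 + g x 1 * L v 1 + g x 2 * L v 2 = 0 := by
    intro v
    have h1 := (((hgi 0).pow 2).add ((hgi 1).pow 2)).add ((hgi 2).pow 2)
    have h2 : HasFDerivAt (fun _ : E => (1 : ℝ)) _ x :=
      h1.congr_of_eventuallyEq (hn.mono fun y hy => hy.symm)
    have h3 := h2.unique (hasFDerivAt_const (1 : ℝ) x)
    have h4 := DFunLike.congr_fun h3 v
    simp at h4
    change 2 * g x 0 * L v 0 + 2 * g x 1 * L v 1 + 2 * g x 2 * L v 2 = 0 at h4
    linarith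
  let T : E →ₗ[ℝ] ℝ × (Fin 3 → ℝ) := (a : E →ₗ[ℝ] ℝ).prod (L : E →ₗ[ℝ] Fin 3 → ℝ)
  have hT : ¬ Function.Injective T := by
    intro hinj
    have hsurj : Function.Surjective T :=
      (LinearMap.injective_iff_surjective_of_finrank_eq_finrank (by
        rw [finrank_eq_card_basis b]
        simp)).1 hinj
    obtain ⟨v, hv⟩ := hsurj (0, g x)
    have h1 : L v = g x := congrArg Prod.snd hv
    have h2 := hker v
    rw [h1] at h2
    have h3 : n3 (g x) = 1 := hn.self_of_nhds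
    rw [n3] at h3
    linarith [sq (g x 0), sq (g x 1), sq (g x 2)]
  obtain ⟨v, hv, hv0⟩ : ∃ v, T v = 0 ∧ v ≠ 0 := by
    by_contra hcon
    push Not at hcon
    exact hT ((injective_iff_map_eq_zero T).2 hcon)
  have ha : a v = 0 := congrArg Prod.fst hv
  have hLv : L v = 0 := congrArg Prod.snd hv
  refine Q.evalForm_eq_zero_of_iprod b hv0 ?_
  rw [iprod_dx_mul, ha, pb, pull_iprod, ← hL, hLv, Q.iprod_zero_left, map_zero, mul_zero,
    zero_smul, sub_zero]

end Rank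

section Main

variable {E : Type*} [NormedAddCommGroup E] [InnerProductSpace ℝ E] [FiniteDimensional ℝ E]
  [MeasurableSpace E] [BorelSpace E]

theorem contDiff_lin (F : ℍ[ℝ] → ℝ) (h1 : ∀ a b, F (a + b) = F a + F b)
    (h2 : ∀ (c : ℝ) a, F (c • a) = c * F a) : ContDiff ℝ ∞ F :=
  (LinearMap.toContinuousLinearMap ({ toFun := F, map_add' := h1, map_smul' := h2 } :
    ℍ[ℝ] →ₗ[ℝ] ℝ)).contDiff

theorem IS_Ah (b : OrthonormalBasis (Fin 4) ℝ E) :
    IS volume b (ru b) (fun z => Ah b z * extd (Ah b) z) = 1 := by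
  have h1 : IS volume b (ru b) (fun z => Ah b z * extd (Ah b) z) =
      IS volume b (ru b) (fun z => ((2 * Real.pi)⁻¹ ^ 2) • (beta0 (xx b) (yy b) z *
        extd (beta0 (xx b) (yy b)) z)) := by
    refine IS.congr volume b (cut_ru b) fun z hz => ?_
    unfold Ah
    rw [extd_const_smul _ ((SM_beta b).diff hz), smul_mul_smul_comm]
    congr 1
    ring
  rw [h1, IS.smul, std_value]
  have := Real.pi_ne_zero
  field_simp

/-- **the Hopf invariant of a sphere of rotations is an integer** -/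
theorem exists_hopf {G : E → M3} (hG : RotMap G) (b : OrthonormalBasis (Fin 4) ℝ E) :
    ∃ H : ℤ, ∀ (c : ℝ) (ζ : (Fin 3 → ℝ) → Lam (Fin 3 → ℝ)) (τ : E → Lam E), SM ζ → SM τ →
      (∀ x ≠ 0, extd τ x = pb (fun x i => G x i 0) (fun y => c • om y + extd ζ y) x) →
      ∀ (r : E → ℝ) (K : Set E), Cut r K →
        IS volume b r (fun x => τ x * extd τ x) = c ^ 2 * H := by
  have hE : finrank ℝ E = 4 := by rw [finrank_eq_card_basis b.toBasis, Fintype.card_fin]
  obtain ⟨L, hL1, hL2, hL3⟩ := exists_rotLift hG (by omega)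
  let f : E → E := fun x => (L x).re • b 0 + (L x).imI • b 1 + (L x).imK • b 2 + (L x).imJ • b 3
  have hcf : ∀ x, cf b 0 (f x) = (L x).re ∧ cf b 1 (f x) = (L x).imI ∧
      cf b 2 (f x) = (L x).imK ∧ cf b 3 (f x) = (L x).imJ := by
    intro x
    simp [f, cf_b]
  have hfn : ∀ x, ‖f x‖ ^ 2 = ‖L x‖ ^ 2 := by
    intro x
    obtain ⟨h0, h1, h2, h3⟩ := hcf x
    rw [← nsq_eq b, nsq_expl, h0, h1, h2, h3, sq ‖L x‖, ← Quaternion.normSq_eq_norm_mul_self,
      Quaternion.normSq_def']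
    ring
  have hf : SphMap f := by
    refine ⟨fun x hx => ContDiffAt.contDiffWithinAt ?_, fun x hx => ?_, fun x hx c hc => ?_⟩
    · have h1 := hL1 x hx
      have c0 : ContDiffAt ℝ ∞ (fun y => (L y).re) x :=
        (contDiff_lin (fun q : ℍ[ℝ] => q.re) (fun _ _ => rfl) (fun _ _ => rfl)).contDiffAt.comp x h1
      have c1 : ContDiffAt ℝ ∞ (fun y => (L y).imI) x :=
        (contDiff_lin (fun q : ℍ[ℝ] => q.imI) (fun _ _ => rfl) (fun _ _ => rfl)).contDiffAt.comp x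
          h1
      have c2 : ContDiffAt ℝ ∞ (fun y => (L y).imJ) x :=
        (contDiff_lin (fun q : ℍ[ℝ] => q.imJ) (fun _ _ => rfl) (fun _ _ => rfl)).contDiffAt.comp x
          h1
      have c3 : ContDiffAt ℝ ∞ (fun y => (L y).imK) x :=
        (contDiff_lin (fun q : ℍ[ℝ] => q.imK) (fun _ _ => rfl) (fun _ _ => rfl)).contDiffAt.comp x
          h1
      exact (((c0.smul contDiffAt_const).add (c1.smul contDiffAt_const)).add
        (c3.smul contDiffAt_const)).add (c2.smul contDiffAt_const)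
    · have h1 := hfn x
      rw [(hL2 x hx).1] at h1
      nlinarith [norm_nonneg (f x)]
    · simp only [f, hL3 x hx c hc]
  have hf0 : ∀ x ≠ 0, f x ≠ 0 := fun x hx h0 => by
    have := hf.norm x hx
    rw [h0, norm_zero] at this
    exact zero_ne_one this
  let g : E → Fin 3 → ℝ := fun x i => G x i 0
  have hg : ∀ x ≠ 0, g x = hq b (f x) := by
    intro x hx
    obtain ⟨h0, h1, h2, h3⟩ := hcf x
    obtain ⟨k0, k1, k2⟩ := (hL2 x hx).col
    funext i
    fin_cases i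
    · change G x 0 0 = cf b 0 (f x) ^ 2 + cf b 1 (f x) ^ 2 - cf b 2 (f x) ^ 2 - cf b 3 (f x) ^ 2
      rw [h0, h1, h2, h3, k0]
      ring
    · change G x 1 0 = 2 * (cf b 1 (f x) * cf b 3 (f x) + cf b 0 (f x) * cf b 2 (f x))
      rw [h0, h1, h2, h3, k1]
    · change G x 2 0 = 2 * (cf b 1 (f x) * cf b 2 (f x) - cf b 0 (f x) * cf b 3 (f x))
      rw [h0, h1, h2, h3, k2]
  have hev : ∀ x ≠ 0, g =ᶠ[𝓝 x] fun y => hq b (f y) := by
    intro x hx
    filter_upwards [isOpen_compl_singleton.mem_nhds hx] with y hy using hg y hy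
  have hfd : ∀ x ≠ 0, DifferentiableAt ℝ f x := fun x hx => (hf.at hx).differentiableAt (by simp)
  have hgs : ∀ x ≠ 0, ContDiffAt ℝ ∞ g x := fun x hx =>
    (((contDiff_hq b).contDiffAt.comp x (hf.at hx)).congr_of_eventuallyEq (hev x hx))
  have hgn : ∀ x ≠ 0, n3 (g x) = 1 := by
    intro x hx
    rw [hg x hx, n3_hq, nsq_eq, hf.norm x hx]
    norm_num
  have hg0 : ∀ x ≠ 0, g x ≠ 0 := by
    intro x hx h0
    have := hgn x hx
    rw [h0] at this
    simp [n3] at this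
  have hgn' : ∀ x ≠ 0, ∀ᶠ y in 𝓝 x, n3 (g y) = 1 := fun x hx => by
    filter_upwards [isOpen_compl_singleton.mem_nhds hx] with y hy using hgn y hy
  have hpbg : ∀ (W : (Fin 3 → ℝ) → Lam (Fin 3 → ℝ)), ∀ x ≠ 0, pb g W x = pb f (pb (hq b) W) x := by
    intro W x hx
    rw [pb_congr W (hev x hx)]
    exact pb_comp W ((contDiff_hq b).differentiable (by simp) _) (hfd x hx)
  have hpbgS : ∀ W, SM W → SM (pb g W) := fun W hW => SM.of fun x hx =>
    contDiffAt_pb (hgs x hx) (hW.at (hg0 x hx)) (by simp)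
  have hpbe : ∀ W, SM W → ∀ x ≠ 0, extd (pb g W) x = pb g (extd W) x := fun W hW x hx =>
    extd_pb ((hgs x hx).of_le two_le_inf) (hW.diff (hg0 x hx))
  obtain ⟨k, hk⟩ := hf.exists_degree (volume : Measure E) b.toBasis
  refine ⟨k, fun c ζ τ hζ hτ hd r K hr => ?_⟩
  change ∀ x ≠ 0, extd τ x = pb g _ x at hd
  -- the pulled back primitive
  let σ : E → Lam E := pb f (Ah b)
  have hσ : SM σ := hf.contDiffOn_pb (SM_Ah b)
  have hσe : ∀ x ≠ 0, extd σ x = pb g om x := by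
    intro x hx
    rw [hpbg om x hx]
    change extd (pb f (Ah b)) x = _
    rw [extd_pb ((hf.at hx).of_le two_le_inf) ((SM_Ah b).diff (hf0 x hx)), pb, pb,
      hopf_prim b (hf0 x hx)]
  have hσv : IS volume b r (fun x => σ x * extd σ x) = k := by
    have hw : SM (fun z => Ah b z * extd (Ah b) z) := (SM_Ah b).mul (SM_Ah b).extd
    have h1 := hk _ hw r K hr
    rw [b.coe_toBasis] at h1
    have h2 : IS volume b r (fun x => σ x * extd σ x) =
        ∫ x, evalForm (dR r x * pb f (fun z => Ah b z * extd (Ah b) z) x) b := by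
      refine IS.congr volume b hr fun x hx => ?_
      rw [pb_mul]
      congr 1
      exact extd_pb ((hf.at hx).of_le two_le_inf) ((SM_Ah b).diff (hf0 x hx))
    have h3 := sphMap_rad.indep volume b.toBasis hw hr (cut_ru b)
    rw [b.coe_toBasis] at h3
    have h4 : ∫ x, evalForm (dR (ru b) x * pb rad (fun z => Ah b z * extd (Ah b) z) x) b =
        IS volume b (ru b) (fun z => Ah b z * extd (Ah b) z) := by
      refine IS.congr volume b (cut_ru b) fun x hx => ?_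
      rw [pb_mul, pb_rad_Ah b hx, pb_rad_extd b hx]
    rw [h2, h1, h3, h4, IS_Ah, mul_one]
  -- forms of degree three from the sphere vanish
  have hzero : ∀ W, IS volume b r (pb g W) = 0 := by
    intro W
    have : ∀ x, evalForm (dR r x * pb g W x) b = 0 := by
      intro x
      rcases eq_or_ne x 0 with rfl | hx
      · rw [hr.dR_near.self_of_nhds, zero_mul, Q.evalForm_zero]
      · rw [← b.coe_toBasis]
        exact rank_zero ((hgs x hx).differentiableAt (by simp)) (hgn' x hx) b.toBasis _ W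
    simp only [IS, this, integral_zero]
  let ζ' : E → Lam E := pb g ζ
  have hζ' : SM ζ' := hpbgS ζ hζ
  have hτ' : SM (fun x => c • σ x + ζ' x) := (hσ.smul c).add hζ'
  have hτe : ∀ x ≠ 0, extd (fun x => c • σ x + ζ' x) x = c • extd σ x + extd ζ' x := by
    intro x hx
    rw [extd_add ((hσ.smul c).diff hx) (hζ'.diff hx), extd_const_smul c (hσ.diff hx)]
  have h1 := IS.prim volume b hr hτ hτ' fun x hx => by
    rw [hτe x hx, hσe x hx, hd x hx]
    change _ = _ + extd (pb g ζ) x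
    rw [hpbe ζ hζ x hx, pb_add, pb_const_smul]
  rw [h1]
  have h2 : IS volume b r (fun x => (c • σ x + ζ' x) * extd (fun x => c • σ x + ζ' x) x) =
      IS volume b r (fun x => (c ^ 2 • (σ x * extd σ x) + c • (σ x * extd ζ' x)) +
        pb g (fun y => c • (ζ y * om y) + ζ y * extd ζ y) x) := by
    refine IS.congr volume b hr fun x hx => ?_
    rw [hτe x hx, pb_add, pb_const_smul, pb_mul, pb_mul, ← hpbe ζ hζ x hx, ← hσe x hx]
    change (c • σ x + ζ' x) * (c • extd σ x + extd ζ' x) = _ + (c • (ζ' x * _) + ζ' x * extd ζ' x)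
    simp only [mul_add, add_mul, smul_mul_assoc, mul_smul_comm]
    module
  have h3 : IS volume b r (fun x => σ x * extd ζ' x) = 0 := by
    rw [IS.part volume b hr hσ hζ', ← hzero (fun y => inv (om y) * ζ y)]
    refine IS.congr volume b hr fun x hx => ?_
    rw [pb_mul, pb_inv, hσe x hx]
  rw [h2, IS.add volume b hr (((hσ.mul hσ.extd).smul _).add ((hσ.mul hζ'.extd).smul _))
    (hpbgS _ (((hζ.mul SM_om).smul c).add (hζ.mul hζ.extd))), hzero,
    IS.add volume b hr ((hσ.mul hσ.extd).smul _) ((hσ.mul hζ'.extd).smul _), IS.smul, IS.smul,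
    hσv, h3]
  ring

end Main

end Vale.Agent.P231.S2I
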