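import Vale.Agent.P231.S2I.FrV
import Vale.Agent.P231.S2I.Hopf
import Vale.Agent.P231.FE.Defs

/-!
# P231, block S2-I (I6): decomposition of the pulled back angular form
-/

set_option linter.unusedSectionVars false

open Module MeasureTheory Set Metric Filter
open scoped ContDiff Topology RealInnerProductSpace

noncomputable section

namespace Vale.Agent.P231.S2I

open Fm
open Q (dR Cut)
open EN.Std (chr)

section Gen

variable {E : Type*} [NormedAddCommGroup E] [NormedSpace ℝ E] [FiniteDimensional ℝ E]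
variable {F : Type*} [NormedAddCommGroup F] [NormedSpace ℝ F] [FiniteDimensional ℝ F]

theorem pull_zero_map (w : Lam F) : pull (0 : E →L[ℝ] F) w = algebraMap ℝ (Lam E) (aug w) := by
  induction w using Lam.ind with
  | h1 r => rw [AlgHom.commutes, AlgHom.commutes]; rfl
  | h2 a =>
    have : a.comp (0 : E →L[ℝ] F) = 0 := by ext; simp
    rw [pull_dx, aug_dx, this, map_zero, map_zero]
  | h3 a b ha hb => rw [map_mul, ha, hb, map_mul, map_mul]
  | h4 a b ha hb => rw [map_add, ha, hb, map_add, map_add]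

/-- scaling -/
def sc (p : E × ℝ) : E := p.2 • p.1

theorem contDiff_sc : ContDiff ℝ ∞ (sc : E × ℝ → E) := contDiff_snd.smul contDiff_fst

theorem at0_pb {f : E × ℝ → F} {w : F → Lam F} {x : E} {t : ℝ}
    (hf : DifferentiableAt ℝ f (x, t)) : at0 (pb f w (x, t)) = pb (fun z => f (z, t)) w x := by
  rw [at0_apply, pb, pb, ← pull_comp_apply]
  congr 2
  have h := HasFDerivAt.comp (f := fun z : E => (z, t)) x hf.hasFDerivAt
    (hasFDerivAt_prodMk_left x t)
  exact h.fderiv.symm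

/-- the Poincare lemma -/
theorem poincare {γ : E → Lam E} (hγ : ContDiff ℝ ∞ γ) (hd : ∀ x, extd γ x = 0)
    (h0 : aug (γ 0) = 0) : ContDiff ℝ ∞ (kop (pb sc γ)) ∧ ∀ x, extd (kop (pb sc γ)) x = γ x := by
  have hw : ContDiff ℝ ∞ (pb sc γ) := contDiff_iff_contDiffAt.2 fun p =>
    contDiffAt_pb (m := ∞) (n := ∞) contDiff_sc.contDiffAt hγ.contDiffAt (by simp)
  refine ⟨?_, fun x => ?_⟩
  · have := contDiffOn_kop (n := ⊤) isOpen_univ (hw.contDiffOn (s := univ ×ˢ univ))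
    exact contDiffOn_univ.1 this
  · have h1 := kop_homotopy isOpen_univ ((hw.of_le (by simp)).contDiffOn (s := univ ×ˢ univ))
      (mem_univ x)
    have h2 : kop (extd (pb sc γ)) x = 0 := by
      have h3 : ∀ t : ℝ, at1 (extd (pb sc γ) (x, t)) = 0 := by
        intro t
        rw [extd_pb (contDiff_sc.contDiffAt.of_le two_le_inf)
          (hγ.differentiable (by simp) _), pb, hd, map_zero, map_zero]
      rw [kop]
      simp only [h3]
      exact intervalIntegral.integral_zero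
    have h4 : at0 (pb sc γ (x, 1)) = γ x := by
      rw [at0_pb (contDiff_sc.differentiable (by simp) _)]
      have : (fun z : E => sc (z, (1 : ℝ))) = fun z => z := by
        funext z
        simp [sc]
      rw [this, pb_id]
    have h5 : at0 (pb sc γ (x, 0)) = 0 := by
      rw [at0_pb (contDiff_sc.differentiable (by simp) _)]
      have : (fun z : E => sc (z, (0 : ℝ))) = fun _ => 0 := by
        funext z
        simp [sc]
      rw [this, pb, fderiv_fun_const]
      change pull (0 : E →L[ℝ] E) _ = 0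
      rw [pull_zero_map, h0, map_zero]
    rw [h4, h5, h2, zero_add, sub_zero] at h1
    exact h1.symm

end Gen

section VS

variable {V : Type*} [NormedAddCommGroup V] [InnerProductSpace ℝ V] [FiniteDimensional ℝ V]

/-- the normalised volume form of the 3-sphere -/
def vs (b : OrthonormalBasis (Fin 4) ℝ V) (y : V) : Lam V := Ah b y * extd (Ah b) y

variable (b : OrthonormalBasis (Fin 4) ℝ V)

theorem SM_vs : SM (vs b) := (SM_Ah b).mul (SM_Ah b).extd

theorem pb_rad_vs {z : V} (hz : z ≠ 0) : pb rad (vs b) z = vs b z := by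
  change pb rad (fun y => Ah b y * extd (Ah b) y) z = _
  rw [pb_mul, pb_rad_Ah b hz, pb_rad_extd b hz]
  rfl

theorem pb_rad_comp {W : Type*} [NormedAddCommGroup W] [NormedSpace ℝ W] [FiniteDimensional ℝ W]
    {f : W → V} {x : W} (hf : DifferentiableAt ℝ f x) (h0 : f x ≠ 0) :
    pb (fun y => rad (f y)) (vs b) x = pb f (vs b) x := by
  rw [pb_comp (vs b) ((contDiffAt_rad h0).differentiableAt (by simp)) hf, pb, pb_rad_vs b h0]
  rfl

variable [MeasurableSpace V] [BorelSpace V]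

theorem IS_vs {r : V → ℝ} {K : Set V} (hr : Cut r K) : IS volume b r (vs b) = 1 := by
  have h1 : IS volume b r (vs b) = ∫ x, evalForm (dR r x * pb rad (vs b) x) b :=
    IS.congr volume b hr fun x hx => (pb_rad_vs b hx).symm
  have h2 := sphMap_rad.indep volume b.toBasis (SM_vs b) hr (cut_ru b)
  rw [b.coe_toBasis] at h2
  have h3 : ∫ x, evalForm (dR (ru b) x * pb rad (vs b) x) b = IS volume b (ru b) (vs b) :=
    IS.congr volume b (cut_ru b) fun x hx => pb_rad_vs b hx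
  rw [h1, h2, h3]
  exact IS_Ah b

end VS

section Dec

variable {V : Type} [NormedAddCommGroup V] [InnerProductSpace ℝ V] [FiniteDimensional ℝ V]
variable {T : Type*} [NormedAddCommGroup T] [InnerProductSpace ℝ T] [FiniteDimensional ℝ T]

/-- an angular form of a spread of 4-planes -/
structure AngF (b : OrthonormalBasis (Fin 4) ℝ V) (Pi : T → T →L[ℝ] T) (ψ : T → Lam T)
    (κ : ℝ) : Prop where
  smooth : SM ψ
  rel : ∀ {W : Type} [NormedAddCommGroup W] [NormedSpace ℝ W] [FiniteDimensional ℝ W]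
    {f g : W → T} {x : W}, Sm f x → Sm g x → f x ≠ 0 → g x ≠ 0 →
    (∀ᶠ y in 𝓝 x, Pi (f y) (g y) = g y) → pb f (extd ψ) x = pb g (extd ψ) x
  fib : ∀ (A0 : V →ₗᵢ[ℝ] T) (u : T), u ≠ 0 → (∀ v, Pi u (A0 v) = A0 v) →
    ∃ s : ℝ, (s = 1 ∨ s = -1) ∧ ∀ y ≠ 0, pb A0 ψ y = (s * κ) • vs b y

variable {b : OrthonormalBasis (Fin 4) ℝ V} {Pi : T → T →L[ℝ] T} {ψ : T → Lam T} {κ : ℝ}

/-- **the decomposition** -/
theorem exists_dec (hS : FE.Spread 4 Pi) (hψ : AngF b Pi ψ κ) {R : V → T →L[ℝ] T}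
    (hR : ∀ x, ∃ f : V → T, Sm f x ∧ f x ≠ 0 ∧ ∀ᶠ y in 𝓝 x, R y = Pi (f y))
    {Kc : Set V} (hKc : IsClosed Kc) {u : V → T}
    (hu : ∀ x ∉ Kc, ContDiffAt ℝ ∞ u x ∧ u x ≠ 0 ∧ R x (u x) = u x) :
    ∃ (g : V → V) (a : V → T) (s : ℝ) (ν ζ : V → Lam V), (s = 1 ∨ s = -1) ∧
      (∀ x, ContDiffAt ℝ ∞ a x ∧ a x ≠ 0 ∧ R (tcc x) (a x) = a x) ∧
      ContDiff ℝ ∞ ν ∧ (∀ x, extd ν x = pb a (extd ψ) x) ∧
      ∀ x ∉ Kc, ‖x‖ < 3 → ContDiffAt ℝ ∞ g x ∧ g x ≠ 0 ∧ ContDiffAt ℝ ∞ ζ x ∧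
        pb u ψ x = (s * κ) • pb g (vs b) x + ν x + extd ζ x := by
  have hfin : finrank ℝ V = 4 := by rw [finrank_eq_card_basis b.toBasis, Fintype.card_fin]
  have hRs : ContDiff ℝ ∞ R := by
    refine contDiff_iff_contDiffAt.2 fun x => ?_
    obtain ⟨f, hf, hf0, hfR⟩ := hR x
    exact ((hS.smooth _ hf0).comp x hf.contDiffAt).congr_of_eventuallyEq hfR
  have hRe : ∀ x, ∃ v : T, v ≠ 0 ∧ R x = Pi v := by
    intro x
    obtain ⟨f, hf, hf0, hfR⟩ := hR x
    exact ⟨f x, hf0, hfR.self_of_nhds⟩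
  have hRi : ∀ x v, R x (R x v) = R x v := by
    intro x v
    obtain ⟨w, hw, hRw⟩ := hRe x
    rw [hRw]
    exact hS.idem w hw v
  have hRr : ∀ x, finrank ℝ (LinearMap.range (R x : T →ₗ[ℝ] T)) = 4 := by
    intro x
    obtain ⟨w, hw, hRw⟩ := hRe x
    rw [hRw]
    exact hS.rank w hw
  -- vectors in the same plane
  have hsame : ∀ x (v w : T), v ≠ 0 → R x v = v → R x w = w → Pi v w = w := by
    intro x v w hv h1 h2
    obtain ⟨z, hz, hRz⟩ := hRe x
    rw [hRz] at h1 h2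
    rw [hS.rel z v hz hv h1]
    exact h2
  obtain ⟨A, A0, hA, hinj, hRA, hA0⟩ := exists_frameV hRs hRi (by rw [hRr, hfin])
  obtain ⟨g, hg1, hg2⟩ := exists_solve hA hinj u
  have hrange : ∀ x, ‖x‖ ≤ 3 → ∀ v, R x v = v → v ∈ LinearMap.range (A x : V →ₗ[ℝ] T) := by
    intro x hx v hv
    have h1 : LinearMap.range (A x : V →ₗ[ℝ] T) ≤ LinearMap.range (R x : T →ₗ[ℝ] T) := by
      rintro _ ⟨z, rfl⟩
      refine ⟨A x z, ?_⟩
      have := hRA x z
      rw [tcc_eq hx] at this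
      exact this
    have h2 : finrank ℝ (LinearMap.range (A x : V →ₗ[ℝ] T)) = 4 := by
      rw [LinearMap.finrank_range_of_inj (hinj x), hfin]
    have h3 := Submodule.eq_of_le_of_finrank_eq h1 (by rw [h2, hRr])
    rw [h3]
    exact ⟨v, hv⟩
  have hAg : ∀ x ∉ Kc, ‖x‖ ≤ 3 → A x (g x) = u x := fun x hx h3 =>
    hg2 x (hrange x h3 _ (hu x hx).2.2)
  have hg0 : ∀ x ∉ Kc, ‖x‖ ≤ 3 → g x ≠ 0 := fun x hx h3 h0 => by
    have := hAg x hx h3
    rw [h0, map_zero] at this
    exact (hu x hx).2.1 this.symm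
  -- the sign
  have h00 : R 0 = R (tcc (0 : V)) := by rw [tcc_zero]
  obtain ⟨s, hs, hsA⟩ : ∃ s : ℝ, (s = 1 ∨ s = -1) ∧ ∀ y ≠ 0, pb A0 ψ y = (s * κ) • vs b y := by
    obtain ⟨z, hz, hRz⟩ := hRe 0
    refine hψ.fib A0 z hz fun v => ?_
    rw [← hRz, h00, ← hA0]
    exact hRA 0 v
  -- the base part
  have hy0 : b 0 ≠ 0 := b.orthonormal.ne_zero 0
  have ha0 : ∀ x, A x (b 0) ≠ 0 := fun x h0 => hy0 (hinj x (by rw [h0, map_zero]))
  let a : V → T := fun x => A x (b 0)
  have ha : ContDiff ℝ ∞ a := hA.clm_apply contDiff_const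
  let γ : V → Lam V := pb a (extd ψ)
  have hγ : ContDiff ℝ ∞ γ := contDiff_iff_contDiffAt.2 fun x =>
    contDiffAt_pb (m := ∞) (n := ∞) ha.contDiffAt (hψ.smooth.extd.at (ha0 x)) (by simp)
  have hγd : ∀ x, extd γ x = 0 := by
    intro x
    have h1 : extd γ x = pb a (extd (extd ψ)) x :=
      extd_pb (ha.contDiffAt.of_le two_le_inf) (hψ.smooth.extd.diff (ha0 x))
    rw [h1, pb, hψ.smooth.extd_extd (ha0 x), map_zero]
  have hγ0 : aug (γ 0) = 0 := by
    change aug (pull _ _) = 0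
    rw [aug_pull, extd, aug_dLin]
  obtain ⟨hν, hνd⟩ := poincare hγ hγd hγ0
  -- the homotopy
  let U : Set V := {x | x ∉ Kc ∧ ‖x‖ < 3}
  have hU : IsOpen U := hKc.isOpen_compl.inter (isOpen_lt continuous_norm continuous_const)
  let h : V × ℝ → T := fun p => A (sc p) (g p.1)
  have hgU : ∀ x ∈ U, ContDiffAt ℝ ∞ g x := fun x hx => hg1 x (hu x hx.1).1
  have hhs : ∀ p : V × ℝ, p.1 ∈ U → ContDiffAt ℝ ∞ h p := by
    intro p hp
    exact (hA.contDiffAt.comp p contDiff_sc.contDiffAt).clm_apply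
      ((hgU p.1 hp).comp p contDiff_fst.contDiffAt)
  have hh0 : ∀ p : V × ℝ, p.1 ∈ U → h p ≠ 0 := by
    intro p hp h0
    exact hg0 p.1 hp.1 hp.2.le (hinj (sc p) (by rw [map_zero]; exact h0))
  let w : V × ℝ → Lam (V × ℝ) := pb h ψ
  have hws : ∀ p : V × ℝ, p.1 ∈ U → ContDiffAt ℝ ∞ w p := fun p hp =>
    contDiffAt_pb (m := ∞) (n := ∞) (hhs p hp) (hψ.smooth.at (hh0 p hp)) (by simp)
  have hwU : ContDiffOn ℝ ∞ w (U ×ˢ univ) := fun p hp => (hws p hp.1).contDiffWithinAt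
  have hopen : IsOpen (U ×ˢ (univ : Set ℝ)) := hU.prod isOpen_univ
  have hwd : ∀ p : V × ℝ, p.1 ∈ U → extd w p = pb sc γ p := by
    intro p hp
    have hev : ∀ᶠ q : V × ℝ in 𝓝 p, q.1 ∈ U :=
      continuous_fst.continuousAt.eventually (hU.mem_nhds hp)
    have h1 : extd w p = pb h (extd ψ) p :=
      extd_pb ((hhs p hp).of_le two_le_inf) (hψ.smooth.diff (hh0 p hp))
    have h2 : pb h (extd ψ) p = pb (fun q => a (sc q)) (extd ψ) p := by
      refine hψ.rel ?_ ?_ (hh0 p hp) (ha0 _) ?_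
      · filter_upwards [hev] with q hq using hhs q hq
      · exact Sm.of_contDiff (ha.comp contDiff_sc) p
      · filter_upwards [hev] with q hq
        exact hsame (tcc (sc q)) _ _ (hh0 q hq) (hRA _ _) (hRA _ _)
    rw [h1, h2, pb_comp (extd ψ) (ha.differentiable (by simp) _)
      (contDiff_sc.differentiable (by simp) _)]
  refine ⟨g, a, s, kop (pb sc γ), kop w, hs, fun x => ⟨ha.contDiffAt, ha0 x, hRA x _⟩, hν, hνd,
    fun x hx h3 => ?_⟩
  have hxU : x ∈ U := ⟨hx, h3⟩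
  refine ⟨hgU x hxU, hg0 x hx h3.le, ?_, ?_⟩
  · exact (contDiffOn_kop (n := ⊤) hU hwU).contDiffAt (hU.mem_nhds hxU)
  · have h1 := kop_homotopy hU (hwU.of_le (by simp)) hxU
    have h2 : kop (extd w) x = kop (pb sc γ) x := by
      rw [kop, kop]
      refine intervalIntegral.integral_congr fun t _ => ?_
      change at1 (extd w (x, t)) = at1 (pb sc γ (x, t))
      rw [hwd (x, t) hxU]
    have hevU : ∀ᶠ y in 𝓝 x, y ∈ U := hU.mem_nhds hxU
    have h3' : at0 (w (x, 1)) = pb u ψ x := by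
      change at0 (pb h ψ (x, 1)) = _
      rw [at0_pb ((hhs (x, 1) hxU).differentiableAt (by simp))]
      refine pb_congr ψ ?_
      filter_upwards [hevU] with y hy
      change A (sc (y, 1)) (g y) = u y
      rw [sc, one_smul]
      exact hAg y hy.1 hy.2.le
    have h4 : at0 (w (x, 0)) = (s * κ) • pb g (vs b) x := by
      change at0 (pb h ψ (x, 0)) = _
      rw [at0_pb ((hhs (x, 0) hxU).differentiableAt (by simp))]
      have h5 : (fun z => h (z, (0 : ℝ))) = fun z => A0 (g z) := by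
        funext z
        change A (sc (z, 0)) (g z) = _
        rw [sc, zero_smul]
        exact hA0 _
      rw [h5, pb_comp ψ (g := A0) A0.toContinuousLinearMap.differentiableAt
        ((hgU x hxU).differentiableAt (by simp)), pb, hsA _ (hg0 x hx h3.le), map_smul]
      rfl
    rw [h2, h3', h4] at h1
    have h6 : pb u ψ x = (pb u ψ x - (s * κ) • pb g (vs b) x) + (s * κ) • pb g (vs b) x := by
      abel
    rw [h6, h1]
    abel

end Dec

end Vale.Agent.P231.S2I
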