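import Vale.Agent.P231.S2I.Eval

/-!
# P231, stage 2: integrality, part (I4), supplements

* the bridge from the deck transformation `σ = A ∘ Λ_D` to the antipodal map `A` of the fibre;
* the symmetry lemma `I (j^* (α b)) = 0`.
-/

set_option linter.unusedSectionVars false
set_option linter.unusedVariables false

open MeasureTheory Set Module Filter Topology
open scoped ContDiff

namespace Vale.Agent.P231.S2I

open Fm W H584

section Bridge

variable {S M : Type*} {dS : Dif S} {dM : Dif M} {T : ℝ} {Λ : S × ℝ → S}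

/-- basic forms are invariant -/
theorem pull_of_basic (hΛ : (dS.prod (Dif.lin ℝ)).Map dS Λ) (c : ℝ) {w : Form dS}
    (hw : Basic Λ hΛ w) : Form.pull (fun s => Λ (s, c)) (map_at hΛ c) w = w := by
  rw [← at_pull_of hΛ c w, hw, at_pr]

/-- `J` does not change under the flow -/
theorem J_flow (hΛ : IsFlow dS T Λ) (c : ℝ) (w : Form dS) :
    J Λ hΛ.map T (Form.pull (fun s => Λ (s, c)) (map_at hΛ.map c) w) = J Λ hΛ.map T w := by
  rw [← pull_J hΛ.map hΛ.map (map_at hΛ.map c) (fun x t => by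
    rw [hΛ.add, hΛ.add, add_comm]) T w]
  exact pull_of_basic hΛ.map c (J_basic hΛ w)

variable {A σ : S → S} {c : ℝ}

theorem pull_sigma (hΛ : IsFlow dS T Λ) (hA : dS.Map dS A) (hσ : dS.Map dS σ)
    (h : ∀ s, σ s = Λ (A s, c)) (w : Form dS) :
    Form.pull σ hσ w = Form.pull A hA (Form.pull (fun s => Λ (s, c)) (map_at hΛ.map c) w) :=
  (pull_pull hA (map_at hΛ.map c) hσ (fun s => (h s).symm) w).symm

theorem pull_sigma_of_basic (hΛ : IsFlow dS T Λ) (hA : dS.Map dS A) (hσ : dS.Map dS σ)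
    (h : ∀ s, σ s = Λ (A s, c)) {w : Form dS} (hw : Basic Λ hΛ.map w) :
    Form.pull σ hσ w = Form.pull A hA w := by
  rw [pull_sigma hΛ hA hσ h, pull_of_basic hΛ.map c hw]

theorem J_sigma (hΛ : IsFlow dS T Λ) (hA : dS.Map dS A) (hσ : dS.Map dS σ)
    (h : ∀ s, σ s = Λ (A s, c)) (hAΛ : ∀ s t, A (Λ (s, t)) = Λ (A s, t)) (w : Form dS) :
    J Λ hΛ.map T (Form.pull σ hσ w) = J Λ hΛ.map T (Form.pull A hA w) := by
  rw [pull_sigma hΛ hA hσ h, ← pull_J hΛ.map hΛ.map hA hAΛ, J_flow hΛ c w,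
    pull_J hΛ.map hΛ.map hA hAΛ]

/-- the form `b` with the deck transformation is the form `b` with the antipodal map -/
theorem b_sigma (hΛ : IsFlow dS T Λ) (hA : dS.Map dS A) (hσ : dS.Map dS σ)
    (h : ∀ s, σ s = Λ (A s, c)) (hAΛ : ∀ s t, A (Λ (s, t)) = Λ (A s, t)) (w : Form dS) :
    J Λ hΛ.map T (w - Form.pull σ hσ w) = J Λ hΛ.map T (w - Form.pull A hA w) := by
  rw [J_sub, J_sub, J_sigma hΛ hA hσ h hAΛ]

/-- `A^* b = -b` -/
theorem pull_A_b (hΛ : IsFlow dS T Λ) (hA : dS.Map dS A) (hAA : ∀ s, A (A s) = s)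
    (hAΛ : ∀ s t, A (Λ (s, t)) = Λ (A s, t)) (w : Form dS) :
    Form.pull A hA (J Λ hΛ.map T (w - Form.pull A hA w)) =
      -J Λ hΛ.map T (w - Form.pull A hA w) := by
  have h1 : Form.pull A hA (Form.pull A hA w) = w :=
    (pull_pull (k := fun s : S => s) hA hA (fun h => h) hAA w).trans (Form.pull_id _ w)
  rw [pull_J hΛ.map hΛ.map hA hAΛ, pull_sub', h1, ← J_neg, neg_sub]

end Bridge

section Sym

variable {X S : Type*} {dX : Dif X} {dS : Dif S} {T T' : ℝ} {Λ : S × ℝ → S} {ψ : X × ℝ → X}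

/-- an equivariant homotopy: the homotopy integral of a basic form is basic -/
theorem K_equiv_basic (hΛ : IsFlow dS T Λ) (hψ : IsFlow dX T' ψ) {E : X × ℝ → S}
    (hE : (dX.prod (Dif.lin ℝ)).Map dS E) (hEψ : ∀ x t s, E (ψ (x, t), s) = Λ (E (x, s), t))
    {w : Form dS} (hw : Basic Λ hΛ.map w) : Basic ψ hψ.map (Form.K (Form.pull E hE w)) := by
  have h1 : ((dX.prod (Dif.lin ℝ)).prod (Dif.lin ℝ)).Map dS (fun p => E (ψ p.1, p.2)) :=
    fun {E'} _ _ _ {u x} hh => hE (map_cyl hψ.map hh)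
  have h2 : ((dX.prod (Dif.lin ℝ)).prod (Dif.lin ℝ)).Map (dS.prod (Dif.lin ℝ))
      (fun p => (E (p.1.1, p.2), p.1.2)) :=
    fun {E'} _ _ _ {u x} hh => ⟨hE ⟨hh.1.1, hh.2⟩, hh.1.2⟩
  have h3 : ((dX.prod (Dif.lin ℝ)).prod (Dif.lin ℝ)).Map dS (fun p => E (p.1.1, p.2)) :=
    fun {E'} _ _ _ {u x} hh => hE ⟨hh.1.1, hh.2⟩
  rw [basic_def, ← K_nat hψ.map, pr, ← K_nat Dif.map_fst]
  congr 1
  rw [pull_pull (map_cyl hψ.map) hE h1 (fun _ => rfl),
    pull_pull (map_cyl Dif.map_fst) hE h3 (fun _ => rfl),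
    ← pull_pull h2 hΛ.map h1 (fun p => (hEψ _ _ _).symm), hw]
  exact pull_pull h2 Dif.map_fst h3 (fun _ => rfl) w

/-- **the symmetry lemma** -/
theorem sym_zero (hΛ : IsFlow dS T Λ) (hψ : IsFlow dX T' ψ)
    {α : Form dS} (hα : Form.pull Λ hΛ.map α = pr α + dt)
    {A : S → S} (hA : dS.Map dS A) (hAΛ : ∀ s t, A (Λ (s, t)) = Λ (A s, t))
    {b : Form dS} (hbb : Basic Λ hΛ.map b) (hbd : b.d = 0)
    (hAb : Form.pull A hA b = -b)
    {I : Form dX →ₗ[ℝ] ℝ} (hI : ∀ w : Form dX, I w.d = 0)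
    (hIψ : ∀ w : Form dX, Basic ψ hψ.map w → I w = 0)
    {E : X × ℝ → S} (hE : (dX.prod (Dif.lin ℝ)).Map dS E)
    (hEψ : ∀ x t s, E (ψ (x, t), s) = Λ (E (x, s), t))
    {r : X → X} (hr : dX.Map dX r) (hIr : ∀ w : Form dX, I (Form.pull r hr w) = I w)
    (hAE : ∀ x, A (E (x, 0)) = E (r x, 1)) :
    I (Form.pull (fun x => E (x, 0)) (map_at hE 0) (α * b)) = 0 := by
  have hE0 : dX.Map dS (fun x => E (x, 0)) := map_at hE 0
  have hE1 : dX.Map dS (fun x => E (x, 1)) := map_at hE 1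
  -- the integral does not change along `E`
  have h1 : I (Form.pull (fun x => E (x, 1)) hE1 (α * b)) =
      I (Form.pull (fun x => E (x, 0)) hE0 (α * b)) := by
    have h := I_K_d hI (Form.pull E hE (α * b))
    rw [at_pull_of, at_pull_of, ← Form.pull_d, d_mul_closed _ hbd,
      hIψ _ (K_equiv_basic hΛ hψ hE hEψ (Basic.mul (basic_d_contact hΛ hα) hbb))] at h
    linarith
  -- the symmetry
  have hAα : Basic Λ hΛ.map (Form.pull A hA α - α) := by
    have h2 : (dS.prod (Dif.lin ℝ)).Map dS (fun p => A (Λ p)) :=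
      Dif.Map.comp (f := Λ) (g := A) hA hΛ.map
    have e1 : Form.pull Λ hΛ.map (Form.pull A hA α) = pr (Form.pull A hA α) + dt := by
      rw [pull_pull hΛ.map hA h2 (fun _ => rfl),
        ← pull_pull (map_cyl hA) hΛ.map h2 (fun p => (hAΛ _ _).symm), hα, pull_add',
        pull_pr hA, pull_dt hA]
    rw [basic_def, pull_sub', e1, hα, pr_sub]
    abel
  have hbasic : I (Form.pull (fun x => E (x, 0)) hE0 ((Form.pull A hA α - α) * b)) = 0 := by
    refine hIψ _ ?_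
    have h2 : (dX.prod (Dif.lin ℝ)).Map dS (fun p => E (ψ p, 0)) :=
      Dif.Map.comp (f := ψ) (g := fun x => E (x, 0)) hE0 hψ.map
    rw [basic_def, pull_pull hψ.map hE0 h2 (fun _ => rfl),
      ← pull_pull (map_cyl hE0) hΛ.map h2 (fun p => (hEψ _ _ _).symm),
      Basic.mul hAα hbb, pull_pr hE0]
  have h3 : Form.pull (fun x => E (x, 0)) hE0 (Form.pull A hA (α * b)) =
      Form.pull r hr (Form.pull (fun x => E (x, 1)) hE1 (α * b)) := by
    have h2 : dX.Map dS (fun x => A (E (x, 0))) :=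
      Dif.Map.comp (f := fun x => E (x, 0)) (g := A) hA hE0
    rw [pull_pull hE0 hA h2 (fun _ => rfl)]
    exact (pull_pull hr hE1 h2 (fun x => (hAE x).symm) _).symm
  have h4 := congrArg I h3
  rw [hIr, h1, pull_mul', hAb] at h4
  have h5 : Form.pull A hA α * -b = -(α * b) - (Form.pull A hA α - α) * b := by
    noncomm_ring
  have hneg : ∀ w : Form dS, Form.pull (fun x => E (x, 0)) hE0 (-w) =
      -Form.pull (fun x => E (x, 0)) hE0 w := fun w =>
    map_neg (Form.pullA (fun x => E (x, 0)) hE0) w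
  rw [h5, pull_sub', map_sub, hbasic, sub_zero, hneg, map_neg] at h4
  linarith

end Sym

section Main

variable {X S S₀ M : Type*} {dX : Dif X} {dS : Dif S} {dS₀ : Dif S₀} {dM : Dif M}

/-- **(I4), formal evaluation, in the shape of the quadratic relation `A3.rel4`**: `σ = Λ_c ∘ A`
is the deck transformation, `C (·, 1) = E (·, 0)` the sphere, `E` the homotopy from the sphere
through `b₀` to the sphere through `A b₀`, `C` the homotopy into one fibre. -/
theorem eval_sigma {T : ℝ} (hT : T ≠ 0) {Λ : S × ℝ → S} (hΛ : IsFlow dS T Λ)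
    {foot : S → M} (hfoot : dS.Map dM foot)
    {A σ : S → S} {c : ℝ} (hA : dS.Map dS A) (hσ : dS.Map dS σ) (hσA : ∀ s, σ s = Λ (A s, c))
    (hAf : ∀ s, foot (A s) = foot s) (hAA : ∀ s, A (A s) = s)
    (hAΛ : ∀ s t, A (Λ (s, t)) = Λ (A s, t))
    {g : S × ℝ → M} (hg : (dS.prod (Dif.lin ℝ)).Map dM g) (hg0 : ∀ s, g (s, 0) = foot s)
    (hg1 : ∀ s t, g (Λ (s, t), 1) = g (s, 1))
    {F : Form dM} (hF : F.d = 0) (hF4 : WF.IsDeg F 4)
    {α : Form dS} (hα : Form.pull Λ hΛ.map α = pr α + dt) (hαo : α.sg = -α)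
    {b : Form dS} (hb : b = J Λ hΛ.map T (Form.K (Form.pull g hg F) -
      Form.pull σ hσ (Form.K (Form.pull g hg F))))
    {a μ : ℝ} {ρ : Form dS} (hρ : Basic Λ hΛ.map ρ)
    (hrel : b ^ 2 = a • (T⁻¹ • α.d) ^ 2 +
      μ • (Form.pull (fun s => g (s, 1)) (map_at hg 1) F +
          Form.pull σ hσ (Form.pull (fun s => g (s, 1)) (map_at hg 1) F)) + ρ.d)
    {T' : ℝ} (hT' : T' ≠ 0) {ψ : X × ℝ → X} (hψ : IsFlow dX T' ψ)
    {C : X × ℝ → S} (hC : (dX.prod (Dif.lin ℝ)).Map dS C)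
    {E : X × ℝ → S} (hE : (dX.prod (Dif.lin ℝ)).Map dS E)
    (hEψ : ∀ x t s, E (ψ (x, t), s) = Λ (E (x, s), t)) (hCE : ∀ x, C (x, 1) = E (x, 0))
    {r : X → X} (hr : dX.Map dX r) (hAE : ∀ x, A (E (x, 0)) = E (r x, 1))
    {q : X → S₀} (hq : dX.Map dS₀ q) {ι : S₀ → S} (hι : dS₀.Map dS ι)
    (hC0 : ∀ x, C (x, 0) = ι (q x))
    {I : Form dX →ₗ[ℝ] ℝ} (hI : ∀ w : Form dX, I w.d = 0)
    (hIψ : ∀ w : Form dX, Basic ψ hψ.map w → I w = 0)
    (hIr : ∀ w : Form dX, I (Form.pull r hr w) = I w)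
    (hI0 : ∀ w : Form dS₀, I (Form.pull q hq w) = 0)
    {k : ℝ} {o ζ : Form dS₀} (ho2 : WF.IsDeg o 2) (hζ1 : WF.IsDeg ζ 1)
    (hob : Form.pull ι hι b = k • o + ζ.d)
    {τ : Form dX} (hτ1 : WF.IsDeg τ 1) (hτ : τ.d = Form.pull q hq o)
    (hc : WF.SConn dX) (x₀ : X) :
    a * I (Form.pull (fun x => C (x, 1)) (map_at hC 1) ((T⁻¹ • α) * (T⁻¹ • α.d))) =
      -(k ^ 2 * I (τ * Form.pull q hq o)) - 2 * μ *
        (I (Form.K (Form.pull (fun p => foot (C p))
          (Dif.Map.comp (f := C) (g := foot) hfoot hC) F)) +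
        I (Form.pull (fun x => C (x, 1)) (map_at hC 1) (Form.K (Form.pull g hg F)))) := by
  have hb' : b = J Λ hΛ.map T (Form.K (Form.pull g hg F) -
      Form.pull A hA (Form.K (Form.pull g hg F))) := by
    rw [hb, b_sigma hΛ hA hσ hσA hAΛ]
  have hFpb : Basic Λ hΛ.map (Form.pull (fun s => g (s, 1)) (map_at hg 1) F) :=
    basic_pull (map_at hg 1) hg1 F
  have hAb : Form.pull A hA b = -b := by
    rw [hb']
    exact pull_A_b hΛ hA hAA hAΛ _
  have hbb : Basic Λ hΛ.map b := by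
    rw [hb]
    exact J_basic hΛ _
  have hbd : b.d = 0 := by
    have hKgd : (Form.K (Form.pull g hg F)).d = Form.pull (fun s => g (s, 1)) (map_at hg 1) F -
        Form.pull foot hfoot F := by
      have h := homotopy' (Form.pull g hg F)
      rw [← Form.pull_d, hF, pull_zero', K_zero, zero_add, at_pull_of hg] at h
      have h0 : at_ 0 (Form.pull g hg F) = Form.pull foot hfoot F :=
        pull_pull (Form.map_slice 0) hg hfoot hg0 F
      rw [h0] at h
      exact h.symm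
    have hAfoot : Form.pull A hA (Form.pull foot hfoot F) = Form.pull foot hfoot F :=
      pull_pull hA hfoot hfoot hAf F
    have h3 := J_d hΛ (Form.K (Form.pull g hg F) - Form.pull A hA (Form.K (Form.pull g hg F)))
    have h4 : Form.pull A hA (Form.pull (fun s => g (s, 1)) (map_at hg 1) F) =
        Form.pull (fun s => g (A s, 1)) (fun h => map_at hg 1 (hA h)) F :=
      pull_pull hA (map_at hg 1) _ (fun s => rfl) F
    have h5 : Basic Λ hΛ.map (Form.pull (fun s => g (A s, 1)) (fun h => map_at hg 1 (hA h)) F) :=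
      basic_pull _ (fun s t => by rw [hAΛ, hg1]) F
    rw [Form.d_sub, ← Form.pull_d, hKgd, pull_sub', hAfoot, sub_sub_sub_cancel_right, h4, J_sub,
      J_of_basic T hFpb, J_of_basic T h5, sub_zero, ← hb'] at h3
    exact neg_eq_zero.1 h3.symm
  have hj : Form.pull (fun x => C (x, 1)) (map_at hC 1) (α * b) =
      Form.pull (fun x => E (x, 0)) (map_at hE 0) (α * b) :=
    Form.pull_congr _ _ (funext hCE) _
  have hIb : I (Form.pull (fun x => C (x, 1)) (map_at hC 1) (α * b)) = 0 := by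
    rw [hj]
    exact sym_zero hΛ hψ hα hA hAΛ hbb hbd hAb hI hIψ hE hEψ hr hIr hAE
  refine eval hT hΛ hfoot hA hAf hAΛ hg hg0 hg1 hF hF4 hα hαo hb' hρ ?_ hT' hψ hC
    (fun x t => by rw [hCE, hCE, hEψ]) hq hι hC0 hI hIψ hI0 hIb ho2 hζ1 hob hτ1 hτ hc x₀
  rw [← pow_two, ← pow_two, hrel, pull_sigma_of_basic hΛ hA hσ hσA hFpb]

end Main

end Vale.Agent.P231.S2I
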