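import Vale.Agent.P231.Fm.DegSphere

/-!
# P231, block S2-I (I6): a global frame for a smooth family of subspaces over a vector space
-/

set_option linter.unusedSectionVars false

open Module Set Filter Metric
open scoped ContDiff Topology

noncomputable section

namespace Vale.Agent.P231.S2I

variable {V : Type*} [NormedAddCommGroup V] [InnerProductSpace ℝ V] [FiniteDimensional ℝ V]
variable {T : Type*} [NormedAddCommGroup T] [InnerProductSpace ℝ T] [FiniteDimensional ℝ T]

/-- truncation -/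
def tcc (x : V) : V := Real.smoothTransition (10 - ‖x‖ ^ 2) • x

theorem tcc_eq {x : V} (h : ‖x‖ ≤ 3) : tcc x = x := by
  rw [tcc, Real.smoothTransition.one_of_one_le (by nlinarith [norm_nonneg x]), one_smul]

theorem norm_tcc (x : V) : ‖tcc x‖ ≤ 4 := by
  rw [tcc, norm_smul, Real.norm_eq_abs, abs_of_nonneg (Real.smoothTransition.nonneg _)]
  rcases le_or_gt ‖x‖ 4 with h | h
  · calc Real.smoothTransition (10 - ‖x‖ ^ 2) * ‖x‖ ≤ 1 * ‖x‖ := by
          gcongr
          exact Real.smoothTransition.le_one _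
      _ ≤ 4 := by linarith
  · rw [Real.smoothTransition.zero_of_nonpos (by nlinarith), zero_mul]
    norm_num

theorem contDiff_tcc : ContDiff ℝ ∞ (tcc : V → V) :=
  (Real.smoothTransition.contDiff.comp (contDiff_const.sub (contDiff_norm_sq ℝ))).smul contDiff_id

theorem tcc_zero : tcc (0 : V) = 0 := by
  rw [tcc, smul_zero]

/-- the frame at the points of a subdivision -/
def frk (R : V → T →L[ℝ] T) (A0 : V →L[ℝ] T) (n : ℕ) : ℕ → V → V →L[ℝ] T
  | 0, _ => A0
  | k + 1, x => (R ((((k + 1 : ℕ) : ℝ) / n) • tcc x)).comp (frk R A0 n k x)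

/-- **a global frame** -/
theorem exists_frameV {R : V → T →L[ℝ] T} (hR : ContDiff ℝ ∞ R)
    (hi : ∀ x v, R x (R x v) = R x v)
    (hrk : finrank ℝ (LinearMap.range (R 0 : T →ₗ[ℝ] T)) = finrank ℝ V) :
    ∃ (A : V → V →L[ℝ] T) (A0 : V →ₗᵢ[ℝ] T), ContDiff ℝ ∞ A ∧ (∀ x, Function.Injective (A x)) ∧
      (∀ x v, R (tcc x) (A x v) = A x v) ∧ ∀ v, A 0 v = A0 v := by
  -- the isometry at the origin
  let P := LinearMap.range (R 0 : T →ₗ[ℝ] T)
  let b1 := stdOrthonormalBasis ℝ V
  let b2 := stdOrthonormalBasis ℝ P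
  let e : V ≃ₗᵢ[ℝ] P := b1.equiv b2 (finCongr hrk.symm)
  let A0 : V →ₗᵢ[ℝ] T := P.subtypeₗᵢ.comp e.toLinearIsometry
  have hA0 : ∀ v, R 0 (A0 v) = A0 v := by
    intro v
    obtain ⟨w, hw⟩ := (e v).2
    change R 0 ((e v : P) : T) = ((e v : P) : T)
    rw [← hw]
    exact hi 0 w
  -- the subdivision
  have huc := (isCompact_closedBall (0 : V) 4).uniformContinuousOn_of_continuous
    hR.continuous.continuousOn
  obtain ⟨δ, hδ, hδ'⟩ := Metric.uniformContinuousOn_iff.1 huc 1 one_pos
  obtain ⟨n, hn⟩ := exists_nat_gt (4 / δ)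
  have hn0 : (0 : ℝ) < n := (div_pos (by norm_num) hδ).trans hn
  have hn1 : 4 / (n : ℝ) < δ := by
    rw [div_lt_iff₀ hn0]
    rw [div_lt_iff₀ hδ] at hn
    linarith
  let q : ℕ → V → V := fun k x => ((k : ℝ) / n) • tcc x
  have hq : ∀ k ≤ n, ∀ x, q k x ∈ closedBall (0 : V) 4 := by
    intro k hk x
    rw [mem_closedBall_zero_iff, norm_smul, Real.norm_eq_abs, abs_of_nonneg (by positivity)]
    have h1 : (k : ℝ) / n ≤ 1 := by
      rw [div_le_one hn0]
      exact_mod_cast hk
    calc (k : ℝ) / n * ‖tcc x‖ ≤ 1 * ‖tcc x‖ := by gcongr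
      _ ≤ 4 := by linarith [norm_tcc x]
  have hstep : ∀ k < n, ∀ x, ‖R (q (k + 1) x) - R (q k x)‖ < 1 := by
    intro k hk x
    rw [← dist_eq_norm]
    refine hδ' _ (hq (k + 1) hk x) _ (hq k hk.le x) ?_
    have h1 : q (k + 1) x - q k x = (1 / (n : ℝ)) • tcc x := by
      simp only [q]
      push_cast
      rw [add_div]
      module
    rw [dist_eq_norm, h1, norm_smul, Real.norm_eq_abs, abs_of_pos (by positivity)]
    calc 1 / (n : ℝ) * ‖tcc x‖ ≤ 1 / (n : ℝ) * 4 := by
          gcongr
          exact norm_tcc x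
      _ = 4 / n := by ring
      _ < δ := hn1
  let B := frk R A0.toContinuousLinearMap n
  have hB : ∀ k ≤ n, ∀ x, (∀ v, R (q k x) (B k x v) = B k x v) ∧ Function.Injective (B k x) := by
    intro k
    induction k with
    | zero =>
      intro _ x
      refine ⟨fun v => ?_, A0.injective⟩
      have h0 : q 0 x = 0 := by simp [q]
      rw [h0]
      exact hA0 v
    | succ k ih =>
      intro hk x
      obtain ⟨i1, i2⟩ := ih (Nat.le_of_succ_le hk) x
      refine ⟨fun v => hi _ _, ?_⟩
      rw [injective_iff_map_eq_zero]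
      intro v hv
      have hv' : R (q (k + 1) x) (B k x v) = 0 := hv
      by_contra hv0
      have hz : B k x v ≠ 0 := fun h0 => hv0 (i2 (by rw [h0, map_zero]))
      have h1 : ‖B k x v‖ ≤ ‖R (q (k + 1) x) - R (q k x)‖ * ‖B k x v‖ := by
        have h2 : (R (q (k + 1) x) - R (q k x)) (B k x v) = -(B k x v) := by
          rw [sub_apply, hv', i1, zero_sub]
        calc ‖B k x v‖ = ‖(R (q (k + 1) x) - R (q k x)) (B k x v)‖ := by rw [h2, norm_neg]
          _ ≤ _ := ContinuousLinearMap.le_opNorm _ _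
      have h3 := hstep k hk x
      have h4 : 0 < ‖B k x v‖ := norm_pos_iff.2 hz
      nlinarith
  have hBs : ∀ k, ContDiff ℝ ∞ (B k) := by
    intro k
    induction k with
    | zero => exact contDiff_const
    | succ k ih =>
      have h1 : ContDiff ℝ ∞ (fun x => R ((((k + 1 : ℕ) : ℝ) / n) • tcc x)) :=
        hR.comp (contDiff_const.smul contDiff_tcc)
      exact h1.clm_comp ih
  have hB0 : ∀ k, B k 0 = A0.toContinuousLinearMap := by
    intro k
    induction k with
    | zero => rfl
    | succ k ih =>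
      change (R ((((k + 1 : ℕ) : ℝ) / n) • tcc 0)).comp (B k 0) = _
      rw [ih, tcc_zero, smul_zero]
      ext v
      exact hA0 v
  have hqn : ∀ x, q n x = tcc x := fun x => by
    simp only [q]
    rw [div_self hn0.ne', one_smul]
  refine ⟨B n, A0, hBs n, fun x => (hB n le_rfl x).2, fun x v => ?_, fun v => ?_⟩
  · rw [← hqn]
    exact (hB n le_rfl x).1 v
  · rw [hB0]
    rfl

/-- **solving in a frame** -/
theorem exists_solve {A : V → V →L[ℝ] T} (hA : ContDiff ℝ ∞ A)
    (hinj : ∀ x, Function.Injective (A x)) (u : V → T) :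
    ∃ g : V → V, (∀ x, ContDiffAt ℝ ∞ u x → ContDiffAt ℝ ∞ g x) ∧
      ∀ x, u x ∈ LinearMap.range (A x : V →ₗ[ℝ] T) → A x (g x) = u x := by
  let b := stdOrthonormalBasis ℝ V
  let S : V → V →L[ℝ] V := fun x => ∑ i, ((innerSL ℝ (A x (b i))).comp (A x)).smulRight (b i)
  let w : V → V := fun x => ∑ i, innerSL ℝ (A x (b i)) (u x) • b i
  have hS : ContDiff ℝ ∞ S := by
    refine ContDiff.sum fun i _ => ?_
    have h1 : ContDiff ℝ ∞ (fun x => innerSL ℝ (A x (b i))) :=
      (innerSL ℝ (E := T)).contDiff.comp (hA.clm_apply contDiff_const)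
    have h2 : ContDiff ℝ ∞ (fun x => (innerSL ℝ (A x (b i))).comp (A x)) := h1.clm_comp hA
    exact ((ContinuousLinearMap.smulRightL ℝ V V).flip (b i)).contDiff.comp h2
  have hSi : ∀ x, Function.Injective (S x) := by
    intro x
    rw [injective_iff_map_eq_zero]
    intro v hv
    have h1 : ∀ i, inner ℝ (A x (b i)) (A x v) = (0 : ℝ) := by
      intro i
      have h2 : S x v = ∑ i, inner ℝ (A x (b i)) (A x v) • b i := by
        simp only [S, sum_apply]
        rfl
      rw [h2] at hv
      have h3 := congrArg (fun z => inner ℝ (b i) z) hv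
      simp only [inner_zero_right] at h3
      rwa [b.orthonormal.inner_right_fintype] at h3
    have h4 : inner ℝ (A x v) (A x v) = (0 : ℝ) := by
      have h5 : v = ∑ i, inner ℝ (b i) v • b i := (b.sum_repr' v).symm
      have h6 : A x v = ∑ i, (inner ℝ (b i) v : ℝ) • A x (b i) := by
        conv_lhs => rw [h5]
        rw [map_sum]
        simp only [map_smul]
      have h7 : ∀ z, inner ℝ (A x v) z =
          ∑ i, inner ℝ (b i) v * (inner ℝ (A x (b i)) z : ℝ) := by
        intro z
        rw [h6, sum_inner]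
        simp only [real_inner_smul_left]
      rw [h7]
      refine Finset.sum_eq_zero fun i _ => ?_
      rw [h1, mul_zero]
    rw [inner_self_eq_zero] at h4
    exact hinj x (by rw [h4, map_zero])
  have hSu : ∀ x, IsUnit (S x) := by
    intro x
    rw [ContinuousLinearMap.isUnit_iff_bijective]
    exact ⟨hSi x, LinearMap.injective_iff_surjective.1
      (show Function.Injective (S x : V →ₗ[ℝ] V) from hSi x)⟩
  refine ⟨fun x => Ring.inverse (S x) (w x), fun x hx => ?_, fun x hx => ?_⟩
  · have h1 : ContDiffAt ℝ ∞ (fun y => Ring.inverse (S y)) x := by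
      obtain ⟨s, hs⟩ := hSu x
      have h2 : ContDiffAt ℝ ∞ Ring.inverse (S x) := by
        rw [← hs]
        exact contDiffAt_ringInverse ℝ s
      exact h2.comp x hS.contDiffAt
    have h3 : ContDiffAt ℝ ∞ w x := by
      refine ContDiffAt.sum fun i _ => ContDiffAt.smul ?_ contDiffAt_const
      have h4 : ContDiff ℝ ∞ (fun x => innerSL ℝ (A x (b i))) :=
        (innerSL ℝ (E := T)).contDiff.comp (hA.clm_apply contDiff_const)
      exact h4.contDiffAt.clm_apply hx
    exact h1.clm_apply h3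
  · obtain ⟨v, hv⟩ := hx
    have hv' : A x v = u x := hv
    have h1 : w x = S x v := by
      simp only [w, S, sum_apply]
      rw [← hv']
      rfl
    have h2 : Ring.inverse (S x) (w x) = v := by
      rw [h1, ← mul_apply_eq_comp, Ring.inverse_mul_cancel _ (hSu x)]
      rfl
    change A x (Ring.inverse (S x) (w x)) = u x
    rw [h2, hv']

end Vale.Agent.P231.S2I
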