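import Vale.Agent.P231.S2I.Hopf
import Vale.Agent.P231.Q.Deg

/-!
# P231, block S2-I (I5): the standard 2-form on Euclidean 3-space
-/

set_option linter.unusedSectionVars false

open Module MeasureTheory Set Metric Filter
open scoped ContDiff Topology RealInnerProductSpace

noncomputable section

namespace Vale.Agent.P231.S2I

open Fm
open Q (dR Cut)
open EN.Std (chr)

/-- Euclidean 3-space -/
abbrev R3 := EuclideanSpace ℝ (Fin 3)

/-- the underlying function -/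
def fl : R3 →L[ℝ] (Fin 3 → ℝ) := (EuclideanSpace.equiv (Fin 3) ℝ : R3 →L[ℝ] (Fin 3 → ℝ))

/-- the inverse -/
def lf3 : (Fin 3 → ℝ) →L[ℝ] R3 := ((EuclideanSpace.equiv (Fin 3) ℝ).symm : (Fin 3 → ℝ) →L[ℝ] R3)

theorem fl_apply (y : R3) (i : Fin 3) : fl y i = y i := rfl

theorem lf3_fl (y : R3) : lf3 (fl y) = y := rfl

theorem fl_lf3 (y : Fin 3 → ℝ) : fl (lf3 y) = y := rfl

theorem fl_ne {y : R3} (hy : y ≠ 0) : fl y ≠ 0 := fun h0 => hy (by
  rw [← lf3_fl y, h0, map_zero])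

theorem lf3_ne {y : Fin 3 → ℝ} (hy : y ≠ 0) : lf3 y ≠ 0 := fun h0 => hy (by
  rw [← fl_lf3 y, h0, map_zero])

/-- the coordinates -/
def pe (i : Fin 3) : R3 →L[ℝ] ℝ := (pj i).comp fl

theorem pe_apply (y : R3) (i : Fin 3) : pe i y = y i := rfl

/-- the contraction of the volume form with the position -/
def volE (y : R3) : Lam R3 :=
  pe 0 y • (dx (pe 1) * dx (pe 2)) + pe 1 y • (dx (pe 2) * dx (pe 0)) +
    pe 2 y • (dx (pe 0) * dx (pe 1))

/-- the closed 2-form on `ℝ³ \ 0` whose integral over the unit sphere is `1` -/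
def omE (y : R3) : Lam R3 := ((4 * Real.pi)⁻¹ * (‖y‖ ^ 3)⁻¹) • volE y

theorem norm_sq3 (y : R3) : ‖y‖ ^ 2 = pe 0 y ^ 2 + pe 1 y ^ 2 + pe 2 y ^ 2 := by
  rw [EuclideanSpace.norm_sq_eq, Fin.sum_univ_three]
  simp only [Real.norm_eq_abs, sq_abs]
  rfl

theorem n3_fl (y : R3) : n3 (fl y) = ‖y‖ ^ 2 := by
  rw [norm_sq3]
  rfl

theorem omE_eq (y : R3) : omE y = pb fl om y := by
  rw [pb, om, n3_fl, Real.sqrt_sq (norm_nonneg y), fl.fderiv, vol2]
  simp only [map_smul, map_add, map_mul, pull_dx]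
  rfl

theorem SM_omE : SM omE := by
  have h : omE = pb fl om := funext omE_eq
  rw [h]
  exact SM.of fun y hy => contDiffAt_pb (m := ∞) (n := ∞) fl.contDiff.contDiffAt
    (SM_om.at (fl_ne hy)) (by simp)

theorem isDeg_two (a b : R3 →L[ℝ] ℝ) : Q.IsDeg 2 (dx a * dx b) :=
  (Q.isDeg_dx a).mul (Q.isDeg_dx b)

theorem omE_deg (y : R3) : Q.IsDeg 2 (omE y) :=
  ((((isDeg_two _ _).smul _).add ((isDeg_two _ _).smul _)).add ((isDeg_two _ _).smul _)).smul _

/-- the volume form -/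
def vol3 : Lam R3 := dx (pe 0) * (dx (pe 1) * dx (pe 2))

theorem perm1 : dx (pe 1) * (dx (pe 2) * dx (pe 0)) = vol3 := by
  rw [vol3, dx_anticomm (pe 2) (pe 0), mul_neg, ← mul_assoc, dx_anticomm (pe 1) (pe 0), neg_mul,
    neg_neg, mul_assoc]

theorem perm2 : dx (pe 2) * (dx (pe 0) * dx (pe 1)) = vol3 := by
  rw [vol3, ← mul_assoc, dx_anticomm (pe 2) (pe 0), neg_mul, mul_assoc,
    dx_anticomm (pe 2) (pe 1), mul_neg, neg_neg]

theorem mul_volE (c0 c1 c2 : ℝ) (y : R3) :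
    (c0 • dx (pe 0) + c1 • dx (pe 1) + c2 • dx (pe 2)) * volE y =
      (c0 * pe 0 y + c1 * pe 1 y + c2 * pe 2 y) • vol3 := by
  have z01 : dx (pe 0) * (dx (pe 2) * dx (pe 0)) = 0 := by
    rw [dx_anticomm (pe 2) (pe 0), mul_neg, ← mul_assoc, dx_mul_self, zero_mul, neg_zero]
  have z02 : dx (pe 0) * (dx (pe 0) * dx (pe 1)) = 0 := by
    rw [← mul_assoc, dx_mul_self, zero_mul]
  have z10 : dx (pe 1) * (dx (pe 1) * dx (pe 2)) = 0 := by
    rw [← mul_assoc, dx_mul_self, zero_mul]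
  have z12 : dx (pe 1) * (dx (pe 0) * dx (pe 1)) = 0 := by
    rw [dx_anticomm (pe 0) (pe 1), mul_neg, ← mul_assoc, dx_mul_self, zero_mul, neg_zero]
  have z20 : dx (pe 2) * (dx (pe 1) * dx (pe 2)) = 0 := by
    rw [dx_anticomm (pe 1) (pe 2), mul_neg, ← mul_assoc, dx_mul_self, zero_mul, neg_zero]
  have z21 : dx (pe 2) * (dx (pe 2) * dx (pe 0)) = 0 := by
    rw [← mul_assoc, dx_mul_self, zero_mul]
  have e0 : dx (pe 0) * (dx (pe 1) * dx (pe 2)) = vol3 := rfl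
  rw [volE]
  simp only [mul_add, add_mul, smul_mul_assoc, mul_smul_comm, z01, z02, z10, z12, z20, z21, e0,
    perm1, perm2, smul_zero]
  module

theorem hasFDerivAt_norm3 {y : R3} (hy : y ≠ 0) : HasFDerivAt (fun y : R3 => ‖y‖)
    (‖y‖⁻¹ • (pe 0 y • pe 0 + pe 1 y • pe 1 + pe 2 y • pe 2)) y := by
  have hn : 0 < ‖y‖ := norm_pos_iff.2 hy
  have h : ∀ i, HasFDerivAt (fun z => pe i z) (pe i) y := fun i => (pe i).hasFDerivAt
  have h1 := (((h 0).pow 2).add ((h 1).pow 2)).add ((h 2).pow 2)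
  have h2 := h1.sqrt (by
    change pe 0 y ^ 2 + pe 1 y ^ 2 + pe 2 y ^ 2 ≠ 0
    rw [← norm_sq3]
    positivity)
  have h3 : (fun z : R3 => ‖z‖) =
      fun z => √(((fun z => pe 0 z) ^ 2 + (fun z => pe 1 z) ^ 2 + (fun z => pe 2 z) ^ 2) z) := by
    funext z
    change ‖z‖ = √(pe 0 z ^ 2 + pe 1 z ^ 2 + pe 2 z ^ 2)
    rw [← norm_sq3, Real.sqrt_sq (norm_nonneg z)]
  rw [h3]
  refine h2.congr_fderiv ?_
  ext v
  simp only [Pi.add_apply]
  rw [← norm_sq3, Real.sqrt_sq hn.le]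
  simp
  field_simp

theorem extd_volE (y : R3) : extd volE y = (3 : ℝ) • vol3 := by
  have h2 : ∀ (a : R3 →L[ℝ] ℝ) (c : Lam R3), extd (fun z : R3 => a z • c) y = dx a * c := by
    intro a c
    rw [extd_smul (f := fun z : R3 => a z) a.differentiableAt (differentiableAt_const c),
      extd_const, smul_zero, add_zero, ContinuousLinearMap.fderiv]
  have h3 : ∀ (a : R3 →L[ℝ] ℝ) (c : Lam R3), DifferentiableAt ℝ (fun z : R3 => a z • c) y :=
    fun a c => a.differentiableAt.smul_const c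
  unfold volE
  rw [extd_add ((h3 _ _).fun_add (h3 _ _)) (h3 _ _), extd_add (h3 _ _) (h3 _ _), h2, h2, h2, perm1,
    perm2]
  change vol3 + vol3 + vol3 = _
  module

theorem extd_omE {y : R3} (hy : y ≠ 0) : extd omE y = 0 := by
  have hn : 0 < ‖y‖ := norm_pos_iff.2 hy
  have h1 := ((hasFDerivAt_norm3 hy).pow 3)
  have h2 : HasFDerivAt (fun z : R3 => (4 * Real.pi)⁻¹ * (‖z‖ ^ 3)⁻¹) _ y :=
    ((hasDerivAt_inv (pow_pos hn 3).ne').comp_hasFDerivAt y h1).const_mul ((4 * Real.pi)⁻¹)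
  have h3 : ContDiffAt ℝ ∞ volE y := by
    unfold volE
    fun_prop
  unfold omE
  rw [extd_smul h2.differentiableAt (h3.differentiableAt (by simp)), h2.fderiv, extd_volE]
  simp only [map_smul, map_add, smul_smul, smul_add]
  rw [mul_volE]
  have h4 := norm_sq3 y
  rw [← add_smul]
  have hpi := Real.pi_ne_zero
  refine (congrArg (· • vol3) ?_).trans (zero_smul ℝ vol3)
  have h6 : ((4 * Real.pi)⁻¹ * (-((‖y‖ ^ 3) ^ 2)⁻¹ * (3 • ‖y‖ ^ (3 - 1) * (‖y‖⁻¹ * (pe 0) y))) *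
        (pe 0) y +
      (4 * Real.pi)⁻¹ * (-((‖y‖ ^ 3) ^ 2)⁻¹ * (3 • ‖y‖ ^ (3 - 1) * (‖y‖⁻¹ * (pe 1) y))) *
        (pe 1) y +
      (4 * Real.pi)⁻¹ * (-((‖y‖ ^ 3) ^ 2)⁻¹ * (3 • ‖y‖ ^ (3 - 1) * (‖y‖⁻¹ * (pe 2) y))) *
        (pe 2) y) + (4 * Real.pi)⁻¹ * (‖y‖ ^ 3)⁻¹ * 3 =
      (4 * Real.pi)⁻¹ * 3 * (‖y‖ ^ 5)⁻¹ * (‖y‖ ^ 2 - (pe 0 y ^ 2 + pe 1 y ^ 2 + pe 2 y ^ 2)) := by
    simp only [nsmul_eq_mul]
    field_simp
    norm_num
    ring
  rw [h6, ← h4, sub_self, mul_zero]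

/-! ### the integral over the unit sphere -/

theorem eval_vol3 : evalForm vol3 (EuclideanSpace.basisFun (Fin 3) ℝ) = 1 := by
  have h := cont_ofFn (E := R3) pe (EuclideanSpace.basisFun (Fin 3) ℝ) (fun i j => by
    rw [pe_apply]
    simp only [EuclideanSpace.basisFun_apply, PiLp.single_apply])
  rw [evalForm_apply]
  have h2 : (List.ofFn fun i => dx (pe i)).prod = vol3 := by
    simp [List.ofFn_succ, vol3]
  rw [← h2, h, map_one]

/-- the radial cutoff -/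
def r3 (y : R3) : ℝ := chr (‖y‖ ^ 2)

theorem cut_r3 : Cut r3 (closedBall 0 1) where
  smooth := EN.Std.contDiff_chr.comp (contDiff_norm_sq ℝ)
  compact := isCompact_closedBall _ _
  one z hz := by
    rw [mem_closedBall_zero_iff, not_le] at hz
    refine EN.Std.chr_one ?_
    nlinarith
  zero := by
    filter_upwards [ball_mem_nhds (0 : R3) (half_pos one_pos)] with z hz
    rw [mem_ball_zero_iff] at hz
    refine EN.Std.chr_zero ?_
    nlinarith [norm_nonneg z]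

theorem dR_r3 (y : R3) : dR r3 y = (deriv chr (‖y‖ ^ 2) * (2 * pe 0 y)) • dx (pe 0) +
    (deriv chr (‖y‖ ^ 2) * (2 * pe 1 y)) • dx (pe 1) +
    (deriv chr (‖y‖ ^ 2) * (2 * pe 2 y)) • dx (pe 2) := by
  have h : ∀ i, HasFDerivAt (fun z => pe i z) (pe i) y := fun i => (pe i).hasFDerivAt
  have h1 := (((h 0).pow 2).add ((h 1).pow 2)).add ((h 2).pow 2)
  have h2 : (fun z : R3 => ‖z‖ ^ 2) =
      (((fun z => pe 0 z ^ 2) + fun z => pe 1 z ^ 2) + fun z => pe 2 z ^ 2) := by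
    funext z
    exact norm_sq3 z
  rw [← h2] at h1
  have h3 : HasFDerivAt r3 _ y := HasDerivAt.comp_hasFDerivAt (h₂ := chr) y
    (EN.Std.contDiff_chr.differentiable (by simp) (‖y‖ ^ 2)).hasDerivAt h1
  rw [dR, h3.fderiv]
  simp only [map_smul, map_add, smul_add, smul_smul]
  simp

theorem eval_r3_omE {y : R3} (hy : y ≠ 0) :
    evalForm (dR r3 y * omE y) (EuclideanSpace.basisFun (Fin 3) ℝ) =
      (2 * Real.pi)⁻¹ * (deriv chr (‖y‖ ^ 2) * ‖y‖⁻¹) := by
  have hn : 0 < ‖y‖ := norm_pos_iff.2 hy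
  rw [dR_r3, omE, mul_smul_comm, mul_volE, Q.evalForm_smul, Q.evalForm_smul, eval_vol3]
  have h5 : deriv chr (‖y‖ ^ 2) * (2 * pe 0 y) * pe 0 y + deriv chr (‖y‖ ^ 2) * (2 * pe 1 y) *
      pe 1 y + deriv chr (‖y‖ ^ 2) * (2 * pe 2 y) * pe 2 y =
      deriv chr (‖y‖ ^ 2) * 2 * ‖y‖ ^ 2 := by
    conv_rhs => rw [mul_assoc, norm_sq3 y]
    rw [norm_sq3 y]
    ring
  rw [h5]
  have hpi := Real.pi_ne_zero
  field_simp
  ring

theorem omE_integral {r : R3 → ℝ} {K : Set R3} (hr : Cut r K) :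
    IS volume (EuclideanSpace.basisFun (Fin 3) ℝ) r omE = 1 := by
  have h0 := cut_indep volume (EuclideanSpace.basisFun (Fin 3) ℝ) SM_omE
    (fun y hy => by rw [extd_omE hy, Q.evalForm_zero]) hr cut_r3
  rw [IS, h0]
  have h1 : ∀ y : R3, evalForm (dR r3 y * omE y) (EuclideanSpace.basisFun (Fin 3) ℝ) =
      (fun t => (2 * Real.pi)⁻¹ * (deriv chr (t ^ 2) * t⁻¹)) ‖y‖ := by
    intro y
    rcases eq_or_ne y 0 with rfl | hy
    · rw [cut_r3.dR_near.self_of_nhds, zero_mul, Q.evalForm_zero]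
      simp
    · exact eval_r3_omE hy
  simp only [h1]
  rw [integral_fun_norm_addHaar (volume : Measure R3)
    (fun t => (2 * Real.pi)⁻¹ * (deriv chr (t ^ 2) * t⁻¹))]
  have hfr : finrank ℝ R3 = 3 := by simp
  have h2 : (volume : Measure R3).real (Metric.ball 0 1) = Real.pi * 4 / 3 := by
    rw [Measure.real, EuclideanSpace.volume_ball_fin_three]
    simp only [ENNReal.ofReal_one, one_pow, one_mul]
    exact ENNReal.toReal_ofReal (by positivity)
  have h3 : ∫ y in Ioi (0 : ℝ), y ^ (3 - 1) • ((2 * Real.pi)⁻¹ * (deriv chr (y ^ 2) * y⁻¹)) =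
      (2 * Real.pi)⁻¹ * (1 / 2) := by
    have h4 : ∀ y ∈ Ioi (0 : ℝ), y ^ (3 - 1) • ((2 * Real.pi)⁻¹ * (deriv chr (y ^ 2) * y⁻¹)) =
        (2 * Real.pi)⁻¹ * (y * deriv chr (y ^ 2)) := by
      intro y hy
      have hy0 : (y : ℝ) ≠ 0 := (mem_Ioi.1 hy).ne'
      simp only [smul_eq_mul]
      field_simp
    rw [setIntegral_congr_fun measurableSet_Ioi h4, integral_const_mul,
      EN.Std.radial_integral]
  rw [hfr, h2, h3]
  simp only [nsmul_eq_mul, smul_eq_mul]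
  have hpi := Real.pi_ne_zero
  push_cast
  field_simp
  norm_num

/-! ### the Hopf invariant, on Euclidean 3-space -/

section Main

variable {E : Type*} [NormedAddCommGroup E] [InnerProductSpace ℝ E] [FiniteDimensional ℝ E]
  [MeasurableSpace E] [BorelSpace E]

/-- the first column -/
def col (G : E → M3) (x : E) : R3 := lf3 fun i => G x i 0

theorem RotMap.norm_col {G : E → M3} (hG : RotMap G) {x : E} (hx : x ≠ 0) : ‖col G x‖ = 1 := by
  have h := (hG.so x hx).orth 0 0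
  rw [if_pos rfl] at h
  have h2 : ‖col G x‖ ^ 2 = 1 := by
    rw [norm_sq3, ← h]
    change G x 0 0 ^ 2 + G x 1 0 ^ 2 + G x 2 0 ^ 2 = _
    ring
  nlinarith [norm_nonneg (col G x)]

theorem RotMap.col_ne {G : E → M3} (hG : RotMap G) {x : E} (hx : x ≠ 0) : col G x ≠ 0 := fun h => by
  have := hG.norm_col hx
  rw [h, norm_zero] at this
  exact zero_ne_one this

theorem RotMap.at_col {G : E → M3} (hG : RotMap G) {x : E} (hx : x ≠ 0) :
    ContDiffAt ℝ ∞ (col G) x := by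
  have h1 : ContDiff ℝ ∞ (fun Q : M3 => lf3 fun i => Q i 0) := by fun_prop
  exact h1.contDiffAt.comp x (hG.at hx)

theorem col_pb {G : E → M3} (hG : RotMap G) {ζ : R3 → Lam R3} (hζ : SM ζ) (c : ℝ) {x : E}
    (hx : x ≠ 0) : pb (col G) (fun y => c • omE y + extd ζ y) x =
      pb (fun x i => G x i 0) (fun y => c • om y + extd (pb lf3 ζ) y) x := by
  have hc : DifferentiableAt ℝ (col G) x := (hG.at_col hx).differentiableAt (by simp)
  have h1 : pb (fun x => fl (col G x)) (fun y => c • om y + extd (pb lf3 ζ) y) x =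
      pb (col G) (pb fl (fun y => c • om y + extd (pb lf3 ζ) y)) x :=
    pb_comp _ fl.differentiableAt hc
  refine Eq.trans ?_ h1.symm
  rw [pb, pb]
  congr 1
  have hn : col G x ≠ 0 := hG.col_ne hx
  rw [pb_add, pb_const_smul, ← omE_eq]
  congr 1
  have hS : DifferentiableAt ℝ (pb lf3 ζ) (fl (col G x)) :=
    (contDiffAt_pb (m := ∞) (n := ∞) lf3.contDiff.contDiffAt
      (hζ.at (lf3_ne (fl_ne hn))) (by simp)).differentiableAt (by simp)
  rw [← extd_pb fl.contDiff.contDiffAt hS]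
  refine extd_congr ?_
  refine Filter.Eventually.of_forall fun y => ?_
  have h2 : pb (fun y => lf3 (fl y)) ζ y = pb fl (pb lf3 ζ) y :=
    pb_comp ζ lf3.differentiableAt fl.differentiableAt
  rw [← h2]
  exact (pb_id ζ y).symm

/-- the sphere of rotations comes from a map of the 3-sphere -/
theorem RotMap.exists_sph {G : E → M3} (hG : RotMap G) (b : OrthonormalBasis (Fin 4) ℝ E) :
    ∃ f : E → E, SphMap f ∧ ∀ x ≠ 0, (fun i => G x i 0) = hq b (f x) := by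
  have hE : finrank ℝ E = 4 := by rw [finrank_eq_card_basis b.toBasis, Fintype.card_fin]
  obtain ⟨L, hL1, hL2, hL3⟩ := exists_rotLift hG (by omega)
  let f : E → E := fun x => (L x).re • b 0 + (L x).imI • b 1 + (L x).imK • b 2 + (L x).imJ • b 3
  have hcf : ∀ x, cf b 0 (f x) = (L x).re ∧ cf b 1 (f x) = (L x).imI ∧
      cf b 2 (f x) = (L x).imK ∧ cf b 3 (f x) = (L x).imJ := by
    intro x
    simp [f, cf_b]
  have hfn : ∀ x, ‖f x‖ ^ 2 = ‖L x‖ ^ 2 := by
    intro x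
    obtain ⟨h0, h1, h2, h3⟩ := hcf x
    rw [← nsq_eq b, nsq_expl, h0, h1, h2, h3, sq ‖L x‖, ← Quaternion.normSq_eq_norm_mul_self,
      Quaternion.normSq_def']
    ring
  have hf : SphMap f := by
    refine ⟨fun x hx => ContDiffAt.contDiffWithinAt ?_, fun x hx => ?_, fun x hx c hc => ?_⟩
    · have h1 := hL1 x hx
      have c0 : ContDiffAt ℝ ∞ (fun y => (L y).re) x :=
        (contDiff_lin (fun q : Quaternion ℝ => q.re) (fun _ _ => rfl) (fun _ _ => rfl)).contDiffAt.comp x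
          h1
      have c1 : ContDiffAt ℝ ∞ (fun y => (L y).imI) x :=
        (contDiff_lin (fun q : Quaternion ℝ => q.imI) (fun _ _ => rfl) (fun _ _ => rfl)).contDiffAt.comp x
          h1
      have c2 : ContDiffAt ℝ ∞ (fun y => (L y).imJ) x :=
        (contDiff_lin (fun q : Quaternion ℝ => q.imJ) (fun _ _ => rfl) (fun _ _ => rfl)).contDiffAt.comp x
          h1
      have c3 : ContDiffAt ℝ ∞ (fun y => (L y).imK) x :=
        (contDiff_lin (fun q : Quaternion ℝ => q.imK) (fun _ _ => rfl) (fun _ _ => rfl)).contDiffAt.comp x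
          h1
      exact (((c0.smul contDiffAt_const).add (c1.smul contDiffAt_const)).add
        (c3.smul contDiffAt_const)).add (c2.smul contDiffAt_const)
    · have h1 := hfn x
      rw [(hL2 x hx).1] at h1
      nlinarith [norm_nonneg (f x)]
    · simp only [f, hL3 x hx c hc]
  refine ⟨f, hf, fun x hx => ?_⟩
  obtain ⟨h0, h1, h2, h3⟩ := hcf x
  obtain ⟨k0, k1, k2⟩ := (hL2 x hx).col
  funext i
  fin_cases i
  · change G x 0 0 = cf b 0 (f x) ^ 2 + cf b 1 (f x) ^ 2 - cf b 2 (f x) ^ 2 - cf b 3 (f x) ^ 2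
    rw [h0, h1, h2, h3, k0]
    ring
  · change G x 1 0 = 2 * (cf b 1 (f x) * cf b 3 (f x) + cf b 0 (f x) * cf b 2 (f x))
    rw [h0, h1, h2, h3, k1]
  · change G x 2 0 = 2 * (cf b 1 (f x) * cf b 2 (f x) - cf b 0 (f x) * cf b 3 (f x))
    rw [h0, h1, h2, h3, k2]

theorem Ah_deg (b : OrthonormalBasis (Fin 4) ℝ E) (z : E) : Q.IsDeg 1 (Ah b z) := by
  refine (Q.IsDeg.smul (Q.IsDeg.sum _ fun j _ => ?_) _).smul _
  exact ((Q.isDeg_dx _).smul _).sub ((Q.isDeg_dx _).smul _)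

/-- a primitive of degree one -/
theorem RotMap.exists_prim {G : E → M3} (hG : RotMap G) (b : OrthonormalBasis (Fin 4) ℝ E) :
    ∃ σ : E → Lam E, SM σ ∧ (∀ x, Q.IsDeg 1 (σ x)) ∧ ∀ x ≠ 0, extd σ x = pb (col G) omE x := by
  obtain ⟨f, hf, hg⟩ := hG.exists_sph b
  have hf0 : ∀ x ≠ 0, f x ≠ 0 := fun x hx h0 => by
    have := hf.norm x hx
    rw [h0, norm_zero] at this
    exact zero_ne_one this
  refine ⟨pb f (Ah b), hf.contDiffOn_pb (SM_Ah b), fun x => (Ah_deg b _).pull _, fun x hx => ?_⟩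
  have hfx : DifferentiableAt ℝ f x := (hf.at hx).differentiableAt (by simp)
  have hc : DifferentiableAt ℝ (col G) x := (hG.at_col hx).differentiableAt (by simp)
  rw [extd_pb ((hf.at hx).of_le two_le_inf) ((SM_Ah b).diff (hf0 x hx)), pb,
    ← hopf_prim b (hf0 x hx)]
  have h1 : pb (fun x => hq b (f x)) om x = pb f (pb (hq b) om) x :=
    pb_comp om ((contDiff_hq b).differentiable (by simp) _) hfx
  have h2 : pb (fun x => fl (col G x)) om x = pb (col G) (pb fl om) x :=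
    pb_comp _ fl.differentiableAt hc
  have h3 : pb (fun x => fl (col G x)) om x = pb (fun x => hq b (f x)) om x := by
    refine pb_congr _ ?_
    filter_upwards [isOpen_compl_singleton.mem_nhds hx] with y hy
    exact hg y hy
  change pb f (pb (hq b) om) x = _
  rw [← h1, ← h3, h2]
  exact congrArg (pull (fderiv ℝ (col G) x)) (omE_eq (col G x)).symm

/-- **the Hopf invariant of a sphere of rotations is an integer** -/
theorem exists_hopfE {G : E → M3} (hG : RotMap G) (b : OrthonormalBasis (Fin 4) ℝ E) :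
    ∃ H : ℤ, ∀ (c : ℝ) (ζ : R3 → Lam R3) (τ : E → Lam E), SM ζ → SM τ →
      (∀ x ≠ 0, extd τ x = pb (col G) (fun y => c • omE y + extd ζ y) x) →
      ∀ (r : E → ℝ) (K : Set E), Cut r K →
        IS volume b r (fun x => τ x * extd τ x) = c ^ 2 * H := by
  obtain ⟨H, hH⟩ := exists_hopf hG b
  refine ⟨H, fun c ζ τ hζ hτ hd r K hr => hH c (pb lf3 ζ) τ ?_ hτ (fun x hx => ?_) r K hr⟩
  · exact SM.of fun y hy => contDiffAt_pb (m := ∞) (n := ∞) lf3.contDiff.contDiffAt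
      (hζ.at (lf3_ne hy)) (by simp)
  · rw [hd x hx, col_pb hG hζ c hx]

end Main

end Vale.Agent.P231.S2I
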