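import Vale.Agent.P231.S2I.Px
import Vale.Agent.P231.S2I.OmE
import Vale.Agent.P231.S2I.Std
import Vale.Agent.P231.S2I.LH1

/-!
# P231, stage 2: integrality, the invariant `H` of the sphere in one fibre
-/

set_option linter.unusedSectionVars false
set_option linter.unusedVariables false

open MeasureTheory Set Module Filter Topology Metric
open scoped ContDiff

namespace Vale.Agent.P231.S2I

open Fm W H584
open Q (dR Cut)

instance : Nontrivial R3 := by
  have h : finrank ℝ R3 = 3 := by simp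
  exact Module.nontrivial_of_finrank_pos (R := ℝ) (by omega)

/-- the first column, in the punctured space -/
noncomputable def gcol {G : R4 → M3} (hG : RotMap G) (x : Px R4) : Px R3 :=
  ⟨col G x, hG.col_ne x.2⟩

theorem map_gcol {G : R4 → M3} (hG : RotMap G) : (dPx R4).Map (dPx R3) (gcol hG) := by
  refine map_of_at fun x hx => ?_
  change Sm (fun y => col G (ret y : R4)) x
  have h1 : Sm (col G) x := by
    filter_upwards [isOpen_compl_singleton.mem_nhds hx] with y hy using hG.at_col hy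
  refine h1.congr ?_
  filter_upwards [isOpen_compl_singleton.mem_nhds hx] with y hy
  rw [ret_val hy]

theorem gcol_ret {G : R4 → M3} (hG : RotMap G) {x : R4} (hx : x ≠ 0) :
    (fun y => ((gcol hG (ret y) : Px R3) : R3)) =ᶠ[𝓝 x] col G := by
  filter_upwards [isOpen_compl_singleton.mem_nhds hx] with y hy
  change col G (ret y : R4) = _
  rw [ret_val hy]

/-- the derivative of the first column is orthogonal to it -/
theorem inner_fderiv_col {G : R4 → M3} (hG : RotMap G) {x : R4} (hx : x ≠ 0) (v : R4) :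
    inner ℝ (col G x) (fderiv ℝ (col G) x v) = 0 := by
  have h1 : HasFDerivAt (col G) (fderiv ℝ (col G) x) x :=
    ((hG.at_col hx).differentiableAt (by simp)).hasFDerivAt
  have h2 : HasFDerivAt (fun y => ‖col G y‖ ^ 2) _ x := h1.norm_sq
  have h3 : (fun y => ‖col G y‖ ^ 2) =ᶠ[𝓝 x] fun _ => 1 := by
    filter_upwards [isOpen_compl_singleton.mem_nhds hx] with y hy
    rw [hG.norm_col hy, one_pow]
  have h4 := h2.unique ((hasFDerivAt_const (1 : ℝ) x).congr_of_eventuallyEq h3)
  have h5 := congrArg (fun L : R4 →L[ℝ] ℝ => L v) h4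
  simp only [_root_.smul_apply, ContinuousLinearMap.comp_apply,
    innerSL_apply_apply, _root_.zero_apply] at h5
  simpa using h5

theorem gcol_val {G : R4 → M3} (hG : RotMap G) (w : Form (dPx R3)) {x : R4} (hx : x ≠ 0) :
    (Form.pull (gcol hG) (map_gcol hG) w).val ret x =
      pull (fderiv ℝ (col G) x) (w.val ret (col G x)) := by
  rw [Form.pull_val _ _ (at_ret hx), val_eq_pb _ (map_gcol hG (at_ret hx))]
  change pb (fun y => ((gcol hG (ret y) : Px R3) : R3)) _ x = _
  rw [pb_congr _ (gcol_ret hG hx), pb]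

/-- forms pulled back by the first column have integral zero -/
theorem I3_gcol {G : R4 → M3} (hG : RotMap G) (w : Form (dPx R3)) :
    I3 (Form.pull (gcol hG) (map_gcol hG) w) = 0 := by
  refine ISp_eq_zero volume b4 cut_rst _ fun x hx => ?_
  set n := col G x with hn
  have hn1 : ‖n‖ = 1 := hG.norm_col hx
  have hn0 : n ≠ 0 := hG.col_ne hx
  have : Fact (finrank ℝ R3 = 2 + 1) := ⟨by simp⟩
  have hfr : finrank ℝ (ℝ ∙ n)ᗮ = 2 := Submodule.finrank_orthogonal_span_singleton hn0
  obtain ⟨v, hv0, hgv, hrv⟩ := exists_ker (V := R4) (F := ((ℝ ∙ n)ᗮ : Submodule ℝ R3))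
    (by rw [hfr]; simp) ((ℝ ∙ n)ᗮ.orthogonalProjectionOnto.comp (fderiv ℝ (col G) x))
    (fderiv ℝ rst x)
  have h1 : fderiv ℝ (col G) x v ∈ (ℝ ∙ n)ᗮ := by
    rw [Submodule.mem_orthogonal_singleton_iff_inner_right]
    exact inner_fderiv_col hG hx v
  have h2 : fderiv ℝ (col G) x v = 0 := by
    have h3 : (ℝ ∙ n)ᗮ.orthogonalProjectionOnto (fderiv ℝ (col G) x v) = 0 := hgv
    have h4 := (ℝ ∙ n)ᗮ.orthogonalProjectionOnto_mem_subspace_eq_self ⟨_, h1⟩
    have h5 : (ℝ ∙ n)ᗮ.orthogonalProjectionOnto (fderiv ℝ (col G) x v) = ⟨_, h1⟩ := h4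
    rw [h5] at h3
    exact congrArg Subtype.val h3
  refine eval_cut_eq_zero b4 hv0 hrv ?_
  rw [gcol_val hG w hx, pull_iprod, h2, Q.iprod_zero_left, map_zero]

/-- closed forms of degree two on the punctured three dimensional space -/
theorem exists_ze {w : Form (dPx R3)} (hd : w.d = 0) (hk : Form.IsDeg 2 w) {r : R3 → ℝ}
    {K : Set R3} (hr : Cut r K) : ∃ ζ : R3 → Lam R3, SM ζ ∧ ∀ y ≠ 0, w.val ret y =
      IS volume (EuclideanSpace.basisFun (Fin 3) ℝ) r (w.val ret) • omE y + extd ζ y := by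
  obtain ⟨ζ, h1, -, h2⟩ := exists_top_prim (F := R3) (EuclideanSpace.basisFun (Fin 3) ℝ) (j := 1)
    rfl (σ := w.val ret) (ω' := omE) (contDiffOn_val w)
    (fun x hx => by
      rw [← Form.d_val _ (at_ret hx), hd]
      exact Form.zero_val _ _)
    (fun x hx => DegC.q_val hk (at_ret hx)) SM_omE (fun x hx => extd_omE hx)
    (fun x _ => omE_deg x) hr (omE_integral hr)
  exact ⟨ζ, h1, h2⟩

/-- **the invariant `H`** -/
theorem exists_H {G : R4 → M3} (hG : RotMap G) {S : Type*} {dS : Dif S} {ι : Px R3 → S}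
    (hι : (dPx R3).Map dS ι) {j0 : Px R4 → S} (hj0 : (dPx R4).Map dS j0)
    (hj : ∀ x, j0 x = ι (gcol hG x)) {b0 b1 l : Form dS} {ε k : ℝ} (hε : ε ^ 2 = 1)
    (hl : b1 = ε • b0 + l.d)
    (hb0 : ∃ ζ : R3 → Lam R3, SM ζ ∧ ∀ y : R3, y ≠ 0 →
      (Form.pull ι hι b0).val ret y = k • omE y + extd ζ y) :
    ∃ H : ℤ, ∀ τ0 : Form (dPx R4), τ0.d = Form.pull j0 hj0 b1 → I3 (τ0 * τ0.d) = k ^ 2 * H := by
  obtain ⟨H, hH⟩ := exists_hopfE hG (EuclideanSpace.basisFun (Fin 4) ℝ)
  refine ⟨H, fun τ0 hτ => ?_⟩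
  obtain ⟨ζ0, hζ0, hb0⟩ := hb0
  have hζl : SM ((Form.pull ι hι l).val ret) := contDiffOn_val _
  have hζ : SM (fun y => ε • ζ0 y + (Form.pull ι hι l).val ret y) := (hζ0.smul ε).add hζl
  have hτs : SM (τ0.val ret) := contDiffOn_val _
  have hB : ∀ y : R3, y ≠ 0 → (Form.pull ι hι b1).val ret y =
      (ε * k) • omE y + extd (fun y => ε • ζ0 y + (Form.pull ι hι l).val ret y) y := by
    intro y hy
    have h1 : Form.pull ι hι b1 = ε • Form.pull ι hι b0 + (Form.pull ι hι l).d := by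
      rw [hl, pull_add', pull_smul', Form.pull_d]
    rw [h1, Form.add_val, Form.smul_val, hb0 y hy, Form.d_val _ (at_ret hy),
      extd_add (w := fun y => ε • ζ0 y) (v := (Form.pull ι hι l).val ret)
        ((hζ0.diff hy).const_smul ε) (hζl.diff hy), extd_const_smul ε (hζ0.diff hy), smul_add,
      smul_smul, add_assoc]
  have hd : ∀ x : R4, x ≠ 0 → extd (τ0.val ret) x = pb (col G) (fun y => (ε * k) • omE y +
      extd (fun y => ε • ζ0 y + (Form.pull ι hι l).val ret y) y) x := by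
    intro x hx
    have e1 : Form.pull j0 hj0 b1 = Form.pull (gcol hG) (map_gcol hG) (Form.pull ι hι b1) :=
      (pull_pull (map_gcol hG) hι hj0 (fun x => (hj x).symm) b1).symm
    rw [← Form.d_val _ (at_ret hx), hτ, e1, gcol_val hG _ hx, pb, hB _ (hG.col_ne hx)]
  have h1 := hH (ε * k) _ _ hζ hτs hd rst (closedBall 0 3) cut_rst
  have h2 : I3 (τ0 * τ0.d) = IS volume (EuclideanSpace.basisFun (Fin 4) ℝ) rst
      (fun x => τ0.val ret x * extd (τ0.val ret) x) := by
    rw [I3, ISp_apply, IS]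
    refine integral_congr_ae (Eventually.of_forall fun x => ?_)
    change evalForm (dR rst x * _) _ = evalForm (dR rst x * _) _
    rcases eq_or_ne x 0 with rfl | hx
    · rw [cut_rst.dR_near.self_of_nhds, zero_mul, zero_mul, Q.evalForm_zero, Q.evalForm_zero]
    · rw [Form.mul_val, Form.d_val _ (at_ret hx), b4, OrthonormalBasis.coe_toBasis]
  rw [h2, h1, mul_pow, hε, one_mul]

end Vale.Agent.P231.S2I
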