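import Vale.Agent.P231.S2I.Std

/-!
# P231, stage 2: integrality, part (I2), the equivariant map of the three dimensional sphere

`sph T Λ ρ x y = Λ_{t₂} ρ_χ Λ_{t₁} y` with `t₁ = T (φ₁ - φ₂) / 2π`, `t₂ = T (φ₁ + φ₂) / 2π`,
`φ_i = arg z_i`, where `Λ` has period `T`, `ρ` has period `2 π` and `ρ_π Λ_t = Λ_{-t} ρ_π`.
-/

set_option linter.unusedSectionVars false
set_option linter.unusedVariables false

open MeasureTheory Set Module Filter Topology Metric
open scoped ContDiff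

namespace Vale.Agent.P231.S2I

open Fm W H584
open Q (dR Cut)

/-! ### complex coordinates -/

/-- the first complex coordinate -/
noncomputable def z1 : R4 →L[ℝ] ℂ :=
  (EuclideanSpace.proj 0 : R4 →L[ℝ] ℝ).smulRight (1 : ℂ) +
    (EuclideanSpace.proj 1 : R4 →L[ℝ] ℝ).smulRight Complex.I

/-- the second complex coordinate -/
noncomputable def z2 : R4 →L[ℝ] ℂ :=
  (EuclideanSpace.proj 2 : R4 →L[ℝ] ℝ).smulRight (1 : ℂ) +
    (EuclideanSpace.proj 3 : R4 →L[ℝ] ℝ).smulRight Complex.I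

theorem z1_apply (x : R4) : z1 x = x 0 + x 1 * Complex.I := by
  simp [z1]

theorem z2_apply (x : R4) : z2 x = x 2 + x 3 * Complex.I := by
  simp [z2]

theorem norm_sq_z1 (x : R4) : ‖z1 x‖ ^ 2 = x 0 ^ 2 + x 1 ^ 2 := by
  rw [z1_apply, Complex.sq_norm, Complex.normSq_add_mul_I]

theorem norm_sq_z2 (x : R4) : ‖z2 x‖ ^ 2 = x 2 ^ 2 + x 3 ^ 2 := by
  rw [z2_apply, Complex.sq_norm, Complex.normSq_add_mul_I]

theorem norm_sq_eq (x : R4) : ‖x‖ ^ 2 = ‖z1 x‖ ^ 2 + ‖z2 x‖ ^ 2 := by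
  rw [norm_sq_z1, norm_sq_z2, EuclideanSpace.norm_sq_eq]
  simp [Fin.sum_univ_four]
  ring

theorem z1_Rot (c : ℝ) (x : R4) (t : ℝ) :
    z1 (Rot c (x, t)) = Complex.exp ((c * t : ℝ) * Complex.I) * z1 x := by
  rw [Complex.exp_mul_I, ← Complex.ofReal_cos, ← Complex.ofReal_sin, z1_apply, z1_apply]
  apply Complex.ext <;> simp [Rot, Jr_apply] <;> ring

theorem z2_Rot (c : ℝ) (x : R4) (t : ℝ) :
    z2 (Rot c (x, t)) = Complex.exp ((c * t : ℝ) * Complex.I) * z2 x := by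
  rw [Complex.exp_mul_I, ← Complex.ofReal_cos, ← Complex.ofReal_sin, z2_apply, z2_apply]
  apply Complex.ext <;> simp [Rot, Jr_apply] <;> ring

/-- the angle in the base -/
noncomputable def sx (x : R4) : ℝ := ‖z2 x‖ ^ 2 / ‖x‖ ^ 2

theorem sx_smul (x : R4) {c : ℝ} (hc : c ≠ 0) : sx (c • x) = sx x := by
  rw [sx, sx, map_smul, norm_smul, norm_smul, mul_pow, mul_pow,
    mul_div_mul_left _ _ (pow_ne_zero 2 (norm_ne_zero_iff.2 hc))]

theorem sx_Rot (c : ℝ) (x : R4) (t : ℝ) : sx (Rot c (x, t)) = sx x := by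
  rw [sx, sx, norm_Rot, z2_Rot, norm_mul, Complex.norm_exp_ofReal_mul_I, one_mul]

theorem sm_sx {x : R4} (hx : x ≠ 0) : Sm sx x := by
  have h1 : ContDiff ℝ ∞ (fun y : R4 => ‖z2 y‖ ^ 2) := (contDiff_norm_sq ℝ).comp z2.contDiff
  have h2 : ContDiffOn ℝ ∞ sx {0}ᶜ := fun y hy =>
    (h1.contDiffAt.div (contDiff_norm_sq ℝ).contDiffAt
      (pow_ne_zero 2 (norm_ne_zero_iff.2 hy))).contDiffWithinAt
  exact Sm.of_contDiffOn h2 isOpen_compl_singleton hx

theorem z1_ne_zero {x : R4} (hx : x ≠ 0) (h : sx x < 1) : z1 x ≠ 0 := by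
  intro h0
  have h1 : ‖x‖ ^ 2 ≠ 0 := pow_ne_zero 2 (norm_ne_zero_iff.2 hx)
  have h2 : sx x = 1 := by
    rw [sx, div_eq_one_iff_eq h1, norm_sq_eq, h0]
    simp
  linarith

theorem z2_ne_zero {x : R4} (h : 0 < sx x) : z2 x ≠ 0 := by
  intro h0
  rw [sx, h0] at h
  simp at h

/-- the angle of the rotation in the middle -/
noncomputable def chi (s : ℝ) : ℝ := Real.pi * Real.smoothTransition (3 * s - 1)

theorem contDiff_chi : ContDiff ℝ ∞ chi :=
  contDiff_const.mul (Real.smoothTransition.contDiff.comp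
    ((contDiff_const.mul contDiff_id).sub contDiff_const))

theorem chi_zero {s : ℝ} (h : s ≤ 1 / 3) : chi s = 0 := by
  rw [chi, Real.smoothTransition.zero_of_nonpos (by linarith), mul_zero]

theorem chi_pi {s : ℝ} (h : 2 / 3 ≤ s) : chi s = Real.pi := by
  rw [chi, Real.smoothTransition.one_of_one_le (by linarith), mul_one]

/-! ### local branches of the argument -/

/-- a smooth local branch of the argument near `w` -/
noncomputable def brn (w z : ℂ) : ℝ := Complex.arg (z / w) + Complex.arg w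

theorem brn_coe {w z : ℂ} (hw : w ≠ 0) (hz : z ≠ 0) :
    (brn w z : Real.Angle) = (Complex.arg z : Real.Angle) := by
  rw [brn, Real.Angle.coe_add, ← Complex.arg_mul_coe_angle (div_ne_zero hz hw) hw,
    div_mul_cancel₀ _ hw]

theorem sm_brn {w : ℂ} (hw : w ≠ 0) : Sm (brn w) w := by
  have h0 : ∀ᶠ z in 𝓝 w, z / w ∈ Complex.slitPlane := by
    have h1 : ContinuousAt (fun z => z / w) w := continuousAt_id.div_const w
    refine h1.eventually (Complex.isOpen_slitPlane.mem_nhds ?_)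
    change w / w ∈ _
    rw [div_self hw]
    exact Complex.one_mem_slitPlane
  filter_upwards [h0] with z hz
  have h2 : ContDiffAt ℝ ∞ Complex.log (z / w) := (Complex.contDiffAt_log hz).restrict_scalars ℝ
  have h3 : ContDiffAt ℝ ∞ (fun z : ℂ => z / w) z := by
    have : (fun z : ℂ => z / w) = fun z => z * w⁻¹ := by
      funext z
      rw [div_eq_mul_inv]
    rw [this]
    exact contDiffAt_id.mul contDiffAt_const
  have h4 : ContDiffAt ℝ ∞ (fun z : ℂ => Complex.log (z / w)) z :=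
    ContDiffAt.comp (g := Complex.log) (f := fun z : ℂ => z / w) z h2 h3
  have h5 : ContDiffAt ℝ ∞ (fun z : ℂ => (Complex.log (z / w)).im) z :=
    Complex.imCLM.contDiff.contDiffAt.comp z h4
  have h6 : brn w = fun z => (Complex.log (z / w)).im + Complex.arg w := by
    funext z
    rw [brn, Complex.log_im]
  rw [h6]
  exact h5.add contDiffAt_const

/-! ### the map -/

section Map

variable {Y : Type*} {D : Dif Y} {T : ℝ} {Λ ρ : Y × ℝ → Y}

theorem flow_nat (h : IsFlow D T Λ) (y : Y) (n : ℕ) : Λ (y, n * T) = y := by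
  induction n with
  | zero => rw [Nat.cast_zero, zero_mul, h.zero]
  | succ n ih =>
    have : ((n + 1 : ℕ) : ℝ) * T = n * T + T := by push_cast; ring
    rw [this, ← h.add, ih, h.per]

theorem flow_int (h : IsFlow D T Λ) (y : Y) (n : ℤ) : Λ (y, n * T) = y := by
  obtain ⟨m, rfl | rfl⟩ := n.eq_nat_or_neg
  · rw [Int.cast_natCast]
    exact flow_nat h y m
  · have h1 := h.add y ((-(m : ℤ) : ℤ) * T) (m * T)
    have h2 : (((-(m : ℤ) : ℤ) : ℝ) * T + m * T) = 0 := by push_cast; ring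
    rw [h2, h.zero, flow_nat h] at h1
    exact h1

theorem flow_add_int (h : IsFlow D T Λ) (y : Y) (t : ℝ) (n : ℤ) :
    Λ (y, t + n * T) = Λ (y, t) := by
  rw [← h.add, flow_int h]

/-- the composition of the three flows -/
noncomputable def jj (T : ℝ) (Λ ρ : Y × ℝ → Y) (a b θ : ℝ) (y : Y) : Y :=
  Λ (ρ (Λ (y, T / (2 * Real.pi) * (a - b)), θ), T / (2 * Real.pi) * (a + b))

/-- **the equivariant map of the sphere** -/
noncomputable def sph (T : ℝ) (Λ ρ : Y × ℝ → Y) (x : R4) (y : Y) : Y :=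
  jj T Λ ρ (Complex.arg (z1 x)) (Complex.arg (z2 x)) (chi (sx x)) y

theorem jj_angle (h : IsFlow D T Λ) {a a' b b' : ℝ} (ha : (a : Real.Angle) = a')
    (hb : (b : Real.Angle) = b') (θ : ℝ) (y : Y) : jj T Λ ρ a b θ y = jj T Λ ρ a' b' θ y := by
  obtain ⟨m, hm⟩ := Real.Angle.angle_eq_iff_two_pi_dvd_sub.1 ha
  obtain ⟨n, hn⟩ := Real.Angle.angle_eq_iff_two_pi_dvd_sub.1 hb
  have hpi := Real.pi_ne_zero
  have e1 : T / (2 * Real.pi) * (a - b) = T / (2 * Real.pi) * (a' - b') + ((m - n : ℤ) : ℝ) * T := by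
    have : a - b = a' - b' + 2 * Real.pi * (m - n) := by linarith
    rw [this]
    push_cast
    field_simp
  have e2 : T / (2 * Real.pi) * (a + b) = T / (2 * Real.pi) * (a' + b') + ((m + n : ℤ) : ℝ) * T := by
    have : a + b = a' + b' + 2 * Real.pi * (m + n) := by linarith
    rw [this]
    push_cast
    field_simp
  rw [jj, jj, e1, e2, flow_add_int h, flow_add_int h]

theorem jj_zero (h : IsFlow D T Λ) (hρ : IsFlow D (2 * Real.pi) ρ) (a b : ℝ) (y : Y) :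
    jj T Λ ρ a b 0 y = Λ (y, T / Real.pi * a) := by
  have hpi := Real.pi_ne_zero
  rw [jj, hρ.zero, h.add]
  congr 2
  field_simp
  ring

theorem jj_pi (h : IsFlow D T Λ) (hrev : ∀ y t, ρ (Λ (y, t), Real.pi) = Λ (ρ (y, Real.pi), -t))
    (a b : ℝ) (y : Y) : jj T Λ ρ a b Real.pi y = Λ (ρ (y, Real.pi), T / Real.pi * b) := by
  have hpi := Real.pi_ne_zero
  rw [jj, hrev, h.add]
  congr 2
  field_simp
  ring

theorem sph_eq (h : IsFlow D T Λ) {x : R4} {a b : ℝ}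
    (ha : (a : Real.Angle) = Complex.arg (z1 x)) (hb : (b : Real.Angle) = Complex.arg (z2 x))
    (y : Y) : sph T Λ ρ x y = jj T Λ ρ a b (chi (sx x)) y :=
  jj_angle h ha.symm hb.symm _ _

theorem sph_eq1 (h : IsFlow D T Λ) (hρ : IsFlow D (2 * Real.pi) ρ) {x : R4} (hx : sx x ≤ 1 / 3)
    {a : ℝ} (ha : (a : Real.Angle) = Complex.arg (z1 x)) (y : Y) :
    sph T Λ ρ x y = Λ (y, T / Real.pi * a) := by
  rw [sph_eq h ha rfl, chi_zero hx, jj_zero h hρ]

theorem sph_eq2 (h : IsFlow D T Λ) (hrev : ∀ y t, ρ (Λ (y, t), Real.pi) = Λ (ρ (y, Real.pi), -t))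
    {x : R4} (hx : 2 / 3 ≤ sx x) {b : ℝ} (hb : (b : Real.Angle) = Complex.arg (z2 x)) (y : Y) :
    sph T Λ ρ x y = Λ (ρ (y, Real.pi), T / Real.pi * b) := by
  rw [sph_eq h rfl hb, chi_pi hx, jj_pi h hrev]

/-- smoothness, also in the base point -/
theorem map_sph (h : IsFlow D T Λ) (hρ : IsFlow D (2 * Real.pi) ρ)
    (hrev : ∀ y t, ρ (Λ (y, t), Real.pi) = Λ (ρ (y, Real.pi), -t)) :
    ((dPx R4).prod D).Map D (fun p => sph T Λ ρ p.1 p.2) := by
  intro E _ _ _ u x hu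
  have hu1 : Sm (fun e => ((u e).1 : R4)) x := hu.1
  have hu2 : D.At (fun e => (u e).2) x := hu.2
  set x0 : R4 := ((u x).1 : R4) with hx0
  have hx0n : x0 ≠ 0 := (u x).1.2
  have hc : ContinuousAt (fun e => ((u e).1 : R4)) x := hu1.continuousAt
  have hsx : Sm (fun e => sx ((u e).1 : R4)) x :=
    Sm.comp (f := sx) (g := fun e => ((u e).1 : R4)) (sm_sx hx0n) hu1
  -- smooth branches
  have hz1 : Sm (fun e => z1 ((u e).1 : R4)) x :=
    Sm.comp (f := z1) (g := fun e => ((u e).1 : R4)) (Sm.of_contDiff z1.contDiff _) hu1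
  have hz2 : Sm (fun e => z2 ((u e).1 : R4)) x :=
    Sm.comp (f := z2) (g := fun e => ((u e).1 : R4)) (Sm.of_contDiff z2.contDiff _) hu1
  have hA1 : z1 x0 ≠ 0 → Sm (fun e => brn (z1 x0) (z1 ((u e).1 : R4))) x := fun h1 =>
    Sm.comp (f := brn (z1 x0)) (g := fun e => z1 ((u e).1 : R4)) (sm_brn h1) hz1
  have hA2 : z2 x0 ≠ 0 → Sm (fun e => brn (z2 x0) (z2 ((u e).1 : R4))) x := fun h1 =>
    Sm.comp (f := brn (z2 x0)) (g := fun e => z2 ((u e).1 : R4)) (sm_brn h1) hz2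
  have hev1 : z1 x0 ≠ 0 → ∀ᶠ e in 𝓝 x, z1 ((u e).1 : R4) ≠ 0 := fun h1 =>
    hz1.continuousAt.eventually_ne h1
  have hev2 : z2 x0 ≠ 0 → ∀ᶠ e in 𝓝 x, z2 ((u e).1 : R4) ≠ 0 := fun h1 =>
    hz2.continuousAt.eventually_ne h1
  have hmul : ∀ {f : E → ℝ} (c : ℝ), Sm f x → Sm (fun e => c * f e) x := fun {f} c hf =>
    hf.mono fun e he => contDiffAt_const.mul he
  by_cases h1 : sx x0 < 1 / 3
  · -- near `z₂ = 0`
    have h2 : z1 x0 ≠ 0 := z1_ne_zero hx0n (by linarith)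
    have h3 : D.At (Λ ∘ fun e => ((u e).2, T / Real.pi * brn (z1 x0) (z1 ((u e).1 : R4)))) x :=
      h.map ⟨hu2, hmul _ (hA1 h2)⟩
    refine D.congr h3 ?_
    filter_upwards [hsx.continuousAt.eventually (Iio_mem_nhds h1), hev1 h2] with e h4 h5
    exact (sph_eq1 h hρ (le_of_lt h4) (brn_coe h2 h5) _).symm
  by_cases h1' : 2 / 3 < sx x0
  · -- near `z₁ = 0`
    have h2 : z2 x0 ≠ 0 := z2_ne_zero (by linarith)
    have h3 : D.At (ρ ∘ fun e => ((u e).2, Real.pi)) x :=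
      hρ.map ⟨hu2, Sm.of_contDiff contDiff_const _⟩
    have h4 : D.At (Λ ∘ fun e => (ρ ((u e).2, Real.pi),
        T / Real.pi * brn (z2 x0) (z2 ((u e).1 : R4)))) x :=
      h.map ⟨h3, hmul _ (hA2 h2)⟩
    refine D.congr h4 ?_
    filter_upwards [hsx.continuousAt.eventually (Ioi_mem_nhds h1'), hev2 h2] with e h5 h6
    exact (sph_eq2 h hrev (le_of_lt h5) (brn_coe h2 h6) _).symm
  · rw [not_lt] at h1 h1'
    have h2 : z1 x0 ≠ 0 := z1_ne_zero hx0n (by linarith)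
    have h3 : z2 x0 ≠ 0 := z2_ne_zero (by linarith)
    have hchi : Sm (fun e => chi (sx ((u e).1 : R4))) x :=
      Sm.comp (f := chi) (g := fun e => sx ((u e).1 : R4)) (Sm.of_contDiff contDiff_chi _) hsx
    have ht1 : Sm (fun e => T / (2 * Real.pi) * (brn (z1 x0) (z1 ((u e).1 : R4)) -
        brn (z2 x0) (z2 ((u e).1 : R4)))) x := by
      filter_upwards [hA1 h2, hA2 h3] with e h4 h5 using contDiffAt_const.mul (h4.sub h5)
    have ht2 : Sm (fun e => T / (2 * Real.pi) * (brn (z1 x0) (z1 ((u e).1 : R4)) +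
        brn (z2 x0) (z2 ((u e).1 : R4)))) x := by
      filter_upwards [hA1 h2, hA2 h3] with e h4 h5 using contDiffAt_const.mul (h4.add h5)
    have h4 : D.At (Λ ∘ fun e => ((u e).2, T / (2 * Real.pi) *
        (brn (z1 x0) (z1 ((u e).1 : R4)) - brn (z2 x0) (z2 ((u e).1 : R4))))) x :=
      h.map ⟨hu2, ht1⟩
    have h5 : D.At (ρ ∘ fun e => (Λ ((u e).2, T / (2 * Real.pi) *
        (brn (z1 x0) (z1 ((u e).1 : R4)) - brn (z2 x0) (z2 ((u e).1 : R4)))),
          chi (sx ((u e).1 : R4)))) x := hρ.map ⟨h4, hchi⟩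
    have h6 : D.At (Λ ∘ fun e => (ρ (Λ ((u e).2, T / (2 * Real.pi) *
        (brn (z1 x0) (z1 ((u e).1 : R4)) - brn (z2 x0) (z2 ((u e).1 : R4)))),
          chi (sx ((u e).1 : R4))), T / (2 * Real.pi) * (brn (z1 x0) (z1 ((u e).1 : R4)) +
        brn (z2 x0) (z2 ((u e).1 : R4))))) x := h.map ⟨h5, ht2⟩
    refine D.congr h6 ?_
    filter_upwards [hev1 h2, hev2 h3] with e h7 h8
    exact (sph_eq h (brn_coe h2 h7) (brn_coe h3 h8) _).symm

theorem sph_smul (x : R4) {c : ℝ} (hc : 0 < c) (y : Y) :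
    sph T Λ ρ (c • x) y = sph T Λ ρ x y := by
  have h1 : Complex.arg (z1 (c • x)) = Complex.arg (z1 x) := by
    rw [map_smul, Complex.real_smul, Complex.arg_real_mul _ hc]
  have h2 : Complex.arg (z2 (c • x)) = Complex.arg (z2 x) := by
    rw [map_smul, Complex.real_smul, Complex.arg_real_mul _ hc]
  rw [sph, sph, h1, h2, sx_smul x hc.ne']

/-- equivariance under the circle action -/
theorem sph_Rot (hT : T ≠ 0) (h : IsFlow D T Λ) (hρ : IsFlow D (2 * Real.pi) ρ)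
    (hrev : ∀ y t, ρ (Λ (y, t), Real.pi) = Λ (ρ (y, Real.pi), -t)) {x : R4} (hx : x ≠ 0) (t : ℝ)
    (y : Y) : sph T Λ ρ (Rot (Real.pi / T) (x, t)) y = Λ (sph T Λ ρ x y, t) := by
  have hpi := Real.pi_ne_zero
  set c := Real.pi / T with hc
  have harg : ∀ {z : ℂ}, z ≠ 0 → (((Complex.arg z + c * t : ℝ) : Real.Angle)) =
      Complex.arg (Complex.exp ((c * t : ℝ) * Complex.I) * z) := by
    intro z hz
    rw [Complex.arg_mul_coe_angle (Complex.exp_ne_zero _) hz, Real.Angle.coe_add, add_comm]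
    congr 1
    rw [Complex.arg_exp_mul_I]
    exact (Real.Angle.coe_toIocMod _ _).symm
  have hs : sx (Rot c (x, t)) = sx x := sx_Rot c x t
  by_cases h1 : sx x < 1 / 3
  · have h2 : z1 x ≠ 0 := z1_ne_zero hx (by linarith)
    rw [sph_eq1 h hρ (by rw [hs]; exact h1.le) (a := Complex.arg (z1 x) + c * t)
      (by rw [z1_Rot]; exact harg h2), sph_eq1 h hρ h1.le rfl, h.add]
    congr 2
    rw [hc]
    field_simp
  by_cases h1' : 2 / 3 < sx x
  · have h2 : z2 x ≠ 0 := z2_ne_zero (by linarith)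
    rw [sph_eq2 h hrev (by rw [hs]; exact h1'.le) (b := Complex.arg (z2 x) + c * t)
      (by rw [z2_Rot]; exact harg h2), sph_eq2 h hrev h1'.le rfl, h.add]
    congr 2
    rw [hc]
    field_simp
  · rw [not_lt] at h1 h1'
    have h2 : z1 x ≠ 0 := z1_ne_zero hx (by linarith)
    have h3 : z2 x ≠ 0 := z2_ne_zero (by linarith)
    rw [sph_eq h (a := Complex.arg (z1 x) + c * t) (b := Complex.arg (z2 x) + c * t)
      (by rw [z1_Rot]; exact harg h2) (by rw [z2_Rot]; exact harg h3), hs, sph, jj, jj, h.add]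
    have e1 : T / (2 * Real.pi) * (Complex.arg (z1 x) + c * t - (Complex.arg (z2 x) + c * t)) =
        T / (2 * Real.pi) * (Complex.arg (z1 x) - Complex.arg (z2 x)) := by ring
    have e2 : T / (2 * Real.pi) * (Complex.arg (z1 x) + c * t + (Complex.arg (z2 x) + c * t)) =
        T / (2 * Real.pi) * (Complex.arg (z1 x) + Complex.arg (z2 x)) + t := by
      rw [hc]
      field_simp
      ring
    rw [e1, e2]

/-! ### the symmetry -/

/-- `(z₁, z₂) ↦ (-z₁, z₂)` -/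
noncomputable def Rf : R4 →L[ℝ] R4 := LinearMap.toContinuousLinearMap
  { toFun := fun x => !₂[-x 0, -x 1, x 2, x 3]
    map_add' := fun x y => by
      ext i
      fin_cases i <;> simp <;> ring
    map_smul' := fun c x => by
      ext i
      fin_cases i <;> simp }

theorem Rf_apply (x : R4) : Rf x = !₂[-x 0, -x 1, x 2, x 3] := rfl

theorem Rf_Rf (x : R4) : Rf (Rf x) = x := by
  ext i
  fin_cases i <;> simp [Rf_apply]

theorem z1_Rf (x : R4) : z1 (Rf x) = -z1 x := by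
  simp [z1_apply, Rf_apply]
  ring

theorem z2_Rf (x : R4) : z2 (Rf x) = z2 x := by
  simp [z2_apply, Rf_apply]

theorem norm_Rf (x : R4) : ‖Rf x‖ = ‖x‖ := by
  have h : ‖Rf x‖ ^ 2 = ‖x‖ ^ 2 := by
    rw [norm_sq_eq, norm_sq_eq, z1_Rf, z2_Rf, norm_neg]
  exact (pow_left_inj₀ (norm_nonneg _) (norm_nonneg _) two_ne_zero).1 h

theorem sx_Rf (x : R4) : sx (Rf x) = sx x := by
  rw [sx, sx, norm_Rf, z2_Rf]

/-- `A j_y (z₁, z₂) = j_{A y} (-z₁, z₂)` -/
theorem sph_Rf (hT : T ≠ 0) (h : IsFlow D T Λ) (hρ : IsFlow D (2 * Real.pi) ρ)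
    (hrev : ∀ y t, ρ (Λ (y, t), Real.pi) = Λ (ρ (y, Real.pi), -t)) {A : Y → Y}
    (hAΛ : ∀ y t, A (Λ (y, t)) = Λ (A y, t)) (hAρ : ∀ y t, A (ρ (y, t)) = ρ (A y, -t))
    (hR : ∀ y t, ρ (y, -t) = Λ (ρ (Λ (y, T / 2), t), T / 2)) {x : R4} (hx : x ≠ 0) (y : Y) :
    A (sph T Λ ρ x y) = sph T Λ ρ (Rf x) (A y) := by
  have hpi := Real.pi_ne_zero
  by_cases h1' : 2 / 3 < sx x
  · rw [sph_eq2 h hrev h1'.le rfl, sph_eq2 h hrev (by rw [sx_Rf]; exact h1'.le)
      (b := Complex.arg (z2 x)) (by rw [z2_Rf]), hAΛ, hAρ]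
    congr 2
    have h2 := hρ.add (A y) (-Real.pi) (2 * Real.pi)
    rw [hρ.per] at h2
    rw [h2]
    congr 2
    ring
  · rw [not_lt] at h1'
    have h2 : z1 x ≠ 0 := z1_ne_zero hx (by linarith)
    have harg : ((Complex.arg (z1 x) + Real.pi : ℝ) : Real.Angle) =
        Complex.arg (z1 (Rf x)) := by
      rw [z1_Rf, Complex.arg_neg_coe_angle h2, Real.Angle.coe_add]
    rw [sph_eq h (x := Rf x) harg (b := Complex.arg (z2 x)) (by rw [z2_Rf]), sx_Rf, sph, jj, jj,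
      hAΛ, hAρ, hAΛ, hR, h.add, h.add]
    congr 3
    · congr 3
      field_simp
      ring
    · field_simp
      ring

/-- the reflection on the punctured space -/
noncomputable def RF (x : Px R4) : Px R4 := ⟨Rf x, fun h => x.2 (by
  have := norm_Rf (x : R4)
  rw [h, norm_zero] at this
  exact norm_eq_zero.1 this.symm)⟩

theorem RF_val (x : Px R4) : (RF x : R4) = Rf x := rfl

theorem map_RF : (dPx R4).Map (dPx R4) RF := by
  intro E _ _ _ u x hu
  change Sm (fun e => Rf (u e : R4)) x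
  exact Sm.comp (f := Rf) (g := fun e => (u e : R4)) (Sm.of_contDiff Rf.contDiff _) hu

/-- the reflection as a linear equivalence -/
noncomputable def RfE : R4 ≃L[ℝ] R4 := ContinuousLinearEquiv.equivOfInverse Rf Rf Rf_Rf Rf_Rf

theorem b4_repr (x : R4) (i : Fin 4) : b4.repr x i = x i := by
  simp [b4]

theorem b4_apply (i : Fin 4) : b4 i = EuclideanSpace.single i (1 : ℝ) := by
  simp [b4]

theorem Rf_entry (x : R4) (i : Fin 4) : Rf x i = (![-1, -1, 1, 1] : Fin 4 → ℝ) i * x i := by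
  rw [Rf_apply]
  fin_cases i <;> simp

theorem det_Rf : LinearMap.det (RfE : R4 →L[ℝ] R4).toLinearMap = 1 := by
  rw [← LinearMap.det_toMatrix b4]
  have h : LinearMap.toMatrix b4 b4 (RfE : R4 →L[ℝ] R4).toLinearMap =
      Matrix.diagonal (![-1, -1, 1, 1] : Fin 4 → ℝ) := by
    ext i j
    have h1 : (RfE : R4 →L[ℝ] R4).toLinearMap (b4 j) = Rf (b4 j) := rfl
    rw [LinearMap.toMatrix_apply, h1, b4_repr, Rf_entry, b4_apply, Matrix.diagonal_apply]
    by_cases hij : i = j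
    · subst hij
      simp
    · simp [hij]
  rw [h, Matrix.det_diagonal]
  simp [Fin.prod_univ_four]

theorem I3_RF (w : Form (dPx R4)) : I3 (Form.pull RF map_RF w) = I3 w :=
  ISp_linear volume b4 cut_rst RfE det_Rf (fun x => by
    change rst (Rf x) = rst x
    rw [rst, rst, norm_Rf]) map_RF (fun x => rfl) w

/-- the map of the sphere, with moving base point -/
noncomputable def Emap (T : ℝ) (Λ ρ : Y × ℝ → Y) (β : ℝ → Y) (p : Px R4 × ℝ) : Y :=
  sph T Λ ρ p.1 (β p.2)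

theorem map_Emap (h : IsFlow D T Λ) (hρ : IsFlow D (2 * Real.pi) ρ)
    (hrev : ∀ y t, ρ (Λ (y, t), Real.pi) = Λ (ρ (y, Real.pi), -t)) {β : ℝ → Y}
    (hβ : (Dif.lin ℝ).Map D β) : ((dPx R4).prod (Dif.lin ℝ)).Map D (Emap T Λ ρ β) := by
  refine Dif.Map.comp (D' := (dPx R4).prod D) (f := fun p : Px R4 × ℝ => (p.1, β p.2))
    (g := fun p : Px R4 × Y => sph T Λ ρ p.1 p.2) ?_ ?_
  · exact map_sph h hρ hrev
  · intro E _ _ _ u x hu
    exact ⟨hu.1, hβ hu.2⟩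

theorem Emap_ψ (hT : T ≠ 0) (h : IsFlow D T Λ) (hρ : IsFlow D (2 * Real.pi) ρ)
    (hrev : ∀ y t, ρ (Λ (y, t), Real.pi) = Λ (ρ (y, Real.pi), -t)) (β : ℝ → Y) (x : Px R4)
    (t s : ℝ) : Emap T Λ ρ β (ψr T (x, t), s) = Λ (Emap T Λ ρ β (x, s), t) :=
  sph_Rot hT h hρ hrev x.2 t _

theorem Emap_A (hT : T ≠ 0) (h : IsFlow D T Λ) (hρ : IsFlow D (2 * Real.pi) ρ)
    (hrev : ∀ y t, ρ (Λ (y, t), Real.pi) = Λ (ρ (y, Real.pi), -t)) {A : Y → Y}
    (hAΛ : ∀ y t, A (Λ (y, t)) = Λ (A y, t)) (hAρ : ∀ y t, A (ρ (y, t)) = ρ (A y, -t))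
    (hR : ∀ y t, ρ (y, -t) = Λ (ρ (Λ (y, T / 2), t), T / 2)) {β : ℝ → Y}
    (hβ : β 1 = A (β 0)) (x : Px R4) :
    A (Emap T Λ ρ β (x, 0)) = Emap T Λ ρ β (RF x, 1) := by
  change A (sph T Λ ρ x (β 0)) = sph T Λ ρ (RF x : R4) (β 1)
  rw [sph_Rf hT h hρ hrev hAΛ hAρ hR x.2, hβ]
  rfl

theorem Emap_hom (T : ℝ) (Λ ρ : Y × ℝ → Y) (β : ℝ → Y) (x y : Px R4) (c : ℝ) (hc : 0 < c)
    (hxy : (y : R4) = c • (x : R4)) (s : ℝ) : Emap T Λ ρ β (y, s) = Emap T Λ ρ β (x, s) := by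
  rw [Emap, Emap]
  simp only [hxy]
  exact sph_smul _ hc _

end Map

end Vale.Agent.P231.S2I
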