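import Vale.Agent.P231.S2I3.Flow
import Vale.Agent.P231.S2I.HPart
import Vale.Agent.P231.S2I.JMap
import Vale.Agent.P231.H766.PushL

/-!
# P231, stage 2: integrality, the sphere of `L_v` in the coordinates of a frame
-/

set_option maxSynthPendingDepth 3
set_option linter.unusedSectionVars false
set_option linter.unusedVariables false

open Bundle Manifold Set Filter Module
open scoped ContDiff Manifold Topology Real

namespace Vale.Agent.P231.S2I

noncomputable section

open Vale.Agent.P234 Vale.Agent.P231 Vale.Agent.P231.Fm Vale.Agent.P231.W Vale.Agent.P231.WR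
  Vale.Agent.P231.H766 Vale.Agent.P231.H775 Vale.Agent.P231.S2I3

variable {E : Type*} [NormedAddCommGroup E] [NormedSpace ℝ E]
  {M : Type*} [MetricSpace M] [ChartedSpace E M]
  [RiemannianBundle (fun x : M => TangentSpace 𝓘(ℝ, E) x)]
  {e : ∀ x : M, TangentSpace 𝓘(ℝ, E) x → M}
  [FiniteDimensional ℝ E] [IsManifold 𝓘(ℝ, E) ∞ M]
  [IsContMDiffRiemannianBundle 𝓘(ℝ, E) ∞ E (fun x : M => TangentSpace 𝓘(ℝ, E) x)]
  [CompactSpace M] [ConnectedSpace M] [IsRiemannianManifold 𝓘(ℝ, E) M]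

variable (F : Facts e) {D : ℝ} (hD : 0 < D) (hB : InjGE e D) (hdiam : ∀ p q : M, dist p q ≤ D)

/-- the normalised combination of the vectors of a frame -/
def iov (p : Fr e D 3) (y : R3) : E := ∑ i, (‖y‖⁻¹ * y i) • vec' (p.w i)

/-- the same as a tangent vector -/
def iov' (p : Fr e D 3) (y : R3) : TangentSpace 𝓘(ℝ, E) (foot p.v) :=
  ∑ i, (‖y‖⁻¹ * y i) • rv' (foot p.v) (fun i => vec' (p.w i)) i

theorem iov_eq (p : Fr e D 3) (y : R3) : iov p y = iov' p y := rfl

theorem nm_iov (p : Fr e D 3) {y : R3} (hy : y ≠ 0) : nm (foot p.v) (iov p y) = 1 := by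
  refine nm_eq_one ?_
  have hn : ‖y‖ ≠ 0 := norm_ne_zero_iff.2 hy
  have h0 := norm_sq3 y
  have hp : ∀ i, pe i y = y i := fun i => rfl
  rw [hp, hp, hp] at h0
  have h1 : ∀ i, ip (foot p.v) (vec' (p.w i)) (vec' (p.w i)) = 1 := fun i =>
    (p.isLF.isL i).ip_self
  have h2 := p.isLF.orth
  rw [iov, Fin.sum_univ_three]
  simp only [ip_add_left', ip_add_right', ip_smul_left', ip_smul_right', h1,
    h2 0 1 (by decide), h2 0 2 (by decide), h2 1 2 (by decide), h2 1 0 (by decide),
    h2 2 0 (by decide), h2 2 1 (by decide)]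
  field_simp
  linarith

/-- **the sphere of `L_v` in the coordinates of a frame** -/
def io (p : Fr e D 3) (y : Px R3) : Pr e D :=
  ⟨(p.v, W.mk (foot p.v) (iov p y) (nm_iov p y.2)),
    (isL_iff F hD hB hdiam (nm_iov p y.2)).1 (Submodule.sum_mem (p := Lf e D p.v) fun i _ =>
      Submodule.smul_mem _ _ (p.isLF.isL i).mem_Lf)⟩

@[simp] theorem io_v (p : Fr e D 3) (y : Px R3) : (io F hD hB hdiam p y).v = p.v := rfl

theorem io_w (p : Fr e D 3) (y : Px R3) : vec' (io F hD hB hdiam p y).w = iov p y := rfl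

/-- smoothness in the point of the sphere -/
theorem map_io (p : Fr e D 3) : (dPx R3).Map (dPr e D) (io F hD hB hdiam p) := by
  intro E' _ _ _ u x hu
  have hu' : Sm (fun s => (u s : R3)) x := hu
  refine ⟨Vale.Agent.P231.H583.at_const p.v x, ?_⟩
  change (dUT E M).At (fun s => (io F hD hB hdiam p (u s)).w) x
  rw [at_iff]
  filter_upwards [hu'] with s hs
  have hc : ∀ i, ContDiffAt ℝ ∞ (fun s => ‖(u s : R3)‖⁻¹ * (u s : R3) i) s := by
    intro i
    have h1 : ContDiffAt ℝ ∞ (fun s => ‖(u s : R3)‖) s := hs.norm ℝ (u s).2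
    have h2 : ContDiffAt ℝ ∞ (fun s => (u s : R3) i) s :=
      ((EuclideanSpace.proj i : R3 →L[ℝ] ℝ).contDiff.contDiffAt).comp s hs
    exact (h1.inv (norm_ne_zero_iff.2 (u s).2)).mul h2
  have hw : ∀ i, SmV (fun _ : E' => foot p.v)
      (fun _ => rv' (foot p.v) (fun i => vec' (p.w i)) i) s := fun i => contMDiffAt_const
  have h3 := SmV.sum (Finset.univ : Finset (Fin 3)) (f := fun _ : E' => foot p.v)
    (u := fun i s => (‖(u s : R3)‖⁻¹ * (u s : R3) i) •
      rv' (foot p.v) (fun i => vec' (p.w i)) i) (s := s) contMDiffAt_const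
    (fun i _ => SmV.smul (hc i) (hw i))
  exact h3

end

end Vale.Agent.P231.S2I
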