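import Vale.Agent.P231.S2I.Io
import Vale.Agent.P231.S2II.ValB

/-!
# P231, stage 2: integrality, comparison of the sphere integrals of a form on the space of pairs
-/

set_option maxSynthPendingDepth 3
set_option linter.unusedSectionVars false
set_option linter.unusedVariables false

open Bundle Manifold Set Filter Module MeasureTheory
open scoped ContDiff Manifold Topology Real

namespace Vale.Agent.P231.S2I

noncomputable section

open Vale.Agent.P234 Vale.Agent.P231 Vale.Agent.P231.Fm Vale.Agent.P231.W Vale.Agent.P231.WR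
open Vale.Agent.P231.S2II (kf kf_eq fam cone_w cone_v rct cut_rct Eul bas cb norm_nrm)

variable {E : Type*} [NormedAddCommGroup E] [NormedSpace ℝ E]
  {M : Type*} [MetricSpace M] [ChartedSpace E M]
  [RiemannianBundle (fun x : M => TangentSpace 𝓘(ℝ, E) x)]
  {e : ∀ x : M, TangentSpace 𝓘(ℝ, E) x → M}
  [FiniteDimensional ℝ E] [IsManifold 𝓘(ℝ, E) ∞ M]
  [IsContMDiffRiemannianBundle 𝓘(ℝ, E) ∞ E (fun x : M => TangentSpace 𝓘(ℝ, E) x)]
  [CompactSpace M] [ConnectedSpace M] [IsRiemannianManifold 𝓘(ℝ, E) M]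

variable (F : Facts e) {D : ℝ} (hD : 0 < D) (hB : InjGE e D) (hdiam : ∀ p q : M, dist p q ≤ D)

/-- a frame as a frame of `S2II` -/
def toF (p : S2I3.Fr e D 3) : S2II.Fr e D 3 := ⟨(p.v, fun i => p.w i), p.isLF⟩

theorem io_fam (p : S2I3.Fr e D 3) {y : R3} (hy : y ≠ 0) :
    io F hD hB hdiam p (ret y) = fam F hD hB hdiam (toF p) y := by
  have h1 : (fam F hD hB hdiam (toF p) y).v = p.v := cone_v F hD hB hdiam _
  have h2 : (fam F hD hB hdiam (toF p) y).w =
      W.mk (foot (toF p).v) (cb (toF p) (‖y‖⁻¹ • y)) (S2II.nm_cb _ (norm_nrm hy)) :=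
    cone_w F hD hB hdiam (toF p) (norm_nrm hy)
  refine Pr.ext' h1.symm ?_
  rw [h2]
  refine mk_congr rfl ?_
  rw [ret_val hy]
  rfl

/-- **the sphere integrals** -/
theorem IS_eq_kf (b : Form (dPr e D)) (p : S2I3.Fr e D 3) :
    IS volume (EuclideanSpace.basisFun (Fin 3) ℝ) (rct 3)
      ((Form.pull (io F hD hB hdiam p) (map_io F hD hB hdiam p) b).val ret) =
      kf F hD hB hdiam b (toF p) := by
  rw [kf_eq, IS]
  refine integral_congr_ae (Eventually.of_forall fun y => ?_)
  change evalForm (Q.dR (rct 3) y * _) _ = evalForm (Q.dR (rct 3) y * _) _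
  rcases eq_or_ne y 0 with rfl | hy
  · rw [(cut_rct 3).dR_near.self_of_nhds, zero_mul, zero_mul]
  · have h1 : (Form.pull (io F hD hB hdiam p) (map_io F hD hB hdiam p) b).val ret y =
        b.val (fam F hD hB hdiam (toF p)) y := by
      rw [Form.pull_val _ _ (at_ret hy)]
      refine b.congr (map_io F hD hB hdiam p (at_ret hy)) ?_
      filter_upwards [isOpen_compl_singleton.mem_nhds hy] with z hz
      exact io_fam F hD hB hdiam p hz
    rw [h1]

end

end Vale.Agent.P231.S2I
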