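import Vale.Agent.P231.S2I.Asm

/-!
# P231, stage 2: integrality, the number `N` as an integral over `ℝ⁴`
-/

set_option linter.unusedSectionVars false
set_option linter.unusedVariables false

open MeasureTheory Set Module Filter Topology Metric
open scoped ContDiff

namespace Vale.Agent.P231.S2I

open Fm W H584
open Q (dR Cut)

variable {S M : Type*} {dS : Dif S} {dM : Dif M}

/-- **the number `N`**: the concatenation `Hm` of `foot ∘ C` and of the push off `g` along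
`C (·, 1)` -/
theorem exists_Hm {foot : S → M} (hfoot : dS.Map dM foot)
    {g : S × ℝ → M} (hg : (dS.prod (Dif.lin ℝ)).Map dM g) (hg0 : ∀ s, g (s, 0) = foot s)
    {F : Form dM} (hF : F.d = 0)
    {C : Px R4 × ℝ → S} (hC : ((dPx R4).prod (Dif.lin ℝ)).Map dS C)
    (hom : ∀ (x y : Px R4) (c : ℝ), 0 < c → (y : R4) = c • (x : R4) → ∀ t, C (y, t) = C (x, t))
    {p₀ : M} (h0 : ∀ x, foot (C (x, 0)) = p₀) :
    ∃ (Hm : R4 → M) (hH : (Dif.lin R4).Map dM Hm),
      (∀ x : R4, Hm x = p₀ ∨ (∃ t, Hm x = foot (C (ret x, t))) ∨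
        ∃ t, Hm x = g (C (ret x, 1), t)) ∧
      (∀ x : R4, 5 ≤ 3 * ‖x‖ → Hm x = g (C (ret x, 1), 1)) ∧
      ∫ x, evalForm ((Form.pull Hm hH F).val id x) (EuclideanSpace.basisFun (Fin 4) ℝ) =
        I3 (Form.K (Form.pull (fun p => foot (C p))
          (Dif.Map.comp (f := C) (g := foot) hfoot hC) F) +
          Form.pull (fun x => C (x, 1)) (map_at hC 1) (Form.K (Form.pull g hg F))) := by
  obtain ⟨Hm, hH, h1, h2, h3⟩ := integral_Hh_px b4 (G := fun p => foot (C p))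
    (Dif.Map.comp (f := C) (g := foot) hfoot hC) (map_at hC 1) hg (p₀ := p₀)
    (fun x y c hc hxy t => by rw [hom x y c hc hxy t])
    (fun x y c hc hxy => hom x y c hc hxy 1) h0 (fun x => (hg0 _).symm) hF
    (ρ := rst) (K := closedBall 0 3) cut_rst (fun x hx => by
      rw [rst]
      exact Real.smoothTransition.zero_of_nonpos (by linarith))
  refine ⟨Hm, hH, h1, h2, ?_⟩
  rw [I3, ISp_apply, ← h3, b4, OrthonormalBasis.coe_toBasis]

/-- the far part of `Hm` is homogeneous and invariant under the circle action -/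
theorem Hm_far {D : ℝ} {Λ : S × ℝ → S} {g : S × ℝ → M} {C : Px R4 × ℝ → S} {Hm : R4 → M}
    (hg1 : ∀ s t, g (Λ (s, t), 1) = g (s, 1))
    (hom : ∀ (x y : Px R4) (c : ℝ), 0 < c → (y : R4) = c • (x : R4) → ∀ t, C (y, t) = C (x, t))
    (hC : ∀ x t, C (ψr (2 * D) (x, t), 1) = Λ (C (x, 1), t))
    (h : ∀ x : R4, 5 ≤ 3 * ‖x‖ → Hm x = g (C (ret x, 1), 1)) {x : R4} (hx : 5 ≤ 3 * ‖x‖) :
    (∀ c : ℝ, 1 ≤ c → Hm (c • x) = Hm x) ∧
      ∀ t : ℝ, Hm (Rot (Real.pi / (2 * D)) (x, t)) = Hm x := by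
  have hx0 : x ≠ 0 := fun h0 => by
    rw [h0, norm_zero] at hx
    linarith
  refine ⟨fun c hc => ?_, fun t => ?_⟩
  · have hc0 : 0 < c := by linarith
    have h1 : 5 ≤ 3 * ‖c • x‖ := by
      rw [norm_smul, Real.norm_of_nonneg hc0.le]
      have : ‖x‖ ≤ c * ‖x‖ := le_mul_of_one_le_left (norm_nonneg x) hc
      linarith
    rw [h _ h1, h _ hx, hom (ret x) (ret (c • x)) c hc0
      (by rw [ret_val hx0, ret_val (smul_ne_zero hc0.ne' hx0)]) 1]
  · have h1 : 5 ≤ 3 * ‖Rot (Real.pi / (2 * D)) (x, t)‖ := by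
      rw [norm_Rot]
      exact hx
    have h2 : ret (Rot (Real.pi / (2 * D)) (x, t)) = ψr (2 * D) (ret x, t) := by
      refine Subtype.ext ?_
      rw [ret_val (Rot_ne_zero _ hx0), ψr_val, ret_val hx0]
    rw [h _ h1, h _ hx, h2, hC, hg1]

end Vale.Agent.P231.S2I
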