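import Vale.Agent.P231.S2N.Rev
import Vale.Agent.P231.WR.Tra
import Vale.Agent.P231.L3.Sys
import Vale.Agent.P231.S2I.JMap

/-!
# P231, stage 2: relations between the rotation, the antipodal map, the reversal and the lifted
flow on the space of pairs
-/

set_option maxSynthPendingDepth 3
set_option linter.unusedSectionVars false
set_option linter.unusedVariables false

open Bundle Manifold Set Filter Module
open scoped ContDiff Manifold Topology Real

namespace Vale.Agent.P231.S2I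

noncomputable section

open Vale.Agent.P234 Vale.Agent.P231 Vale.Agent.P231.Fm Vale.Agent.P231.W Vale.Agent.P231.WR
  Vale.Agent.P231.H766 Vale.Agent.P231.S2N

variable {E : Type*} [NormedAddCommGroup E] [NormedSpace ℝ E]
  {M : Type*} [MetricSpace M] [ChartedSpace E M]
  [RiemannianBundle (fun x : M => TangentSpace 𝓘(ℝ, E) x)]
  {e : ∀ x : M, TangentSpace 𝓘(ℝ, E) x → M}
  [FiniteDimensional ℝ E] [IsManifold 𝓘(ℝ, E) ∞ M]
  [IsContMDiffRiemannianBundle 𝓘(ℝ, E) ∞ E (fun x : M => TangentSpace 𝓘(ℝ, E) x)]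
  [CompactSpace M] [ConnectedSpace M] [IsRiemannianManifold 𝓘(ℝ, E) M]

variable (F : Facts e) {D : ℝ} (hD : 0 < D) (hB : InjGE e D) (hdiam : ∀ p q : M, dist p q ≤ D)

/-- the antipodal map and the rotation -/
theorem ngP_R (b : Pr e D) (t : ℝ) :
    ngP F hD hB hdiam (R F hD hB hdiam (b, t)) =
      R F hD hB hdiam (ngP F hD hB hdiam b, -t) := by
  refine Pr.ext' (mk_congr rfl ?_) ?_
  · change Real.cos t • vec' b.v + Real.sin t • vec' b.w =
      Real.cos (-t) • vec' b.v + Real.sin (-t) • vec' (ng b.w)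
    have h : (vec' (ng b.w) : E) = -vec' b.w := rfl
    rw [h, Real.cos_neg, Real.sin_neg]
    module
  · rw [ngP_w, ← mk_eta (ng (R F hD hB hdiam (b, t)).w)]
    refine mk_congr rfl ?_
    change -((-Real.sin t) • vec' b.v + Real.cos t • vec' b.w) =
      (-Real.sin (-t)) • vec' b.v + Real.cos (-t) • vec' (ng b.w)
    have h : (vec' (ng b.w) : E) = -vec' b.w := rfl
    rw [h, Real.cos_neg, Real.sin_neg]
    module

/-- the rotation by `π` -/
theorem R_pi (b : Pr e D) :
    R F hD hB hdiam (b, π) = ngP F hD hB hdiam (rev F hD hB hdiam b) := by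
  refine Pr.ext' ?_ ?_
  · rw [R_v, ngP_v, rev_v, ← mk_eta (ng b.v)]
    refine mk_congr rfl ?_
    change Real.cos π • vec' b.v + Real.sin π • vec' b.w = -vec' b.v
    rw [Real.cos_pi, Real.sin_pi]
    module
  · rw [R_w, ngP_w, rev_w, ← mk_eta (ng b.w)]
    refine mk_congr b.isL.foot_eq.symm ?_
    change (-Real.sin π) • vec' b.v + Real.cos π • vec' b.w = -vec' b.w
    rw [Real.cos_pi, Real.sin_pi]
    module

variable {F hD hB hdiam} {Lam : Pr e D × ℝ → Pr e D} {Y : Pr e D → E} {ε₀ : ℝ}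

/-- the rotation by `π` and the lifted flow -/
theorem R_pi_Lam (hL : PushL F hD hB hdiam Lam Y ε₀)
    (hrev : ∀ b t, Lam (rev F hD hB hdiam b, t) = rev F hD hB hdiam (Lam (b, -t)))
    (b : Pr e D) (t : ℝ) : R F hD hB hdiam (Lam (b, t), π) =
      Lam (R F hD hB hdiam (b, π), -t) := by
  rw [R_pi, R_pi, hL.neg, hrev, neg_neg]

/-- the half periods -/
theorem R_neg (hL : PushL F hD hB hdiam Lam Y ε₀) (b : Pr e D) (t : ℝ) :
    R F hD hB hdiam (b, -t) =
      Lam (R F hD hB hdiam (Lam (b, 2 * D / 2), t), 2 * D / 2) := by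
  have h2 : 2 * D / 2 = D := by ring
  rw [h2, hL.half, hL.half]
  have h3 := ngP_R F hD hB hdiam (Th F hD hB hdiam b) (-t)
  rw [neg_neg] at h3
  rw [← h3, ← Th_R]
  have h4 : ∀ c : Pr e D, Th F hD hB hdiam (ngP F hD hB hdiam c) =
      ngP F hD hB hdiam (Th F hD hB hdiam c) := by
    intro c
    rw [L3.Th_eq hL, L3.Th_eq hL, hL.neg]
  rw [h4, Th_Th, ngP_ngP]

/-- the deck transformation -/
theorem Th_eq' (hL : PushL F hD hB hdiam Lam Y ε₀) (b : Pr e D) :
    Th F hD hB hdiam b = Lam (ngP F hD hB hdiam b, D) := by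
  rw [hL.neg, hL.half, ngP_ngP]

end

end Vale.Agent.P231.S2I
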