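import Vale.Agent.P231.S2I.Io
import Vale.Agent.P231.S2I.PrRel
import Vale.Agent.P231.S2I.NPart
import Vale.Agent.P231.S2I3.Rot
import Vale.Agent.P231.H649.Null

/-!
# P231, stage 2: integrality for `l = 3`

From the quadratic relation `b₁² = a e² + μ (G₁ + G₂) + dρ` and the closed form of degree `4`:
`4 a = - k² H - 2 μ κ N` with `H`, `N` integers.
-/

set_option maxSynthPendingDepth 3
set_option linter.unusedSectionVars false
set_option linter.unusedVariables false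

open Bundle Manifold Set Filter Module MeasureTheory
open scoped ContDiff Manifold Topology Real

namespace Vale.Agent.P231.S2I

noncomputable section

open Vale.Agent.P234 Vale.Agent.P231 Vale.Agent.P231.Fm Vale.Agent.P231.W Vale.Agent.P231.WR
  Vale.Agent.P231.H766 Vale.Agent.P231.H775 Vale.Agent.P231.S2I3 Vale.Agent.P231.S2N
  Vale.Agent.P231.H584 Vale.Agent.P231.H649

/-- constant second variable -/
theorem comp_const {X Y Z : Type*} {DX : Dif X} {DY : Dif Y} {DZ : Dif Z} {f : X × Y → Z}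
    (h : (DX.prod DY).Map DZ f) {y : Y} (hy : DX.Map DY (fun _ => y)) :
    DX.Map DZ (fun x => f (x, y)) := by
  intro E' _ _ _ u x hu
  have h3 : DY.At (fun _ : E' => y) x := hy hu
  have h4 : (DX.prod DY).At (fun s => (u s, y)) x := ⟨hu, h3⟩
  exact h h4

/-- constant base point -/
theorem map_sph_const {Y : Type*} {DY : Dif Y} {T : ℝ} {Λ ρ : Y × ℝ → Y} (h : IsFlow DY T Λ)
    (hρ : IsFlow DY (2 * π) ρ) (hrev : ∀ y t, ρ (Λ (y, t), π) = Λ (ρ (y, π), -t)) {y : Y}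
    (hy : (dPx R4).Map DY (fun _ => y)) : (dPx R4).Map DY (fun x => sph T Λ ρ x y) :=
  comp_const (f := fun p : Px R4 × Y => sph T Λ ρ p.1 p.2) (map_sph h hρ hrev) hy

variable {E : Type*} [NormedAddCommGroup E] [NormedSpace ℝ E]
  {M : Type*} [MetricSpace M] [ChartedSpace E M]
  [RiemannianBundle (fun x : M => TangentSpace 𝓘(ℝ, E) x)]
  {e : ∀ x : M, TangentSpace 𝓘(ℝ, E) x → M}
  [FiniteDimensional ℝ E] [IsManifold 𝓘(ℝ, E) ∞ M]
  [IsContMDiffRiemannianBundle 𝓘(ℝ, E) ∞ E (fun x : M => TangentSpace 𝓘(ℝ, E) x)]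
  [CompactSpace M] [ConnectedSpace M] [IsRiemannianManifold 𝓘(ℝ, E) M]

variable (F : Facts e) {D : ℝ} (hD : 0 < D) (hB : InjGE e D) (hdiam : ∀ p q : M, dist p q ≤ D)

/-! ### the rotation of frames -/

theorem rotF_add {m : ℕ} (p : Fr e D (m + 1)) (s t : ℝ) :
    rotF F hD hB hdiam (rotF F hD hB hdiam (p, s), t) = rotF F hD hB hdiam (p, s + t) := by
  have h0 : (rotF F hD hB hdiam (p, s)).pr 0 = R F hD hB hdiam (p.pr 0, s) :=
    rotF_pr F hD hB hdiam (p, s)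
  have h1 := (isFlow_R F hD hB hdiam).add (p.pr 0) s t
  refine Fr.ext' ?_ fun i => ?_
  · change (R F hD hB hdiam ((rotF F hD hB hdiam (p, s)).pr 0, t)).v =
      (R F hD hB hdiam (p.pr 0, s + t)).v
    rw [h0, h1]
  · by_cases hi : i = 0
    · subst hi
      rw [rotF_w0, rotF_w0]
      change (R F hD hB hdiam ((rotF F hD hB hdiam (p, s)).pr 0, t)).w =
        (R F hD hB hdiam (p.pr 0, s + t)).w
      rw [h0, h1]
    · rw [rotF_wi F hD hB hdiam _ hi, rotF_wi F hD hB hdiam _ hi, rotF_wi F hD hB hdiam _ hi]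

theorem isFlow_rotF {m : ℕ} :
    IsFlow (dFr e D (m + 1)) (2 * π) (rotF F hD hB hdiam) where
  map := map_rotF F hD hB hdiam
  zero := rotF_zero F hD hB hdiam
  add := rotF_add F hD hB hdiam
  per p := by
    have h1 := (isFlow_R F hD hB hdiam).per (p.pr 0)
    refine Fr.ext' ?_ fun i => ?_
    · change (R F hD hB hdiam (p.pr 0, 2 * π)).v = _
      rw [h1]
      rfl
    · by_cases hi : i = 0
      · subst hi
        rw [rotF_w0]
        change (R F hD hB hdiam (p.pr 0, 2 * π)).w = _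
        rw [h1]
        rfl
      · rw [rotF_wi F hD hB hdiam _ hi]

section Lift

variable {l : ℕ} (hP : ∀ x y : M, dist x y = D → finrank ℝ (H775.Pl e D x y) = l + 1 + 1)

theorem rotF_pi_LamF {Tl : UT E M → ℝ → E →ₗ[ℝ] E} (hT : LT F hD hB hdiam Tl)
    (p : Fr e D (l + 1)) (t : ℝ) :
    rotF F hD hB hdiam (LamF F hD hB hdiam hP Tl (p, t), π) =
      LamF F hD hB hdiam hP Tl (rotF F hD hB hdiam (p, π), -t) := by
  rw [rotF_pi, rotF_pi, NF_LamF F hD hB hdiam hP hT, SF_LamF F hD hB hdiam hP hT]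

/-- the flow of frames lifts the flow of pairs -/
theorem LamF_pr {Tl : UT E M → ℝ → E →ₗ[ℝ] E} (hT : LT F hD hB hdiam Tl)
    {Lam : Pr e D × ℝ → Pr e D} (hv : ∀ b t, (Lam (b, t)).v = phi F (b.v, t))
    (hTl : ∀ b t, vec' (Lam (b, t)).w =
      (nm (gm e (b.v, t)) (Tl b.v t (vec' b.w)))⁻¹ • Tl b.v t (vec' b.w))
    (p : Fr e D (l + 1)) (t : ℝ) :
    (LamF F hD hB hdiam hP Tl (p, t)).pr 0 = Lam (p.pr 0, t) := by
  have h1 : (LamF F hD hB hdiam hP Tl (p, t)).v = (Lam (p.pr 0, t)).v := by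
    rw [LamF_v, hv]
    rfl
  refine Pr.ext' h1 ?_
  change (LamF F hD hB hdiam hP Tl (p, t)).w 0 = _
  rw [← mk_eta ((LamF F hD hB hdiam hP Tl (p, t)).w 0), ← mk_eta (Lam (p.pr 0, t)).w]
  refine mk_congr ?_ ?_
  · rw [Fr.foot_w, h1, (Lam (p.pr 0, t)).isL.foot_eq]
  · rw [LamF_w0 F hD hB hdiam hT hP (p, t), hTl]
    rfl

/-- the sphere of frames lifts the sphere of pairs -/
theorem sph_pr {Tl : UT E M → ℝ → E →ₗ[ℝ] E} (hT : LT F hD hB hdiam Tl)
    {Lam : Pr e D × ℝ → Pr e D} (hv : ∀ b t, (Lam (b, t)).v = phi F (b.v, t))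
    (hTl : ∀ b t, vec' (Lam (b, t)).w =
      (nm (gm e (b.v, t)) (Tl b.v t (vec' b.w)))⁻¹ • Tl b.v t (vec' b.w)) (T : ℝ)
    (x : R4) (p : Fr e D (l + 1)) :
    (sph T (LamF F hD hB hdiam hP Tl) (rotF F hD hB hdiam) x p).pr 0 =
      sph T Lam (R F hD hB hdiam) x (p.pr 0) := by
  unfold sph jj
  rw [LamF_pr F hD hB hdiam hP hT hv hTl, rotF_pr, LamF_pr F hD hB hdiam hP hT hv hTl]

end Lift

/-! ### the path from a pair to its antipode -/

/-- the half circle in `ℝ³` -/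
def yb (s : ℝ) : R3 := !₂[Real.cos (π * s), Real.sin (π * s), 0]

theorem norm_yb (s : ℝ) : ‖yb s‖ = 1 := by
  have h : ‖yb s‖ ^ 2 = 1 := by
    rw [norm_sq3]
    change Real.cos (π * s) ^ 2 + Real.sin (π * s) ^ 2 + 0 ^ 2 = 1
    rw [Real.cos_sq_add_sin_sq]
    norm_num
  nlinarith [norm_nonneg (yb s)]

theorem yb_ne (s : ℝ) : yb s ≠ 0 := fun h => by
  have := norm_yb s
  rw [h, norm_zero] at this
  exact zero_ne_one this

theorem map_yb : (Dif.lin ℝ).Map (dPx R3) (fun s => (⟨yb s, yb_ne s⟩ : Px R3)) := by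
  intro E' _ _ _ u x hu
  change Sm (fun s => yb (u s)) x
  have h1 : ContDiff ℝ ∞ yb := by
    have hc : ContDiff ℝ ∞ (fun s : ℝ => Real.cos (π * s)) :=
      Real.contDiff_cos.comp (contDiff_const.mul contDiff_id)
    have hs : ContDiff ℝ ∞ (fun s : ℝ => Real.sin (π * s)) :=
      Real.contDiff_sin.comp (contDiff_const.mul contDiff_id)
    refine contDiff_euclidean.2 fun i => ?_
    fin_cases i
    · exact hc
    · exact hs
    · exact contDiff_const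
  exact Sm.comp (f := yb) (g := u) (Sm.of_contDiff h1 _) hu

/-- the path -/
def bt (p : Fr e D 3) (s : ℝ) : Pr e D := io F hD hB hdiam p ⟨yb s, yb_ne s⟩

theorem map_bt (p : Fr e D 3) : (Dif.lin ℝ).Map (dPr e D) (bt F hD hB hdiam p) :=
  Dif.Map.comp (f := fun s => (⟨yb s, yb_ne s⟩ : Px R3)) (g := io F hD hB hdiam p)
    (map_io F hD hB hdiam p) map_yb

theorem bt_zero (p : Fr e D 3) : bt F hD hB hdiam p 0 = p.pr 0 := by
  refine Pr.ext' rfl ?_
  rw [← mk_eta (p.pr 0).w]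
  refine mk_congr (p.foot_w 0).symm ?_
  change iov p (yb 0) = vec' (p.w 0)
  rw [iov, Fin.sum_univ_three, norm_yb]
  have h0 : yb 0 0 = 1 := by simp [yb]
  have h1 : yb 0 1 = 0 := by simp [yb]
  have h2 : yb 0 2 = 0 := by simp [yb]
  rw [h0, h1, h2]
  simp

theorem bt_one (p : Fr e D 3) :
    bt F hD hB hdiam p 1 = ngP F hD hB hdiam (bt F hD hB hdiam p 0) := by
  rw [bt_zero]
  refine Pr.ext' rfl ?_
  rw [ngP_w, ← mk_eta (ng (p.pr 0).w)]
  refine mk_congr (p.foot_w 0).symm ?_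
  change iov p (yb 1) = -vec' (p.w 0)
  rw [iov, Fin.sum_univ_three, norm_yb]
  have h0 : yb 1 0 = -1 := by simp [yb]
  have h1 : yb 1 1 = 0 := by simp [yb]
  have h2 : yb 1 2 = 0 := by simp [yb]
  rw [h0, h1, h2]
  simp

/-- the frames over one fibre, first vector -/
theorem pr_eq_io {j : Px R4 → Fr e D 3} {p₀ : Fr e D 3} (hG : RotMap (fun x : R4 => mt p₀ (j (ret x))))
    (hv : ∀ x, (j x).v = p₀.v) (hw : ∀ (x : Px R4) (i : Fin 3), vec' ((j x).w i) =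
        ∑ k, mt p₀ (j (ret (x : R4))) k i • vec' (p₀.w k)) (x : Px R4) :
    (j x).pr 0 = io F hD hB hdiam p₀ (gcol hG x) := by
  refine Pr.ext' (hv x) ?_
  rw [← mk_eta ((j x).pr 0).w]
  refine mk_congr ?_ ?_
  · change foot ((j x).w 0) = foot p₀.v
    rw [Fr.foot_w, hv]
  · refine (hw x 0).trans ?_
    have h1 : ‖col (fun x : R4 => mt p₀ (j (ret x))) (x : R4)‖ = 1 := hG.norm_col x.2
    have h2 : iov p₀ (col (fun x : R4 => mt p₀ (j (ret x))) (x : R4)) =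
        ∑ k, mt p₀ (j (ret (x : R4))) k 0 • vec' (p₀.w k) := by
      unfold iov
      rw [h1, inv_one]
      refine Finset.sum_congr rfl fun i _ => ?_
      rw [one_mul]
      rfl
    exact h2.symm

/-! ### the theorem -/

theorem nonempty_UT (h : 0 < finrank ℝ E) : Nonempty (UT E M) := by
  obtain ⟨p⟩ : Nonempty M := inferInstance
  have h3 : 0 < finrank ℝ (TangentSpace 𝓘(ℝ, E) p) := h
  have : Nontrivial (TangentSpace 𝓘(ℝ, E) p) := Module.nontrivial_of_finrank_pos h3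
  obtain ⟨u, hu⟩ := exists_norm_eq (TangentSpace 𝓘(ℝ, E) p) zero_le_one
  exact ⟨W.mk p u hu⟩

/-- maps of the punctured space to `M` are smooth off the origin -/
theorem cm_ret {f : Px R4 → M} (hf : (dPx R4).Map (dM E M) f) {x : R4} (hx : x ≠ 0) :
    ContMDiffAt 𝓘(ℝ, R4) 𝓘(ℝ, E) ∞ (fun x => f (ret x)) x := (hf (at_ret hx)).self_of_nhds

include F hD hB hdiam in
/-- a point at distance less than `D` of all points of the image of a homogeneous map -/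
theorem exists_far_hom (hP : ∀ x y : M, dist x y = D → finrank ℝ (H775.Pl e D x y) = 3 + 1)
    (hdim : 4 < finrank ℝ E) {f : Px R4 → M} (hf : (dPx R4).Map (dM E M) f)
    (hom : ∀ (x y : Px R4) (c : ℝ), 0 < c → (y : R4) = c • (x : R4) → f y = f x) :
    NullE e D {q | ∃ s : R4, s ≠ 0 ∧ dist (f (ret s)) q = D} :=
  nullE_cut_hom F hD hB hdiam hP (V := R4) (by simp) (by omega) (f := fun x => f (ret x))
    (fun s hs => cm_ret hf hs) fun c x hc hx => hom _ _ c hc (by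
      rw [ret_val hx, ret_val (smul_ne_zero hc.ne' hx)])

section Sphere

variable (hP : ∀ x y : M, dist x y = D → finrank ℝ (H775.Pl e D x y) = 3 + 1)
    {Lam : Pr e D × ℝ → Pr e D}
    {Tl : UT E M → ℝ → E →ₗ[ℝ] E} (hT : LT F hD hB hdiam Tl)
    (hv : ∀ b t, (Lam (b, t)).v = phi F (b.v, t))
    (hTl : ∀ b t, vec' (Lam (b, t)).w =
      (nm (gm e (b.v, t)) (Tl b.v t (vec' b.w)))⁻¹ • Tl b.v t (vec' b.w))

include hP hT hv hTl in
/-- the sphere of frames -/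
theorem exists_jh (ph : Fr e D 3) : ∃ jh : Px R4 → Fr e D 3, (dPx R4).Map (dFr e D 3) jh ∧
    (∀ (x y : Px R4) (c : ℝ), 0 < c → (y : R4) = c • (x : R4) → jh y = jh x) ∧
    ∀ x : Px R4, (jh x).pr 0 = sph (2 * D) Lam (R F hD hB hdiam) x (ph.pr 0) := by
  have hF1 := isFlow_LamF F hD hB hdiam hP hT
  have hF2 := isFlow_rotF (F := F) (hD := hD) (hB := hB) (hdiam := hdiam) (m := 2)
  have hF3 := rotF_pi_LamF F hD hB hdiam hP hT
  refine ⟨fun x => sph (2 * D) (LamF F hD hB hdiam hP Tl) (rotF F hD hB hdiam) x ph, ?_, ?_, ?_⟩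
  · refine map_sph_const hF1 hF2 hF3 ?_
    intro E' _ _ _ u x hu
    exact ⟨Vale.Agent.P231.H583.at_const ph.v x,
      fun i => Vale.Agent.P231.H583.at_const (ph.w i) x⟩
  · intro x y c hc hxy
    beta_reduce
    rw [hxy]
    exact sph_smul _ hc _
  · intro x
    exact sph_pr F hD hB hdiam hP hT hv hTl (2 * D) x ph

include hP hT hv hTl in
/-- the homotopy of the sphere to one fibre -/
theorem exists_C (hdim : 4 < finrank ℝ E) (ph : Fr e D 3) :
    ∃ (p₀ : Fr e D 3) (C : Px R4 × ℝ → Pr e D) (G : R4 → M3) (hG : RotMap G),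
      ((dPx R4).prod (Dif.lin ℝ)).Map (dPr e D) C ∧
      (∀ x, C (x, 1) = sph (2 * D) Lam (R F hD hB hdiam) x (ph.pr 0)) ∧
      (∀ x, C (x, 0) = io F hD hB hdiam p₀ (gcol hG x)) ∧
      ∀ (x y : Px R4) (c : ℝ), 0 < c → (y : R4) = c • (x : R4) → ∀ t, C (y, t) = C (x, t) := by
  obtain ⟨jh, hjh, hjhom, hjp⟩ := exists_jh F hD hB hdiam hP hT hv hTl ph
  have hfm : (dPx R4).Map (dM E M) (fun x => foot (jh x).v) := fun h => map_foot (map_Frv (hjh h))
  have hn1 := exists_far_hom F hD hB hdiam hP hdim hfm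
    (fun x y c hc hxy => by rw [hjhom x y c hc hxy])
  obtain ⟨ξ, -, hξ⟩ := hn1.exists_notMem hD (foot ph.v)
  have hqd : ∀ x, dist (ef e (foot ph.v) ξ) (foot (jh x).v) < D := by
    intro x
    refine lt_of_le_of_ne (hdiam _ _) fun h => hξ ⟨x, x.2, ?_⟩
    rw [dist_comm, ret_coe]
    exact h
  obtain ⟨v₀, Ch, hv₀, hCh, hCh1, hCh0, hChom⟩ := exists_homotopy_hom F hD hB hdiam hP hjh hjhom
    hqd (by simpa using hdim)
  obtain ⟨p₀, hp₀, hG, hGw⟩ := exists_rotMap F hD hB hdiam hP (j := fun x => Ch (x, 0))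
    (fun h => map_at hCh 0 h) (fun x y c hc hxy => hChom x y c hc hxy 0) hCh0 (by simp)
  refine ⟨p₀, fun x => (Ch x).pr 0, _, hG, fun h => map_Frpr 0 (hCh h), fun x => ?_, ?_, ?_⟩
  · beta_reduce
    rw [hCh1]
    exact hjp x
  · exact pr_eq_io F hD hB hdiam (j := fun x => Ch (x, 0)) hG (fun x => by rw [hCh0, hp₀]) hGw
  · intro x y c hc hxy t
    beta_reduce
    rw [hChom x y c hc hxy t]

end Sphere

/-- **integrality for `l = 3`** -/
theorem main_int (hP : ∀ x y : M, dist x y = D → finrank ℝ (H775.Pl e D x y) = 3 + 1)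
    (hdim : 4 < finrank ℝ E)
    {Lam : Pr e D × ℝ → Pr e D} {Y : Pr e D → E} {ε₀ : ℝ} (hL : PushL F hD hB hdiam Lam Y ε₀)
    (hrev : ∀ b t, Lam (rev F hD hB hdiam b, t) = rev F hD hB hdiam (Lam (b, -t)))
    {Tl : UT E M → ℝ → E →ₗ[ℝ] E} (hT : LT F hD hB hdiam Tl)
    (hTl : ∀ b t, vec' (Lam (b, t)).w =
      (nm (gm e (b.v, t)) (Tl b.v t (vec' b.w)))⁻¹ • Tl b.v t (vec' b.w))
    {g : Pr e D × ℝ → M} (hg : ((dPr e D).prod (Dif.lin ℝ)).Map (dM E M) g)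
    (hg0 : ∀ b, g (b, 0) = foot b.v) (hg1 : ∀ b t, g (Lam (b, t), 1) = g (b, 1))
    {Om : Form (dM E M)} (hOd : Om.d = 0) (hO4 : Form.IsDeg 4 Om)
    {α : Form (dPr e D)} (hα : Form.pull Lam hL.flow.map α = pr α + dt) (hαo : α.sg = -α)
    {b1 : Form (dPr e D)} (hb1 : b1 = J Lam hL.flow.map (2 * D) (Form.K (Form.pull g hg Om) -
      Form.pull (WR.Th F hD hB hdiam) (map_Th F hD hB hdiam) (Form.K (Form.pull g hg Om))))
    {a μ : ℝ} {ρ : Form (dPr e D)} (hρ : Basic Lam hL.flow.map ρ)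
    (hrel : b1 ^ 2 = a • ((2 * D)⁻¹ • α.d) ^ 2 +
      μ • (Form.pull (fun b => g (b, 1)) (map_at hg 1) Om +
          Form.pull (WR.Th F hD hB hdiam) (map_Th F hD hB hdiam)
            (Form.pull (fun b => g (b, 1)) (map_at hg 1) Om)) + ρ.d)
    {b0 lf : Form (dPr e D)} {ε k : ℝ} (hε : ε ^ 2 = 1) (hl : b1 = ε • b0 + lf.d)
    (hb0d : b0.d = 0) (hb0k : Form.IsDeg 2 b0)
    (hb0 : ∀ p : Fr e D 3, ∃ (r : R3 → ℝ) (K : Set R3), Q.Cut r K ∧
      IS volume (EuclideanSpace.basisFun (Fin 3) ℝ) r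
        ((Form.pull (io F hD hB hdiam p) (map_io F hD hB hdiam p) b0).val ret) ^ 2 = k ^ 2)
    {κ : ℝ} (hI6 : ∀ (Hm : R4 → M) (hH : (Dif.lin R4).Map (dM E M) Hm) (p : M),
      (∀ x, Hm x ≠ p) → (∀ x, 5 ≤ 3 * ‖x‖ → dist (Hm x) p < D) →
      (∀ x, 5 ≤ 3 * ‖x‖ → (∀ c : ℝ, 1 ≤ c → Hm (c • x) = Hm x) ∧
        ∀ t : ℝ, Hm (Rot (π / (2 * D)) (x, t)) = Hm x) →
      ∃ N : ℤ, ∫ x, evalForm ((Form.pull Hm hH Om).val id x) (EuclideanSpace.basisFun (Fin 4) ℝ) =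
        κ * N) :
    ∃ H N : ℤ, 4 * a = -(k ^ 2 * H) - 2 * μ * (κ * N) := by
  obtain ⟨v⟩ := nonempty_UT (E := E) (M := M) (by omega : 0 < finrank ℝ E)
  obtain ⟨W₀, hW₀⟩ := exists_isLF F hD hB hdiam hP v
  obtain ⟨ph⟩ : Nonempty (Fr e D 3) := ⟨Fr.mk' v W₀ hW₀⟩
  obtain ⟨p₀, C, G, hG, hC, hC1, hC0, hCom⟩ := exists_C F hD hB hdiam hP hT hL.v hTl hdim ph
  have hR := isFlow_R F hD hB hdiam
  have hRr := R_pi_Lam hL hrev
  have h2D : 2 * D ≠ 0 := mul_ne_zero two_ne_zero hD.ne'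
  have hE : ((dPx R4).prod (Dif.lin ℝ)).Map (dPr e D)
      (Emap (2 * D) Lam (R F hD hB hdiam) (bt F hD hB hdiam ph)) :=
    map_Emap hL.flow hR hRr (map_bt F hD hB hdiam ph)
  have hCE : ∀ x, C (x, 1) = Emap (2 * D) Lam (R F hD hB hdiam) (bt F hD hB hdiam ph) (x, 0) := by
    intro x
    rw [hC1, Emap, bt_zero]
  have hEψ := Emap_ψ h2D hL.flow hR hRr (bt F hD hB hdiam ph)
  have hAE := Emap_A h2D hL.flow hR hRr (A := ngP F hD hB hdiam) (fun y t => (hL.neg y t).symm)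
    (ngP_R F hD hB hdiam) (R_neg hL) (bt_one F hD hB hdiam ph)
  have hfoot : (dPr e D).Map (dM E M) (fun b => foot b.v) := fun h => map_foot (map_v h)
  obtain ⟨r, K, hr, hk'⟩ := hb0 p₀
  have hb0' := exists_ze (w := Form.pull (io F hD hB hdiam p₀) (map_io F hD hB hdiam p₀) b0)
    (by rw [← Form.pull_d, hb0d, pull_zero']) (hb0k.pull _ _) hr
  obtain ⟨H, hH⟩ := asm hD.ne' hL.flow (foot := fun b => foot b.v) hfoot
    (A := ngP F hD hB hdiam) (σ := WR.Th F hD hB hdiam) (L3.map_ngP F hD hB hdiam)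
    (map_Th F hD hB hdiam) (Th_eq' hL) (fun b => rfl) (ngP_ngP F hD hB hdiam)
    (fun b t => (hL.neg b t).symm) hg hg0 hg1 hOd hO4 hα hαo hb1 hρ hrel hC hE hEψ hCE
    map_RF hAE I3_RF hG (map_io F hD hB hdiam p₀) hC0 hε hl hb0'
  -- the number `N`
  obtain ⟨Hm, hHm, -, hHf, hHi⟩ := exists_Hm (foot := fun b : Pr e D => foot b.v) hfoot hg hg0 hOd
    hC hCom (p₀ := foot p₀.v) (fun x => by rw [hC0, io_v])
  have hCψ : ∀ x t, C (ψr (2 * D) (x, t), 1) = Lam (C (x, 1), t) := fun x t => by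
    rw [hCE, hCE, hEψ]
  have hfar : ∀ x : R4, 5 ≤ 3 * ‖x‖ → (∀ c : ℝ, 1 ≤ c → Hm (c • x) = Hm x) ∧
      ∀ t : ℝ, Hm (Rot (π / (2 * D)) (x, t)) = Hm x := fun x hx =>
    Hm_far hg1 hCom hCψ hHf hx
  have hn2 : NullE e D {q | ∃ s ∈ (univ : Set R4), Hm s = q} :=
    nullE_range F hB (by simpa using hdim) fun s _ =>
      (hHm (u := id) (x := s) (Sm.of_contDiff contDiff_id s)).self_of_nhds
  have hgm : (dPx R4).Map (dM E M) (fun x => g (C (x, 1), 1)) := fun h =>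
    map_at hg 1 (map_at hC 1 h)
  have hn3 := exists_far_hom F hD hB hdiam hP hdim hgm
    (fun x y c hc hxy => by rw [hCom x y c hc hxy 1])
  obtain ⟨ξ', -, hξ'⟩ := (hn2.union hn3).exists_notMem hD (foot v)
  obtain ⟨N, hN⟩ := hI6 Hm hHm (ef e (foot v) ξ') (fun x h => hξ' (Or.inl ⟨x, mem_univ _, h⟩))
    (fun x hx => lt_of_le_of_ne (hdiam _ _) fun h => hξ' (Or.inr ⟨x, fun h0 => by
      rw [h0, norm_zero] at hx
      linarith, by rw [← hHf x hx]; exact h⟩)) hfar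
  refine ⟨H, N, ?_⟩
  rw [hHi] at hN
  rw [hH, hN, hk']

/-- the consequence: `κ² ≤ |a|` -/
theorem kappa_le {a μ κ c k : ℝ} {H N z : ℤ} (hk : k ^ 2 = 4 * κ ^ 2)
    (h : 4 * a = -(k ^ 2 * H) - 2 * μ * (κ * N)) (hμ : μ = 2 * c * κ) (hc : c = z) (ha : a ≠ 0) :
    κ ^ 2 ≤ |a| := by
  have h1 : a = κ ^ 2 * ((-(H + z * N) : ℤ) : ℝ) := by
    rw [hk, hμ, hc] at h
    push_cast
    linear_combination h / 4
  have h2 : (-(H + z * N) : ℤ) ≠ 0 := fun h0 => ha (by rw [h1, h0]; simp)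
  have h3 : (1 : ℝ) ≤ |((-(H + z * N) : ℤ) : ℝ)| := by
    rw [← Int.cast_abs]
    exact_mod_cast Int.one_le_abs h2
  rw [h1, abs_mul, abs_of_nonneg (sq_nonneg κ)]
  exact le_mul_of_one_le_right (sq_nonneg κ) h3

end

end Vale.Agent.P231.S2I
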