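import Vale.Agent.P231.S2I.Dec

/-!
# P231, block S2-I (I6): the integral of the 4-form is an integral multiple of `κ`
-/

set_option linter.unusedSectionVars false

open Module MeasureTheory Set Metric Filter
open scoped ContDiff Topology RealInnerProductSpace

noncomputable section

namespace Vale.Agent.P231.S2I

open Fm
open Q (dR Cut)
open EN.Std (chr)

section Cutoff

variable {V : Type*} [NormedAddCommGroup V] [InnerProductSpace ℝ V] [FiniteDimensional ℝ V]

/-- a cutoff function around a compact set -/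
theorem exists_cutoff {Kc Nb : Set V} (hKc : IsCompact Kc) (hNb : IsOpen Nb) (hKN : Kc ⊆ Nb) :
    ∃ (N' : Set V) (l : V → ℝ), IsCompact N' ∧ N' ⊆ Nb ∧ ContDiff ℝ ∞ l ∧
      (∀ x ∈ Kc, ∀ᶠ y in 𝓝 x, l y = 0) ∧ (∀ x ∉ N', ∀ᶠ y in 𝓝 x, l y = 1) ∧ ∀ x, 0 ≤ l x := by
  obtain ⟨N', hN', hKN', hN'Nb⟩ := exists_compact_between hKc hNb hKN
  obtain ⟨f, hf0, hf1, hf⟩ := exists_contMDiffMap_zero_one_nhds_of_isClosed (n := ⊤)
    (modelWithCornersSelf ℝ V) hKc.isClosed (isOpen_interior (s := N')).isClosed_compl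
    (by rw [← subset_compl_iff_disjoint_right, compl_compl]; exact hKN')
  refine ⟨N', f, hN', hN'Nb, f.contMDiff.contDiff, fun x hx => ?_, fun x hx => ?_,
    fun x => (hf x).1⟩
  · exact (eventually_nhdsSet_iff_forall.1 hf0) x hx
  · exact (eventually_nhdsSet_iff_forall.1 hf1) x fun h => hx (interior_subset h)

/-- the cutoff used for the degree -/
def r0 (y : V) : ℝ := chr (4 * ‖y‖ ^ 2)

theorem cut_r0 : Cut (r0 : V → ℝ) (closedBall 0 (1 / 2)) where
  smooth := EN.Std.contDiff_chr.comp (contDiff_const.mul (contDiff_norm_sq ℝ))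
  compact := isCompact_closedBall _ _
  one z hz := by
    rw [mem_closedBall_zero_iff, not_le] at hz
    refine EN.Std.chr_one ?_
    nlinarith
  zero := by
    filter_upwards [ball_mem_nhds (0 : V) (by norm_num : (0 : ℝ) < 1 / 4)] with z hz
    rw [mem_ball_zero_iff] at hz
    refine EN.Std.chr_zero ?_
    nlinarith [norm_nonneg z]

end Cutoff

variable {V : Type*} [NormedAddCommGroup V] [InnerProductSpace ℝ V] [FiniteDimensional ℝ V]
  [MeasurableSpace V] [BorelSpace V]

/-- **the degree** -/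
theorem exists_deg (b : OrthonormalBasis (Fin 4) ℝ V) {Kc N' : Set V} (hKN : Kc ⊆ N')
    (hN' : IsCompact N') (hN3 : N' ⊆ ball 0 3) {l : V → ℝ} (hl : ContDiff ℝ ∞ l)
    (hl0 : ∀ x ∈ Kc, ∀ᶠ y in 𝓝 x, l y = 0) (hl1 : ∀ x ∉ N', l x = 1) (hlp : ∀ x, 0 ≤ l x)
    {g : V → V} (hg : ∀ x ∉ Kc, ‖x‖ < 3 → ContDiffAt ℝ ∞ g x ∧ g x ≠ 0) :
    ∃ k : ℤ, ∫ x in ball (0 : V) 3, evalForm (dR (fun x => chr (4 * l x ^ 2)) x *
      pb g (vs b) x) b = k := by
  let Φ : V → V := fun x => l x • rad (g x)
  let lam : V → ℝ := fun x => chr (4 * l x ^ 2)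
  have hΦ : ∀ x ∈ ball (0 : V) 3, ContDiffAt ℝ ∞ Φ x := by
    intro x hx
    by_cases hxK : x ∈ Kc
    · refine (contDiffAt_const (c := (0 : V))).congr_of_eventuallyEq ?_
      filter_upwards [hl0 x hxK] with y hy
      simp only [Φ, hy, zero_smul]
    · obtain ⟨g1, g2⟩ := hg x hxK (mem_ball_zero_iff.1 hx)
      exact hl.contDiffAt.smul ((contDiffAt_rad g2).comp x g1)
  have hΦn : ∀ x ∈ ball (0 : V) 3, x ∉ Kc → ‖Φ x‖ = l x := by
    intro x hx hxK
    obtain ⟨-, g2⟩ := hg x hxK (mem_ball_zero_iff.1 hx)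
    simp only [Φ]
    rw [norm_smul, norm_rad g2, mul_one, Real.norm_eq_abs, abs_of_nonneg (hlp x)]
  obtain ⟨k, hk⟩ := exists_int_degree_form (volume : Measure V) b.toBasis
    (isOpen_ball (x := (0 : V)) (ε := 3)) (isOpen_ball (x := (0 : V)) (ε := 1))
    (convex_ball 0 1) (f := Φ) (fun x hx => (hΦ x hx).contDiffWithinAt) (fun K hK1 hK => by
      have h1 : {x | x ∈ ball (0 : V) 3 ∧ Φ x ∈ K} = N' ∩ Φ ⁻¹' K := by
        ext x
        constructor
        · rintro ⟨hx, hxK⟩
          refine ⟨?_, hxK⟩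
          by_contra hxN
          have h2 := hΦn x hx fun h => hxN (hKN h)
          have h3 := hK1 hxK
          rw [mem_ball_zero_iff, h2, hl1 x hxN] at h3
          exact lt_irrefl _ h3
        · rintro ⟨hx, hxK⟩
          exact ⟨hN3 hx, hxK⟩
      rw [h1]
      have h2 : ContinuousOn Φ N' := fun x hx =>
        (hΦ x (hN3 hx)).continuousAt.continuousWithinAt
      exact hN'.of_isClosed_subset (h2.preimage_isClosed_of_isClosed hN'.isClosed hK.isClosed)
        inter_subset_left)
  refine ⟨k, ?_⟩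
  obtain ⟨w1, w2⟩ := cutForm (cut_r0 (V := V)) (SM_vs b)
  have hw : tsupport (fun x => dR (r0 : V → ℝ) x * vs b x) ⊆ ball 0 1 := by
    have h1 : tsupport (fun x => dR (r0 : V → ℝ) x * vs b x) ⊆ closedBall 0 (1 / 2) := by
      refine closure_minimal (fun x hx => ?_) isClosed_closedBall
      by_contra h2
      exact hx (by
        change dR r0 x * vs b x = 0
        rw [cut_r0.dR_out h2, zero_mul])
    exact h1.trans (closedBall_subset_ball (by norm_num))
  have h1 := hk _ w1 w2 hw
  rw [b.coe_toBasis] at h1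
  have h2 : ∫ y, evalForm (dR (r0 : V → ℝ) y * vs b y) b = 1 := IS_vs b cut_r0
  rw [h2, mul_one] at h1
  rw [← h1]
  refine setIntegral_congr_fun measurableSet_ball fun x hx => ?_
  change evalForm (dR lam x * pb g (vs b) x) b =
    evalForm (pb Φ (fun x => dR (r0 : V → ℝ) x * vs b x) x) b
  have hΦd : DifferentiableAt ℝ Φ x := (hΦ x hx).differentiableAt (by simp)
  rw [pb_mul, pb_dR hΦd (cut_r0.smooth.differentiable (by simp) _)]
  have hlam : dR (r0 ∘ Φ) x = dR lam x := by
    have h3 : (r0 ∘ Φ) =ᶠ[𝓝 x] lam := by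
      by_cases hxK : x ∈ Kc
      · filter_upwards [hl0 x hxK] with y hy
        simp only [Function.comp_apply, Φ, lam, r0, hy, zero_smul, norm_zero]
      · have hev : ∀ᶠ y in 𝓝 x, y ∈ ball (0 : V) 3 := isOpen_ball.mem_nhds hx
        filter_upwards [hev] with y hy
        by_cases hyK : y ∈ Kc
        · simp only [Function.comp_apply, Φ, lam, r0, (hl0 y hyK).self_of_nhds, zero_smul,
            norm_zero]
        · simp only [Function.comp_apply, lam, r0, hΦn y hy hyK]
    rw [dR, dR, h3.fderiv_eq]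
  rw [hlam]
  by_cases hxl : l x = 0
  · have h4 : dR lam x = 0 := by
      have h5 : HasFDerivAt lam _ x := HasDerivAt.comp_hasFDerivAt (h₂ := chr) x
        (EN.Std.contDiff_chr.differentiable (by simp) (4 * l x ^ 2)).hasDerivAt
        (((hl.differentiable (by simp) x).hasFDerivAt.pow 2).const_mul 4)
      rw [dR, h5.fderiv, hxl, EN.Std.deriv_chr_le (by norm_num), zero_smul, map_zero]
    rw [h4, zero_mul, zero_mul]
  · have hxK : x ∉ Kc := fun h => hxl (hl0 x h).self_of_nhds
    obtain ⟨g1, g2⟩ := hg x hxK (mem_ball_zero_iff.1 hx)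
    have hl' : 0 < l x := lt_of_le_of_ne (hlp x) (Ne.symm hxl)
    have hΦ0 : Φ x ≠ 0 := by
      intro h0
      have := hΦn x hx hxK
      rw [h0, norm_zero] at this
      exact hxl this.symm
    have h6 : pb Φ (vs b) x = pb g (vs b) x := by
      rw [← pb_rad_comp b hΦd hΦ0, ← pb_rad_comp b (g1.differentiableAt (by simp)) g2]
      refine pb_congr _ ?_
      have hev : ∀ᶠ y in 𝓝 x, 0 < l y := hl.continuous.continuousAt.eventually (lt_mem_nhds hl')
      have hev2 : ∀ᶠ y in 𝓝 x, y ∈ ball (0 : V) 3 := isOpen_ball.mem_nhds hx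
      filter_upwards [hev, hev2] with y hy hy2
      have hyK : y ∉ Kc := fun h => hy.ne' (hl0 y h).self_of_nhds
      obtain ⟨-, g3⟩ := hg y hyK (mem_ball_zero_iff.1 hy2)
      change rad (l y • rad (g y)) = rad (g y)
      rw [rad_smul _ hy, rad, norm_rad g3, inv_one, one_smul]
    rw [h6]

section Final

variable {V : Type} [NormedAddCommGroup V] [InnerProductSpace ℝ V] [FiniteDimensional ℝ V]
  [MeasurableSpace V] [BorelSpace V]
variable {T : Type*} [NormedAddCommGroup T] [InnerProductSpace ℝ T] [FiniteDimensional ℝ T]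
variable {b : OrthonormalBasis (Fin 4) ℝ V} {Pi : T → T →L[ℝ] T} {ψ : T → Lam T} {κ : ℝ}

/-- **(I6), analytic form** -/
theorem exists_int_N (hS : FE.Spread 4 Pi) (hψ : AngF b Pi ψ κ) {R : V → T →L[ℝ] T}
    (hR : ∀ x, ∃ f : V → T, Sm f x ∧ f x ≠ 0 ∧ ∀ᶠ y in 𝓝 x, R y = Pi (f y))
    {Kc Nb : Set V} (hKc : IsCompact Kc) (hK2 : Kc ⊆ ball 0 2) (hNb : IsOpen Nb)
    (hKN : Kc ⊆ Nb) {u : V → T}
    (hu : ∀ x ∉ Kc, ContDiffAt ℝ ∞ u x ∧ u x ≠ 0 ∧ R x (u x) = u x)
    {c : V → ℝ} (hc : ∀ x ∉ Kc, ContDiffAt ℝ ∞ c x) (hc1 : ∀ x ∈ Nb, x ∉ Kc → c x = 1)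
    {Ω : V → Lam V}
    (hΩ1 : ∀ x ∈ Nb, ∀ f : V → T, Sm f x → f x ≠ 0 → (∀ᶠ y in 𝓝 x, R y (f y) = f y) →
      Ω x = pb f (extd ψ) x)
    (hΩ2 : ∀ x ∉ Kc, Ω x = extd (fun y => c y • pb u ψ y) x)
    (hf1 : ∀ x, 2 ≤ ‖x‖ → evalForm (Ω x) b = 0)
    (hf2 : ∀ x, 2 ≤ ‖x‖ → ∀ a : V →L[ℝ] ℝ, evalForm (dx a * (c x • pb u ψ x)) b = 0) :
    ∃ N : ℤ, ∫ x, evalForm (Ω x) b = κ * N := by
  obtain ⟨g, a, s, ν, ζ, hs, ha, hν, hνd, hdec⟩ := exists_dec hS hψ hR hKc.isClosed hu
  obtain ⟨N', l, hN', hN'b, hl, hl0, hl1, hlp⟩ := exists_cutoff hKc (hNb.inter isOpen_ball)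
    (subset_inter hKN hK2)
  have hN2 : N' ⊆ ball 0 2 := hN'b.trans inter_subset_right
  have hN3 : N' ⊆ ball 0 3 := hN2.trans (ball_subset_ball (by norm_num))
  have hNN : N' ⊆ Nb := hN'b.trans inter_subset_left
  have hKN' : Kc ⊆ N' := by
    intro x hx
    by_contra h
    have h1 := (hl1 x h).self_of_nhds
    rw [(hl0 x hx).self_of_nhds] at h1
    exact zero_ne_one h1
  obtain ⟨k, hk⟩ := exists_deg b hKN' hN' hN3 hl hl0 (fun x hx => (hl1 x hx).self_of_nhds) hlp
    (g := g) fun x hx h3 => ⟨(hdec x hx h3).1, (hdec x hx h3).2.1⟩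
  set lam : V → ℝ := fun x => chr (4 * l x ^ 2) with hlam
  have hlams : ContDiff ℝ ∞ lam :=
    EN.Std.contDiff_chr.comp (contDiff_const.mul (hl.pow 2))
  have hlam0 : ∀ x ∈ Kc, ∀ᶠ y in 𝓝 x, lam y = 0 := by
    intro x hx
    filter_upwards [hl0 x hx] with y hy
    simp only [hlam, hy]
    exact EN.Std.chr_zero (by norm_num)
  have hlam1 : ∀ x ∉ N', ∀ᶠ y in 𝓝 x, lam y = 1 := by
    intro x hx
    filter_upwards [hl1 x hx] with y hy
    simp only [hlam, hy]
    exact EN.Std.chr_one (by norm_num)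
  have hdl0 : ∀ x ∈ Kc, dR lam x = 0 := by
    intro x hx
    have h1 : lam =ᶠ[𝓝 x] fun _ => 0 := hlam0 x hx
    rw [dR, h1.fderiv_eq]
    simp
  have hdl1 : ∀ x ∉ N', dR lam x = 0 := by
    intro x hx
    have h1 : lam =ᶠ[𝓝 x] fun _ => 1 := hlam1 x hx
    rw [dR, h1.fderiv_eq]
    simp
  -- the 3-form off the compact set
  let θ : V → Lam V := fun y => c y • pb u ψ y
  have hθ : ∀ x ∉ Kc, ContDiffAt ℝ ∞ θ x := fun x hx =>
    (hc x hx).smul (contDiffAt_pb (m := ∞) (n := ∞) (hu x hx).1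
      (hψ.smooth.at (hu x hx).2.1) (by simp))
  let η : V → Lam V := fun x => lam x • θ x + (1 - lam x) • ν x
  have hηK : ∀ x ∈ Kc, η =ᶠ[𝓝 x] ν := by
    intro x hx
    filter_upwards [hlam0 x hx] with y hy
    simp only [η, hy, zero_smul, sub_zero, one_smul, zero_add]
  have hη1 : ∀ x ∉ N', η =ᶠ[𝓝 x] θ := by
    intro x hx
    filter_upwards [hlam1 x hx] with y hy
    simp only [η, hy, sub_self, zero_smul, one_smul, add_zero]
  have hηs : ∀ x, ContDiffAt ℝ ∞ η x := by
    intro x
    by_cases hx : x ∈ Kc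
    · exact hν.contDiffAt.congr_of_eventuallyEq (hηK x hx)
    · exact (hlams.contDiffAt.smul (hθ x hx)).add
        ((contDiffAt_const.sub hlams.contDiffAt).smul hν.contDiffAt)
  -- the form near the compact set
  have hΩν : ∀ x ∈ N', Ω x = extd ν x := by
    intro x hx
    have h3 : ‖x‖ < 3 := mem_ball_zero_iff.1 (hN3 hx)
    rw [hνd]
    refine hΩ1 x (hNN hx) a ?_ (ha x).2.1 ?_
    · exact Filter.Eventually.of_forall fun y => (ha y).1
    · have : ∀ᶠ y in 𝓝 x, ‖y‖ < 3 := (isOpen_lt continuous_norm continuous_const).mem_nhds h3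
      filter_upwards [this] with y hy
      have h4 := (ha y).2.2
      rwa [tcc_eq hy.le] at h4
  have hmain : ∀ x, Ω x = extd η x - dR lam x * (θ x - ν x) := by
    intro x
    by_cases hx : x ∈ Kc
    · rw [extd_congr (hηK x hx), hdl0 x hx, zero_mul, sub_zero]
      exact hΩν x (hKN' hx)
    · have h1 : extd η x = dx (fderiv ℝ lam x) * θ x + lam x • extd θ x +
          (dx (fderiv ℝ (fun x => 1 - lam x) x) * ν x + (1 - lam x) • extd ν x) := by
        have e1 : DifferentiableAt ℝ lam x := hlams.differentiable (by simp) x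
        have e2 : DifferentiableAt ℝ θ x := (hθ x hx).differentiableAt (by simp)
        have e3 : DifferentiableAt ℝ ν x := hν.differentiable (by simp) x
        have e4 : DifferentiableAt ℝ (fun x => 1 - lam x) x := (differentiableAt_const _).sub e1
        change extd (fun x => lam x • θ x + (1 - lam x) • ν x) x = _
        rw [extd_add (w := fun x => lam x • θ x) (v := fun x => (1 - lam x) • ν x)
          (e1.fun_smul e2) (e4.fun_smul e3), extd_smul e1 e2, extd_smul e4 e3]
      have h2 : fderiv ℝ (fun x => 1 - lam x) x = -fderiv ℝ lam x := by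
        rw [fderiv_const_sub]
      have h3 : extd θ x = Ω x := (hΩ2 x hx).symm
      have h4 : (1 - lam x) • extd ν x = (1 - lam x) • Ω x := by
        by_cases hxN : x ∈ N'
        · rw [hΩν x hxN]
        · rw [(hlam1 x hxN).self_of_nhds, sub_self, zero_smul, zero_smul]
      rw [h1, h2, h3, h4, map_neg, neg_mul, dR, mul_sub]
      module
  -- the outer cutoff
  let r : V → ℝ := fun x => Real.smoothTransition (‖x‖ ^ 2 - 4)
  have hr : ContDiff ℝ ∞ r :=
    Real.smoothTransition.contDiff.comp ((contDiff_norm_sq ℝ).sub contDiff_const)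
  have hr0 : ∀ x, ‖x‖ < 2 → ∀ᶠ y in 𝓝 x, r y = 0 := by
    intro x hx
    have : ∀ᶠ y in 𝓝 x, ‖y‖ < 2 := (isOpen_lt continuous_norm continuous_const).mem_nhds hx
    filter_upwards [this] with y hy
    exact Real.smoothTransition.zero_of_nonpos (by nlinarith [norm_nonneg y])
  have hr1 : ∀ x, 3 ≤ ‖x‖ → r x = 1 := fun x hx =>
    Real.smoothTransition.one_of_one_le (by nlinarith)
  let w : V → Lam V := fun x => (1 - r x) • η x
  have hws : ContDiff ℝ ∞ w := contDiff_iff_contDiffAt.2 fun x =>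
    (contDiffAt_const.sub hr.contDiffAt).smul (hηs x)
  have hwc : HasCompactSupport w := HasCompactSupport.intro (isCompact_closedBall (0 : V) 3)
    fun x hx => by
      rw [mem_closedBall_zero_iff, not_le] at hx
      simp only [w, hr1 x hx.le, sub_self, zero_smul]
  have hwI := integral_evalForm_extd volume b (hws.of_le (by simp)) hwc
  have hpt : ∀ x, evalForm (Ω x) b =
      evalForm (extd w x) b - evalForm (dR lam x * (θ x - ν x)) b := by
    intro x
    rcases lt_or_ge ‖x‖ 2 with hx | hx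
    · have h1 : w =ᶠ[𝓝 x] η := by
        filter_upwards [hr0 x hx] with y hy
        simp only [w, hy, sub_zero, one_smul]
      rw [extd_congr h1, hmain x, Q.evalForm_sub]
    · have hxN : x ∉ N' := fun h => by
        have := mem_ball_zero_iff.1 (hN2 h)
        linarith
      have hxK : x ∉ Kc := fun h => hxN (hKN' h)
      have h1 : w =ᶠ[𝓝 x] fun x => (1 - r x) • θ x := by
        filter_upwards [hη1 x hxN] with y hy
        simp only [w, hy]
      have e1 : DifferentiableAt ℝ (fun x => 1 - r x) x :=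
        (differentiableAt_const _).sub (hr.differentiable (by simp) x)
      have e2 : DifferentiableAt ℝ θ x := (hθ x hxK).differentiableAt (by simp)
      have h3 : extd θ x = Ω x := (hΩ2 x hxK).symm
      rw [extd_congr h1, extd_smul e1 e2, h3, Q.evalForm_add, Q.evalForm_smul, hf1 x hx,
        hdl1 x hxN, zero_mul, Q.evalForm_zero]
      have h4 := hf2 x hx (fderiv ℝ (fun x => 1 - r x) x)
      change evalForm (dx _ * θ x) b = 0 at h4
      rw [h4]
      ring
  -- the collar
  have hcol : ∀ x, evalForm (dR lam x * (θ x - ν x)) b =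
      (s * κ) * evalForm (dR lam x * pb g (vs b) x) b + evalForm (dR lam x * extd ζ x) b := by
    intro x
    by_cases hxK : x ∈ Kc
    · rw [hdl0 x hxK, zero_mul, zero_mul, zero_mul, Q.evalForm_zero]
      ring
    by_cases hxN : x ∈ N'
    · have h3 : ‖x‖ < 3 := mem_ball_zero_iff.1 (hN3 hxN)
      have h1 : θ x - ν x = (s * κ) • pb g (vs b) x + extd ζ x := by
        simp only [θ]
        rw [hc1 x (hNN hxN) hxK, one_smul, (hdec x hxK h3).2.2.2]
        abel
      rw [h1, mul_add, mul_smul_comm, Q.evalForm_add, Q.evalForm_smul]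
    · rw [hdl1 x hxN, zero_mul, zero_mul, zero_mul, Q.evalForm_zero]
      ring
  -- the exact part
  let w2 : V → Lam V := fun x => dR lam x * ζ x
  have hdls : ContDiff ℝ ∞ (dR lam) := Q.contDiff_dR hlams
  have hw2z : ∀ x, (x ∈ Kc ∨ x ∉ N') → w2 =ᶠ[𝓝 x] fun _ => 0 := by
    rintro x (hx | hx)
    · have h1 : ∀ᶠ y in 𝓝 x, dR lam y = 0 := by
        filter_upwards [eventually_eventually_nhds.2 (hlam0 x hx)] with y hy
        have h2 : lam =ᶠ[𝓝 y] fun _ => 0 := hy
        rw [dR, h2.fderiv_eq]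
        simp
      filter_upwards [h1] with y hy
      simp only [w2, hy, zero_mul]
    · have h1 : ∀ᶠ y in 𝓝 x, dR lam y = 0 := by
        filter_upwards [eventually_eventually_nhds.2 (hlam1 x hx)] with y hy
        have h2 : lam =ᶠ[𝓝 y] fun _ => 1 := hy
        rw [dR, h2.fderiv_eq]
        simp
      filter_upwards [h1] with y hy
      simp only [w2, hy, zero_mul]
  have hw2s : ContDiff ℝ ∞ w2 := contDiff_iff_contDiffAt.2 fun x => by
    by_cases hx : x ∈ Kc ∨ x ∉ N'
    · exact (contDiffAt_const (c := (0 : Lam V))).congr_of_eventuallyEq (hw2z x hx)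
    · push Not at hx
      exact hdls.contDiffAt.mul (hdec x hx.1 (mem_ball_zero_iff.1 (hN3 hx.2))).2.2.1
  have hw2c : HasCompactSupport w2 := HasCompactSupport.intro hN' fun x hx =>
    (hw2z x (Or.inr hx)).self_of_nhds
  have hw2I := integral_evalForm_extd volume b (hw2s.of_le (by simp)) hw2c
  have hw2p : ∀ x, evalForm (extd w2 x) b = -evalForm (dR lam x * extd ζ x) b := by
    intro x
    by_cases hx : x ∈ Kc ∨ x ∉ N'
    · rw [extd_congr (hw2z x hx), extd_const, Q.evalForm_zero]
      rcases hx with hx | hx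
      · rw [hdl0 x hx, zero_mul, Q.evalForm_zero, neg_zero]
      · rw [hdl1 x hx, zero_mul, Q.evalForm_zero, neg_zero]
    · push Not at hx
      have e2 : DifferentiableAt ℝ ζ x :=
        (hdec x hx.1 (mem_ball_zero_iff.1 (hN3 hx.2))).2.2.1.differentiableAt (by simp)
      change evalForm (extd (fun x => dR lam x * ζ x) x) b = _
      rw [extd_mul (hdls.differentiable (by simp) x) e2, Q.extd_dR hlams, zero_mul, zero_add]
      have h5 : inv (dR lam x) = -dR lam x := inv_dx _
      rw [h5, neg_mul, ← neg_one_smul ℝ, Q.evalForm_smul, neg_one_mul]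
  simp only [hw2p] at hw2I
  rw [integral_neg, neg_eq_zero] at hw2I
  -- integrability
  have i1 : Integrable (fun x => evalForm (extd w x) b) volume := by
    have c1 : Continuous fun y => extd w y :=
      dLin.continuous.comp (hws.continuous_fderiv (by simp))
    have c2 : HasCompactSupport fun y => extd w y :=
      (hwc.fderiv ℝ).comp_left (g := dLin) (map_zero _)
    exact (evalL b).integrable_comp (c1.integrable_of_hasCompactSupport c2)
  have i3 : Integrable (fun x => evalForm (dR lam x * extd ζ x) b) volume := by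
    have h1 : (fun x => evalForm (dR lam x * extd ζ x) b) = fun x => -evalForm (extd w2 x) b := by
      funext x
      rw [hw2p x, neg_neg]
    rw [h1]
    have c1 : Continuous fun y => extd w2 y :=
      dLin.continuous.comp (hw2s.continuous_fderiv (by simp))
    have c2 : HasCompactSupport fun y => extd w2 y :=
      (hw2c.fderiv ℝ).comp_left (g := dLin) (map_zero _)
    exact ((evalL b).integrable_comp (c1.integrable_of_hasCompactSupport c2)).neg
  let w3 : V → Lam V := fun x => dR lam x * pb g (vs b) x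
  have hw3z : ∀ x, (x ∈ Kc ∨ x ∉ N') → w3 =ᶠ[𝓝 x] fun _ => 0 := by
    rintro x (hx | hx)
    · have h1 : ∀ᶠ y in 𝓝 x, dR lam y = 0 := by
        filter_upwards [eventually_eventually_nhds.2 (hlam0 x hx)] with y hy
        have h2 : lam =ᶠ[𝓝 y] fun _ => 0 := hy
        rw [dR, h2.fderiv_eq]
        simp
      filter_upwards [h1] with y hy
      simp only [w3, hy, zero_mul]
    · have h1 : ∀ᶠ y in 𝓝 x, dR lam y = 0 := by
        filter_upwards [eventually_eventually_nhds.2 (hlam1 x hx)] with y hy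
        have h2 : lam =ᶠ[𝓝 y] fun _ => 1 := hy
        rw [dR, h2.fderiv_eq]
        simp
      filter_upwards [h1] with y hy
      simp only [w3, hy, zero_mul]
  have hw3s : Continuous w3 := continuous_iff_continuousAt.2 fun x => by
    by_cases hx : x ∈ Kc ∨ x ∉ N'
    · exact (continuousAt_const (y := (0 : Lam V))).congr (hw3z x hx).symm
    · push Not at hx
      obtain ⟨g1, g2, -⟩ := hdec x hx.1 (mem_ball_zero_iff.1 (hN3 hx.2))
      exact hdls.continuous.continuousAt.mul (contDiffAt_pb (m := ∞) (n := ∞) g1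
        ((SM_vs b).at g2) (by simp)).continuousAt
  have hw3c : HasCompactSupport w3 := HasCompactSupport.intro hN' fun x hx =>
    (hw3z x (Or.inr hx)).self_of_nhds
  have i2 : Integrable (fun x => evalForm (w3 x) b) volume :=
    (evalL b).integrable_comp (hw3s.integrable_of_hasCompactSupport hw3c)
  have hw3I : ∫ x, evalForm (w3 x) b = k := by
    rw [← hk, setIntegral_eq_integral_of_forall_compl_eq_zero]
    intro x hx
    have hxN : x ∉ N' := fun h => hx (hN3 h)
    change evalForm (w3 x) b = 0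
    rw [(hw3z x (Or.inr hxN)).self_of_nhds, Q.evalForm_zero]
  -- conclusion
  have i4 : Integrable (fun x => evalForm (dR lam x * (θ x - ν x)) b) volume := by
    simp only [hcol]
    exact (i2.const_mul (s * κ)).add i3
  have hfin : ∫ x, evalForm (Ω x) b = -(s * κ * k) := by
    simp only [hpt]
    rw [integral_sub i1 i4, hwI, zero_sub]
    simp only [hcol]
    rw [integral_add (i2.const_mul (s * κ)) i3, hw2I, add_zero, integral_const_mul, hw3I]
  rcases hs with rfl | rfl
  · exact ⟨-k, by rw [hfin]; push_cast; ring⟩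
  · exact ⟨k, by rw [hfin]; ring⟩

end Final

end Vale.Agent.P231.S2I
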