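import Vale.Agent.P231.S2I.Fin
import Vale.Agent.P231.L3.Three

/-!
# P231, stage 2: the lower bound for the first coefficient, in the shape of `L3.volume_three`
-/

set_option maxSynthPendingDepth 3
set_option linter.unusedSectionVars false
set_option linter.unusedVariables false

open Bundle Manifold Set Filter Module MeasureTheory
open scoped ContDiff Manifold Topology Real

namespace Vale.Agent.P231.S2I

noncomputable section

open Vale.Agent.P234 Vale.Agent.P231 Vale.Agent.P231.Fm Vale.Agent.P231.W Vale.Agent.P231.WR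
  Vale.Agent.P231.H766 Vale.Agent.P231.S2I3 Vale.Agent.P231.S2N Vale.Agent.P231.L3

variable {E : Type*} [NormedAddCommGroup E] [NormedSpace ℝ E]
  {M : Type*} [MetricSpace M] [ChartedSpace E M]
  [RiemannianBundle (fun x : M => TangentSpace 𝓘(ℝ, E) x)]
  {e : ∀ x : M, TangentSpace 𝓘(ℝ, E) x → M}
  [FiniteDimensional ℝ E] [IsManifold 𝓘(ℝ, E) ∞ M]
  [IsContMDiffRiemannianBundle 𝓘(ℝ, E) ∞ E (fun x : M => TangentSpace 𝓘(ℝ, E) x)]
  [CompactSpace M] [ConnectedSpace M] [IsRiemannianManifold 𝓘(ℝ, E) M]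

variable (F : Facts e) {D : ℝ} (hD : 0 < D) (hB : InjGE e D) (hdiam : ∀ p q : M, dist p q ≤ D)

/-- **the bounds for the two coefficients from the integrality of `c` and `|c| ≤ 1`** -/
theorem int_three (hdim : 5 < finrank ℝ E)
    (hl : ∀ x y : M, dist x y = D → finrank ℝ (H775.Pl e D x y) = 2 * 1 + 2)
    {p : M}
    {Pi : TangentSpace 𝓘(ℝ, E) p → TangentSpace 𝓘(ℝ, E) p →L[ℝ] TangentSpace 𝓘(ℝ, E) p}
    {o : TangentSpace 𝓘(ℝ, E) p → Fm.Lam (TangentSpace 𝓘(ℝ, E) p)}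
    {ρ : TangentSpace 𝓘(ℝ, E) p → ℝ} {r₀ : ℝ}
    (hJ : FE.LineP e D p 1 Pi o) (hρ : WE.Rho e D p ρ r₀) {a : ℝ} (ha : a ≠ 0)
    {T : UT E M → ℝ → E →ₗ[ℝ] E} {Lm : Pr e D × ℝ → Pr e D} {Y : Pr e D → E} {ε₀ : ℝ}
    (hT : S2I3.LT F hD hB hdiam T)
    (hTl : ∀ b t, (vec' (Lm (b, t)).w : E) =
      (nm (gm e (b.v, t)) (T b.v t (vec' b.w)))⁻¹ • T b.v t (vec' b.w))
    (hL : PushL F hD hB hdiam Lm Y ε₀)
    (hrev : ∀ b t, Lm (S2N.rev F hD hB hdiam b, t) = S2N.rev F hD hB hdiam (Lm (b, -t)))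
    (g : Pr e D × ℝ → M) (hg : ((dPr e D).prod (Dif.lin ℝ)).Map (dM E M) g)
    (hg0 : ∀ b, g (b, 0) = foot b.v) (hg1 : ∀ b t, g (Lm (b, t), 1) = g (b, 1))
    {ℓ : Form (dPr e D)} (hℓ : b1P F hD hB hdiam hL hg (FE.FF F hD hB hdiam hl hJ hρ a) =
        (-1 : ℝ) • b0P F hD hB hdiam (FE.FF F hD hB hdiam hl hJ hρ a) + ℓ.d)
    {a' μ : ℝ} {σ : Form (dPr e D)} (hσ : Basic Lm hL.flow.map σ)
    (hrel : b1P F hD hB hdiam hL hg (FE.FF F hD hB hdiam hl hJ hρ a) ^ 2 =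
        a' • eP e D ^ 2 + μ • GsP F hD hB hdiam hg (FE.FF F hD hB hdiam hl hJ hρ a) + σ.d)
    (ha' : a' ≠ 0) (c : ℤ) (hμ : μ = 2 * FE.kap 1 a * c) (hc : |c| ≤ 1) :
    FE.kap 1 a ^ 2 ≤ |a'| ∧ |μ| ≤ 2 * FE.kap 1 a := by
  have hk : 0 < FE.kap 1 a := FE.kap_pos 1 ha
  obtain ⟨H, hH⟩ := int_a F hD hB hdiam hdim hl hJ hρ ha hT hTl hL hrev hg hg0 hg1
    (b1 := b1P F hD hB hdiam hL hg (FE.FF F hD hB hdiam hl hJ hρ a)) rfl hℓ hσ hrel c hμ
  have hH' : a' = FE.kap 1 a ^ 2 * H := hH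
  refine ⟨?_, ?_⟩
  · have h1 : H ≠ 0 := by
      rintro rfl
      rw [hH', Int.cast_zero, mul_zero] at ha'
      exact ha' rfl
    have h2 : (1 : ℝ) ≤ |(H : ℝ)| := by
      rw [← Int.cast_abs]
      exact_mod_cast Int.one_le_abs h1
    rw [hH', abs_mul, abs_of_pos (by positivity)]
    exact le_mul_of_one_le_right (by positivity) h2
  · have h2 : |(c : ℝ)| ≤ 1 := by
      rw [← Int.cast_abs]
      exact_mod_cast hc
    rw [hμ, abs_mul, abs_of_pos (by positivity)]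
    exact mul_le_of_le_one_right (by positivity) h2

end

end Vale.Agent.P231.S2I
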