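import Vale.Agent.P231.S2I.JMap
import Vale.Agent.P231.Co.On

/-!
# P231, stage 2: integrality, the two models `Px V` and `V` (with the plots avoiding `0`) of the
punctured space
-/

set_option linter.unusedSectionVars false
set_option linter.unusedVariables false

open MeasureTheory Set Module Filter Topology Metric
open scoped ContDiff

namespace Vale.Agent.P231.S2I

open Fm W H584
open Q (dR Cut)

section

variable {V : Type} [NormedAddCommGroup V] [NormedSpace ℝ V] [Nontrivial V]
  [FiniteDimensional ℝ V]

theorem map_ret : ((Dif.lin V).on {x : V | x ≠ 0}).Map (dPx V) ret := by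
  intro E _ _ _ u x hu
  change Sm (fun e => ((ret (u e) : Px V) : V)) x
  refine hu.1.congr ?_
  filter_upwards [hu.2] with e he
  exact (ret_val he).symm

theorem map_coe_on : (dPx V).Map ((Dif.lin V).on {x : V | x ≠ 0}) Subtype.val := by
  intro E _ _ _ u x hu
  exact ⟨hu, Eventually.of_forall fun e => (u e).2⟩

theorem on_at_id {x : V} (hx : x ≠ 0) : ((Dif.lin V).on {x : V | x ≠ 0}).At (id : V → V) x :=
  ⟨Sm.of_contDiff contDiff_id x, isOpen_compl_singleton.mem_nhds hx⟩

/-- values on the identity plot -/
theorem pull_ret_val (w : Form (dPx V)) {x : V} (hx : x ≠ 0) :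
    (Form.pull ret map_ret w).val (id : V → V) x = w.val ret x :=
  Form.pull_val _ _ (on_at_id hx)

theorem pull_coe_val (w : Form ((Dif.lin V).on {x : V | x ≠ 0})) {x : V} (hx : x ≠ 0) :
    (Form.pull Subtype.val map_coe_on w).val ret x = w.val (id : V → V) x := by
  rw [Form.pull_val _ _ (at_ret hx)]
  refine w.congr (map_coe_on (at_ret hx)) ?_
  filter_upwards [isOpen_compl_singleton.mem_nhds hx] with y hy
  exact ret_val hy

theorem pull_coe_ret (w : Form (dPx V)) :
    Form.pull Subtype.val map_coe_on (Form.pull ret map_ret w) = w :=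
  form_ext fun x hx => by rw [pull_coe_val _ hx, pull_ret_val _ hx]

end

theorem I3_apply (w : Form (dPx R4)) :
    I3 w = ∫ x : R4, evalForm (dR rst x * w.val ret x) b4 := rfl

/-- the functional in terms of the values on the identity plot -/
theorem I3_eq_on (w : Form (dPx R4)) :
    I3 w = ∫ x : R4, evalForm (dR rst x * (Form.pull ret map_ret w).val (id : R4 → R4) x) b4 := by
  rw [I3_apply]
  refine integral_congr_ae (Eventually.of_forall fun x => ?_)
  change evalForm (dR rst x * w.val ret x) b4 = evalForm (dR rst x * _) b4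
  rcases eq_or_ne x 0 with rfl | hx
  · rw [dR_rst_zero (by simp), zero_mul, zero_mul]
  · rw [pull_ret_val _ hx]

end Vale.Agent.P231.S2I
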