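import Vale.Agent.P231.Fm.DegSphere

/-!
# P231, block S2-I (I5): rotations and unit quaternions

`IsRot a Q`: conjugation by the unit quaternion `a` is the rotation `Q`. Rotations with
`0 < 1 + tr Q` have a lift depending smoothly on `Q`.
-/

set_option linter.unusedSectionVars false

open Module Set Filter
open scoped ContDiff Topology Quaternion

noncomputable section

namespace Vale.Agent.P231.S2I

/-- matrices as functions -/
abbrev M3 := Fin 3 → Fin 3 → ℝ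

/-- rotation matrices -/
def IsSO (Q : M3) : Prop := (Matrix.of Q).transpose * Matrix.of Q = 1 ∧ (Matrix.of Q).det = 1

/-- the product -/
def mm (P Q : M3) : M3 := fun i j => ∑ k, P i k * Q k j

/-- the transpose -/
def tp (Q : M3) : M3 := fun i j => Q j i

theorem of_mm (P Q : M3) : Matrix.of (mm P Q) = Matrix.of P * Matrix.of Q := by
  ext i j
  simp [mm, Matrix.mul_apply]

theorem of_tp (Q : M3) : Matrix.of (tp Q) = (Matrix.of Q).transpose := by
  ext i j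
  simp [tp]

/-- the unit matrix -/
def e3 : M3 := fun i j => if i = j then 1 else 0

theorem of_e3 : Matrix.of e3 = (1 : Matrix (Fin 3) (Fin 3) ℝ) := by
  ext i j
  simp [e3, Matrix.one_apply]

theorem IsSO.mul {P Q : M3} (hP : IsSO P) (hQ : IsSO Q) : IsSO (mm P Q) := by
  refine ⟨?_, ?_⟩
  · rw [of_mm, Matrix.transpose_mul, Matrix.mul_assoc, ← Matrix.mul_assoc _ (Matrix.of P), hP.1,
      Matrix.one_mul, hQ.1]
  · rw [of_mm, Matrix.det_mul, hP.2, hQ.2, one_mul]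

theorem IsSO.mul_tp {Q : M3} (hQ : IsSO Q) : Matrix.of Q * (Matrix.of Q).transpose = 1 :=
  mul_eq_one_comm.1 hQ.1

theorem IsSO.tp {Q : M3} (hQ : IsSO Q) : IsSO (tp Q) := by
  refine ⟨?_, ?_⟩
  · rw [of_tp, Matrix.transpose_transpose, hQ.mul_tp]
  · rw [of_tp, Matrix.det_transpose, hQ.2]

theorem IsSO.orth {Q : M3} (hQ : IsSO Q) (i j : Fin 3) :
    Q 0 i * Q 0 j + Q 1 i * Q 1 j + Q 2 i * Q 2 j = if i = j then 1 else 0 := by
  have h := congrFun (congrFun hQ.1 i) j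
  rw [Matrix.mul_apply, Matrix.one_apply, Fin.sum_univ_three] at h
  exact h

theorem IsSO.adj {Q : M3} (hQ : IsSO Q) :
    (Matrix.of Q).adjugate = (Matrix.of Q).transpose := by
  have h1 : (Matrix.of Q).transpose * (Matrix.of Q * (Matrix.of Q).adjugate) =
      (Matrix.of Q).adjugate := by
    rw [← Matrix.mul_assoc, hQ.1, Matrix.one_mul]
  rw [Matrix.mul_adjugate, hQ.2, one_smul, Matrix.mul_one] at h1
  exact h1.symm

section Cof

variable {Q : M3} (hQ : IsSO Q)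
include hQ

theorem IsSO.c00 : Q 1 1 * Q 2 2 - Q 1 2 * Q 2 1 = Q 0 0 := by
  have h := congrFun (congrFun hQ.adj 0) 0
  rw [Matrix.adjugate_fin_three] at h
  simp at h
  linarith

theorem IsSO.c01 : Q 1 2 * Q 2 0 - Q 1 0 * Q 2 2 = Q 0 1 := by
  have h := congrFun (congrFun hQ.adj 1) 0
  rw [Matrix.adjugate_fin_three] at h
  simp at h
  linarith

theorem IsSO.c02 : Q 1 0 * Q 2 1 - Q 1 1 * Q 2 0 = Q 0 2 := by
  have h := congrFun (congrFun hQ.adj 2) 0
  rw [Matrix.adjugate_fin_three] at h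
  simp at h
  linarith

theorem IsSO.c10 : Q 2 1 * Q 0 2 - Q 2 2 * Q 0 1 = Q 1 0 := by
  have h := congrFun (congrFun hQ.adj 0) 1
  rw [Matrix.adjugate_fin_three] at h
  simp at h
  linarith

theorem IsSO.c11 : Q 2 2 * Q 0 0 - Q 2 0 * Q 0 2 = Q 1 1 := by
  have h := congrFun (congrFun hQ.adj 1) 1
  rw [Matrix.adjugate_fin_three] at h
  simp at h
  linarith

theorem IsSO.c12 : Q 2 0 * Q 0 1 - Q 2 1 * Q 0 0 = Q 1 2 := by
  have h := congrFun (congrFun hQ.adj 2) 1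
  rw [Matrix.adjugate_fin_three] at h
  simp at h
  linarith

theorem IsSO.c20 : Q 0 1 * Q 1 2 - Q 0 2 * Q 1 1 = Q 2 0 := by
  have h := congrFun (congrFun hQ.adj 0) 2
  rw [Matrix.adjugate_fin_three] at h
  simp at h
  linarith

theorem IsSO.c21 : Q 0 2 * Q 1 0 - Q 0 0 * Q 1 2 = Q 2 1 := by
  have h := congrFun (congrFun hQ.adj 1) 2
  rw [Matrix.adjugate_fin_three] at h
  simp at h
  linarith

theorem IsSO.c22 : Q 0 0 * Q 1 1 - Q 0 1 * Q 1 0 = Q 2 2 := by
  have h := congrFun (congrFun hQ.adj 2) 2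
  rw [Matrix.adjugate_fin_three] at h
  simp at h
  linarith

end Cof

/-- the quaternion with given coordinates -/
def mkq (a b c d : ℝ) : ℍ[ℝ] := ⟨a, b, c, d⟩

@[simp] theorem mkq_re (a b c d : ℝ) : (mkq a b c d).re = a := rfl

@[simp] theorem mkq_imI (a b c d : ℝ) : (mkq a b c d).imI = b := rfl

@[simp] theorem mkq_imJ (a b c d : ℝ) : (mkq a b c d).imJ = c := rfl

@[simp] theorem mkq_imK (a b c d : ℝ) : (mkq a b c d).imK = d := rfl

/-- the imaginary quaternion with given coordinates -/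
def qv (v : Fin 3 → ℝ) : ℍ[ℝ] := mkq 0 (v 0) (v 1) (v 2)

/-- application of a matrix -/
def mv (Q : M3) (v : Fin 3 → ℝ) : Fin 3 → ℝ := fun i => ∑ j, Q i j * v j

theorem mv_mm (P Q : M3) (v : Fin 3 → ℝ) : mv (mm P Q) v = mv P (mv Q v) := by
  funext i
  simp only [mv, mm, Fin.sum_univ_three]
  ring

/-- conjugation by `a` is `Q` -/
def IsRot (a : ℍ[ℝ]) (Q : M3) : Prop := ‖a‖ = 1 ∧ ∀ v, a * qv v = qv (mv Q v) * a

theorem IsRot.mul {a b : ℍ[ℝ]} {P Q : M3} (ha : IsRot a P) (hb : IsRot b Q) :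
    IsRot (a * b) (mm P Q) := by
  refine ⟨by rw [norm_mul, ha.1, hb.1, one_mul], fun v => ?_⟩
  rw [mul_assoc, hb.2, ← mul_assoc, ha.2, mul_assoc, mv_mm]

theorem isRot_one : IsRot 1 e3 := by
  refine ⟨norm_one, fun v => ?_⟩
  have : mv e3 v = v := by
    funext i
    simp [mv, e3]
  rw [this, one_mul, mul_one]

/-- uniqueness of the lift up to sign -/
theorem IsRot.eq_or {a b : ℍ[ℝ]} {Q : M3} (ha : IsRot a Q) (hb : IsRot b Q) :
    a = b ∨ a = -b := by
  have hb0 : b ≠ 0 := fun h => by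
    have := hb.1
    rw [h, norm_zero] at this
    exact zero_ne_one this
  set c : ℍ[ℝ] := b⁻¹ * a with hc
  have hcn : ‖c‖ = 1 := by rw [hc, norm_mul, norm_inv, ha.1, hb.1, inv_one, one_mul]
  have hcomm : ∀ v, c * qv v = qv v * c := by
    intro v
    have h1 := ha.2 v
    have h2 := hb.2 v
    rw [hc, mul_assoc, h1, ← mul_assoc, ← mul_assoc]
    congr 1
    have h3 : qv (mv Q v) = b * qv v * b⁻¹ := by rw [h2, mul_inv_cancel_right₀ hb0]
    rw [h3, mul_assoc b, inv_mul_cancel_left₀ hb0]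
  have h1 := hcomm ![1, 0, 0]
  have h2 := hcomm ![0, 1, 0]
  rw [Quaternion.ext_iff] at h1 h2
  simp [qv] at h1 h2
  obtain ⟨h1a, h1b⟩ := h1
  obtain ⟨h2a, h2b⟩ := h2
  have e1 : c.imI = 0 := by linarith
  have e2 : c.imJ = 0 := by linarith
  have e3' : c.imK = 0 := by linarith
  have hcr : c = (c.re : ℍ[ℝ]) := by
    rw [Quaternion.ext_iff]
    simp [e1, e2, e3']
  have h5 : |c.re| = 1 := by
    rw [hcr, Quaternion.norm_coe, Real.norm_eq_abs] at hcn
    simpa using hcn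
  have h6 : a = b * c := by rw [hc, mul_inv_cancel_left₀ hb0]
  rcases (abs_eq zero_le_one).1 h5 with h | h
  · left
    rw [h6, hcr, h]
    simp
  · right
    rw [h6, hcr, h]
    simp

/-- `1 + tr` -/
def tr1 (Q : M3) : ℝ := 1 + Q 0 0 + Q 1 1 + Q 2 2

/-- the unnormalised lift -/
def lift0 (Q : M3) : ℍ[ℝ] :=
  mkq (tr1 Q) (Q 2 1 - Q 1 2) (Q 0 2 - Q 2 0) (Q 1 0 - Q 0 1)

/-- the lift of a rotation -/
def lft (Q : M3) : ℍ[ℝ] := (2 * √(tr1 Q))⁻¹ • lift0 Q

theorem normSq_lift0 {Q : M3} (hQ : IsSO Q) : Quaternion.normSq (lift0 Q) = 4 * tr1 Q := by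
  rw [Quaternion.normSq_def']
  simp only [lift0, tr1, mkq_re, mkq_imI, mkq_imJ, mkq_imK]
  have o0 := hQ.orth 0 0
  have o1 := hQ.orth 1 1
  have o2 := hQ.orth 2 2
  simp only [if_true] at o0 o1 o2
  linear_combination 2 * hQ.c00 + 2 * hQ.c11 + 2 * hQ.c22 + o0 + o1 + o2

theorem lift0_comm {Q : M3} (hQ : IsSO Q) (v : Fin 3 → ℝ) :
    lift0 Q * qv v = qv (mv Q v) * lift0 Q := by
  have o00 := hQ.orth 0 0
  have o11 := hQ.orth 1 1
  have o22 := hQ.orth 2 2
  have o01 := hQ.orth 0 1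
  have o02 := hQ.orth 0 2
  have o12 := hQ.orth 1 2
  simp at o00 o11 o22 o01 o02 o12
  rw [Quaternion.ext_iff]
  refine ⟨?_, ?_, ?_, ?_⟩
  · simp only [lift0, qv, mv, tr1, Fin.sum_univ_three, Quaternion.re_mul, mkq_re, mkq_imI,
      mkq_imJ, mkq_imK]
    linear_combination v 0 * (-hQ.c12 + hQ.c21) + v 1 * (hQ.c02 - hQ.c20) +
      v 2 * (-hQ.c01 + hQ.c10)
  · simp only [lift0, qv, mv, tr1, Fin.sum_univ_three, Quaternion.imI_mul, mkq_re, mkq_imI,
      mkq_imJ, mkq_imK]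
    linear_combination v 0 * (-hQ.c11 - hQ.c22 - o00) + v 1 * (hQ.c10 - o01) +
      v 2 * (hQ.c20 - o02)
  · simp only [lift0, qv, mv, tr1, Fin.sum_univ_three, Quaternion.imJ_mul, mkq_re, mkq_imI,
      mkq_imJ, mkq_imK]
    linear_combination v 0 * (hQ.c01 - o01) + v 1 * (-hQ.c00 - hQ.c22 - o11) +
      v 2 * (hQ.c21 - o12)
  · simp only [lift0, qv, mv, tr1, Fin.sum_univ_three, Quaternion.imK_mul, mkq_re, mkq_imI,
      mkq_imJ, mkq_imK]
    linear_combination v 0 * (hQ.c02 - o02) + v 1 * (hQ.c12 - o12) +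
      v 2 * (-hQ.c00 - hQ.c11 - o22)

theorem isRot_lft {Q : M3} (hQ : IsSO Q) (h : 0 < tr1 Q) : IsRot (lft Q) Q := by
  have hs : 0 < √(tr1 Q) := Real.sqrt_pos.2 h
  refine ⟨?_, fun v => ?_⟩
  · have h1 : ‖lift0 Q‖ = 2 * √(tr1 Q) := by
      have h2 : ‖lift0 Q‖ * ‖lift0 Q‖ = (2 * √(tr1 Q)) * (2 * √(tr1 Q)) := by
        rw [← Quaternion.normSq_eq_norm_mul_self, normSq_lift0 hQ]
        have := Real.mul_self_sqrt h.le
        nlinarith
      nlinarith [norm_nonneg (lift0 Q), mul_self_inj (norm_nonneg (lift0 Q))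
        (by positivity : (0 : ℝ) ≤ 2 * √(tr1 Q))]
    rw [lft, norm_smul, h1, norm_inv, Real.norm_eq_abs, abs_of_pos (by positivity),
      inv_mul_cancel₀ (by positivity)]
  · have h1 : ∀ (c : ℝ) (a b : ℍ[ℝ]), (c • a) * b = c • (a * b) := fun c a b =>
      smul_mul_assoc c a b
    have h2 : ∀ (c : ℝ) (a b : ℍ[ℝ]), a * (c • b) = c • (a * b) := fun c a b =>
      mul_smul_comm c a b
    rw [lft, h1, lift0_comm hQ, h2]

theorem quat_eq (a b c d : ℝ) : mkq a b c d = a • (1 : ℍ[ℝ]) + b • mkq 0 1 0 0 +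
    c • mkq 0 0 1 0 + d • mkq 0 0 0 1 := by
  rw [Quaternion.ext_iff]
  simp

theorem contDiffAt_mk {E : Type*} [NormedAddCommGroup E] [NormedSpace ℝ E] {a b c d : E → ℝ}
    {x : E} {n : WithTop ℕ∞} (ha : ContDiffAt ℝ n a x) (hb : ContDiffAt ℝ n b x)
    (hc : ContDiffAt ℝ n c x) (hd : ContDiffAt ℝ n d x) :
    ContDiffAt ℝ n (fun y => mkq (a y) (b y) (c y) (d y)) x := by
  have h : (fun y => mkq (a y) (b y) (c y) (d y)) = fun y => a y • (1 : ℍ[ℝ]) +
      b y • mkq 0 1 0 0 + c y • mkq 0 0 1 0 + d y • mkq 0 0 0 1 := by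
    funext y
    exact quat_eq _ _ _ _
  rw [h]
  exact (((ha.smul contDiffAt_const).add (hb.smul contDiffAt_const)).add
    (hc.smul contDiffAt_const)).add (hd.smul contDiffAt_const)

theorem contDiff_entry (i j : Fin 3) {n : WithTop ℕ∞} : ContDiff ℝ n (fun Q : M3 => Q i j) := by
  fun_prop

theorem contDiff_tr1 {n : WithTop ℕ∞} : ContDiff ℝ n tr1 := by
  unfold tr1
  fun_prop

theorem contDiffAt_lft {Q : M3} (h : 0 < tr1 Q) : ContDiffAt ℝ ∞ lft Q := by
  have h1 : ContDiffAt ℝ ∞ (fun Q => (2 * √(tr1 Q))⁻¹) Q := by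
    refine ContDiffAt.inv (contDiffAt_const.mul ?_) (by positivity)
    exact contDiff_tr1.contDiffAt.sqrt h.ne'
  have h2 : ContDiffAt ℝ ∞ lift0 Q := by
    exact contDiffAt_mk contDiff_tr1.contDiffAt
      ((contDiff_entry 2 1).sub (contDiff_entry 1 2)).contDiffAt
      ((contDiff_entry 0 2).sub (contDiff_entry 2 0)).contDiffAt
      ((contDiff_entry 1 0).sub (contDiff_entry 0 1)).contDiffAt
  exact h1.smul h2

end Vale.Agent.P231.S2I
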