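import Vale.Agent.P231.Fm.DegSphere

/-!
# P231, block S2-I: integration over the sphere of forms on `E \ {0}`

`IS μ b r w = ∫ evalForm (dR r ∧ w) b` for a cutoff function `r`.
-/

set_option linter.unusedSectionVars false

open Module MeasureTheory Set Metric Filter
open scoped ContDiff Topology

noncomputable section

namespace Vale.Agent.P231.S2I

open Fm
open Q (dR Cut)

variable {E : Type*} [NormedAddCommGroup E] [NormedSpace ℝ E] [FiniteDimensional ℝ E]

/-- smooth outside the origin -/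
def SM (w : E → Lam E) : Prop := ContDiffOn ℝ ∞ w {0}ᶜ

theorem SM.at {w : E → Lam E} (h : SM w) {x : E} (hx : x ≠ 0) : ContDiffAt ℝ ∞ w x :=
  h.contDiffAt (isOpen_compl_singleton.mem_nhds hx)

theorem SM.diff {w : E → Lam E} (h : SM w) {x : E} (hx : x ≠ 0) : DifferentiableAt ℝ w x :=
  (h.at hx).differentiableAt (by simp)

theorem SM.of {w : E → Lam E} (h : ∀ x ≠ 0, ContDiffAt ℝ ∞ w x) : SM w := fun x hx =>
  (h x hx).contDiffWithinAt

theorem SM.add {v w : E → Lam E} (hv : SM v) (hw : SM w) : SM fun x => v x + w x :=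
  ContDiffOn.add hv hw

theorem SM.sub {v w : E → Lam E} (hv : SM v) (hw : SM w) : SM fun x => v x - w x :=
  ContDiffOn.sub hv hw

theorem SM.mul {v w : E → Lam E} (hv : SM v) (hw : SM w) : SM fun x => v x * w x :=
  ContDiffOn.mul hv hw

theorem SM.smul {w : E → Lam E} (c : ℝ) (hw : SM w) : SM fun x => c • w x :=
  ContDiffOn.const_smul c hw

theorem SM.inv {w : E → Lam E} (hw : SM w) : SM fun x => inv (w x) :=
  (invL (E := E)).contDiff.comp_contDiffOn hw

theorem SM.extd {w : E → Lam E} (hw : SM w) : SM (extd w) :=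
  SM.of fun _ hx => contDiffAt_extd (hw.at hx) (by simp)

theorem SM.extd_extd {w : E → Lam E} (hw : SM w) {x : E} (hx : x ≠ 0) :
    Fm.extd (Fm.extd w) x = 0 :=
  Fm.extd_extd ((hw.at hx).of_le two_le_inf)

variable [MeasurableSpace E] [BorelSpace E]

/-- the integral over the sphere -/
def IS (μ : Measure E) {n : ℕ} (b : Fin n → E) (r : E → ℝ) (w : E → Lam E) : ℝ :=
  ∫ x, evalForm (dR r x * w x) b ∂μ

variable (μ : Measure E) [μ.IsAddHaarMeasure] {n : ℕ} (b : Fin n → E) {r : E → ℝ} {K : Set E}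

theorem cutForm (hr : Cut r K) {w : E → Lam E} (hw : SM w) :
    ContDiff ℝ ∞ (fun x => dR r x * w x) ∧ HasCompactSupport fun x => dR r x * w x := by
  refine ⟨?_, ?_⟩
  · refine contDiff_iff_contDiffAt.2 fun x => ?_
    rcases eq_or_ne x 0 with rfl | hx
    · have h0 : (fun x => dR r x * w x) =ᶠ[𝓝 (0 : E)] fun _ => 0 := by
        filter_upwards [hr.dR_near] with y hy
        rw [hy, zero_mul]
      exact (contDiffAt_const (c := (0 : Lam E))).congr_of_eventuallyEq h0
    · exact (Q.contDiff_dR hr.smooth).contDiffAt.mul (hw.at hx)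
  · exact HasCompactSupport.intro hr.compact fun y hy => by rw [hr.dR_out hy, zero_mul]

theorem IS.integrable (hr : Cut r K) {w : E → Lam E} (hw : SM w) :
    Integrable (fun x => evalForm (dR r x * w x) b) μ := by
  obtain ⟨h1, h2⟩ := cutForm hr hw
  exact (evalL b).integrable_comp (h1.continuous.integrable_of_hasCompactSupport h2)

theorem IS.add (hr : Cut r K) {v w : E → Lam E} (hv : SM v) (hw : SM w) :
    IS μ b r (fun x => v x + w x) = IS μ b r v + IS μ b r w := by
  rw [IS, IS, IS, ← integral_add (IS.integrable μ b hr hv) (IS.integrable μ b hr hw)]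
  refine integral_congr_ae (Eventually.of_forall fun x => ?_)
  simp only [mul_add]
  exact Q.evalForm_add b _ _

theorem IS.sub (hr : Cut r K) {v w : E → Lam E} (hv : SM v) (hw : SM w) :
    IS μ b r (fun x => v x - w x) = IS μ b r v - IS μ b r w := by
  rw [IS, IS, IS, ← integral_sub (IS.integrable μ b hr hv) (IS.integrable μ b hr hw)]
  refine integral_congr_ae (Eventually.of_forall fun x => ?_)
  simp only [mul_sub]
  exact Q.evalForm_sub b _ _

theorem IS.smul (c : ℝ) (w : E → Lam E) :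
    IS μ b r (fun x => c • w x) = c * IS μ b r w := by
  rw [IS, IS, ← integral_const_mul]
  refine integral_congr_ae (Eventually.of_forall fun x => ?_)
  simp only [mul_smul_comm]
  exact Q.evalForm_smul b _ _

theorem IS.congr (hr : Cut r K) {v w : E → Lam E} (h : ∀ x ≠ 0, v x = w x) :
    IS μ b r v = IS μ b r w := by
  refine integral_congr_ae (Eventually.of_forall fun x => ?_)
  rcases eq_or_ne x 0 with rfl | hx
  · simp only [hr.dR_near.self_of_nhds, zero_mul]
  · simp only [h x hx]

/-- Stokes -/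
theorem IS.extd (hr : Cut r K) {w : E → Lam E} (hw : SM w) : IS μ b r (Fm.extd w) = 0 := by
  obtain ⟨h1, h2⟩ := cutForm hr hw
  have h3 := integral_evalForm_extd μ b (h1.of_le (by simp)) h2
  have h4 : ∀ x, evalForm (Fm.extd (fun x => dR r x * w x) x) b =
      -evalForm (dR r x * Fm.extd w x) b := by
    intro x
    rcases eq_or_ne x 0 with rfl | hx
    · have h0 : (fun x => dR r x * w x) =ᶠ[𝓝 (0 : E)] fun _ => 0 := by
        filter_upwards [hr.dR_near] with y hy
        rw [hy, zero_mul]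
      rw [extd_congr h0, extd_const, hr.dR_near.self_of_nhds, zero_mul, Q.evalForm_zero, neg_zero]
    · rw [extd_mul ((Q.contDiff_dR hr.smooth).differentiable (by simp) x) (hw.diff hx),
        Q.extd_dR hr.smooth, zero_mul, zero_add]
      have h5 : inv (dR r x) = -dR r x := inv_dx _
      rw [h5, neg_mul, ← neg_one_smul ℝ, Q.evalForm_smul, neg_one_mul]
  simp only [h4, integral_neg, neg_eq_zero] at h3
  exact h3

/-- the integral of `δ dτ` for a closed form `δ` -/
theorem IS.closed_mul (hr : Cut r K) {δ τ : E → Lam E} (hδ : SM δ) (hτ : SM τ)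
    (hd : ∀ x ≠ 0, Fm.extd δ x = 0) : IS μ b r (fun x => δ x * Fm.extd τ x) = 0 := by
  rw [← IS.extd μ b hr (hδ.inv.mul hτ)]
  refine IS.congr μ b hr fun x hx => ?_
  rw [extd_mul (hδ.inv.diff hx) (hτ.diff hx), extd_inv (hδ.diff hx), hd x hx, map_zero, neg_zero,
    zero_mul, zero_add, Fm.inv_inv]

/-- integration by parts -/
theorem IS.part (hr : Cut r K) {σ ζ : E → Lam E} (hσ : SM σ) (hζ : SM ζ) :
    IS μ b r (fun x => σ x * Fm.extd ζ x) =
      IS μ b r (fun x => inv (Fm.extd σ x) * ζ x) := by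
  have h1 := IS.extd μ b hr (hσ.inv.mul hζ)
  have h2 : IS μ b r (Fm.extd fun x => inv (σ x) * ζ x) =
      IS μ b r (fun x => σ x * Fm.extd ζ x - inv (Fm.extd σ x) * ζ x) := by
    refine IS.congr μ b hr fun x hx => ?_
    rw [extd_mul (hσ.inv.diff hx) (hζ.diff hx), extd_inv (hσ.diff hx), Fm.inv_inv, neg_mul]
    abel
  rw [h2, IS.sub μ b hr (hσ.mul hζ.extd) (hσ.extd.inv.mul hζ), sub_eq_zero] at h1
  exact h1

/-- the integral of `τ dτ` depends only on `dτ` -/
theorem IS.prim (hr : Cut r K) {τ τ' : E → Lam E} (hτ : SM τ) (hτ' : SM τ')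
    (h : ∀ x ≠ 0, Fm.extd τ x = Fm.extd τ' x) :
    IS μ b r (fun x => τ x * Fm.extd τ x) = IS μ b r (fun x => τ' x * Fm.extd τ' x) := by
  have h1 := IS.closed_mul μ b hr (hτ.sub hτ') hτ' fun x hx => by
    rw [extd_sub (hτ.diff hx) (hτ'.diff hx), h x hx, sub_self]
  have h2 : IS μ b r (fun x => (τ x - τ' x) * Fm.extd τ' x) =
      IS μ b r (fun x => τ x * Fm.extd τ x - τ' x * Fm.extd τ' x) := by
    refine IS.congr μ b hr fun x hx => ?_
    rw [sub_mul, h x hx]
  rw [h2, IS.sub μ b hr (hτ.mul hτ.extd) (hτ'.mul hτ'.extd), sub_eq_zero] at h1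
  exact h1

end Vale.Agent.P231.S2I
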